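import Vale.Agent.P280Z.Al.X4
import Vale.Agent.P280Z.Al.Lei

/-!
# P280Z, block M2: the ring of `X` in dimension six when the fibres of `e` are surfaces
-/

noncomputable section

namespace Vale.Agent.P280Z

namespace NS
variable {A B : Type} [CommRing A] [Algebra ℝ A] [CommRing B] [Algebra ℝ B] (S : NS A B)

/-- the numbers `D` and `a D`, for fibres of dimension two -/
structure Num2 (D a : ℝ) : Prop where
  pos : 0 < D
  nn : 0 ≤ a
  el2 : S.el (S.τ ^ 2) = algebraMap ℝ A D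
  s3 : S.Sg (S.η ^ 3) = algebraMap ℝ A D
  s4 : S.Sg (S.η ^ 4) = (a * D) • S.η

/-- the case `b₄ = 2` -/
structure U62 (u : A) : Prop where
  dg : S.GX.Dg 2 u
  prim : S.η ^ 3 * u = 0
  pos : 0 < S.GX.int (u * u * S.η ^ 2)
  d2 : ∀ b, S.GX.Dg 2 b → ∃ x z : ℝ, b = x • S.η ^ 2 + z • u
  y0 : ∀ y, S.GX.Dg 3 y → S.η * y = 0 → S.Sg y = 0

end NS

namespace M2.X62

open Al Al.X4a

variable {A B : Type} [CommRing A] [Algebra ℝ A] [CommRing B] [Algebra ℝ B] {S : NS A B}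
  {D a : ℝ} {n : ℕ}

/-- the push forward of `T x T y` -/
def Bb (S : NS A B) (x y : A) : A := S.el (S.T (S.es x) * S.T (S.es y))

theorem Bb_comm (x y : A) : Bb S x y = Bb S y x := by rw [Bb, mul_comm, Bb]

theorem Bb_add (x x' y : A) : Bb S (x + x') y = Bb S x y + Bb S x' y := by
  simp only [Bb, map_add, add_mul]

theorem Bb_smul (c : ℝ) (x y : A) : Bb S (c • x) y = c • Bb S x y := by
  simp only [Bb, map_smul, smul_mul_assoc]

theorem Sg_smul (c : ℝ) (x : A) : S.Sg (c • x) = c • S.Sg x := by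
  simp only [NS.Sg, map_smul]

theorem sym (hO : S.OK0 n 2) (x y z : A) :
    Bb S (x * y) z - Bb S x z * y = Bb S (x * z) y - Bb S x y * z := by
  have hL := lei S n 2 hO
  rw [Bb, Bb, Bb, Bb, ← hO.proj, ← hO.proj, ← map_sub, ← map_sub, map_mul S.es, map_mul S.es,
    hL.mul, hL.mul]
  congr 1
  ring

theorem der (hO : S.OK0 n 2) (x z : A) :
    Bb S (x * S.η) z = Bb S x z * S.η + S.Sg (x * z) - S.Sg x * z := by
  have h := sym hO x S.η z
  rw [show ∀ y, Bb S y S.η = S.Sg y from fun y => by rw [Bb, hO.Tη, mul_one, NS.Sg],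
    show ∀ y, Bb S y S.η = S.Sg y from fun y => by rw [Bb, hO.Tη, mul_one, NS.Sg]] at h
  linear_combination h

theorem swp (hO : S.OK0 n 2) (β γ : A) : S.GX.int (β * S.Sg γ) = S.GX.int (γ * S.Sg β) := by
  rw [mul_comm β, mul_comm γ, NS.Sg, NS.Sg, ← hO.proj, ← hO.proj, hO.el_int, hO.el_int, hO.T_int,
    mul_comm]

theorem dl (hO : S.OK0 n 2) {k : ℕ} {x : B} (hx : S.GU.Dg (k + 2) x) : S.GX.Dg k (S.el x) :=
  (hO.el_pr k x).trans (congrArg _ hx)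

theorem lo (hO : S.OK0 n 2) {k : ℕ} {x : B} (hk : k < 2) (hx : S.GU.Dg k x) : S.el x = 0 := by
  rw [← hO.gx.pr_sum (S.el x)]
  refine Finset.sum_eq_zero fun j _ => ?_
  rw [hO.el_pr, ← show _ = x from hx, hO.gu.pr_pr, if_neg (by omega), map_zero]

theorem dT (hO : S.OK0 n 2) {k : ℕ} {c : A} (hc : S.GX.Dg (k + 1) c) :
    S.GU.Dg k (S.T (S.es c)) := (lei S n 2 hO).dT _ _ ((lei S n 2 hO).de _ _ hc)

theorem dSg (hO : S.OK0 n 2) {k : ℕ} {c : A} (hc : S.GX.Dg (k + 3) c) : S.GX.Dg k (S.Sg c) :=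
  dl hO (dT hO hc)

theorem Sg0 (hO : S.OK0 n 2) {k : ℕ} {c : A} (hk : k < 2) (hc : S.GX.Dg (k + 1) c) : S.Sg c = 0 :=
  lo hO hk (dT hO hc)

theorem dp (hO : S.OK0 n 2) (k : ℕ) : S.GX.Dg k (S.η ^ k) := dg_pow hO.gx hO.dη k

theorem num (hO : S.OK n 2) (hn : S.GX.int (S.η ^ (n - 1) * S.η) = S.GX.int (S.η ^ n))
    (h0 : 0 ≤ S.GX.int (S.η ^ (n - 1) * S.Sg (S.η ^ 4))) : ∃ D a, S.Num2 D a := by
  have L := lei S n 2 hO.toOK0
  obtain ⟨D, D0, hD⟩ := hO.D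
  rw [neg_sq] at hD
  obtain ⟨c, hc⟩ := hO.b2 _ (dSg hO.toOK0 (k := 1) (dp hO.toOK0 4))
  rw [hc, mul_smul_comm, map_smul, smul_eq_mul, hn] at h0
  refine ⟨D, c / D, D0, div_nonneg (nonneg_of_mul_nonneg_left h0 hO.vol) D0.le, hD, ?_,
    by rw [hc, div_mul_cancel₀ _ D0.ne']⟩
  have d1 : S.GU.Dg 1 S.hh := L.de 1 _ hO.dη
  have e : S.T (S.es (S.η ^ 3)) = S.τ ^ 2 + (3 • S.hh - 3 • S.τ) * S.es S.η := by
    rw [map_pow]
    refine (L.pow 2).trans ?_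
    simp only [NS.H, Hn, NS.aa, NS.ee, NS.hc, NS.hh]
    ring
  rw [NS.Sg, e, map_add, hD, hO.proj, map_sub, map_nsmul, map_nsmul, lo hO.toOK0 one_lt_two d1,
    lo hO.toOK0 one_lt_two hO.dτ]
  simp

theorem B4 (hO : S.OK0 n 2) (hN : S.Num2 D a) {r : A} (hr : S.GX.Dg 2 r) :
    Bb S (S.η ^ 4) r = S.Sg (r * S.η) * S.η ^ 2 + S.Sg (r * S.η ^ 2) * S.η +
      S.Sg (r * S.η ^ 3) - D • r := by
  have h0 := der hO 1 r
  have h1 := der hO S.η r
  have h2 := der hO (S.η ^ 2) r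
  have h3 := der hO (S.η ^ 3) r
  have e0 : Bb S 1 r = 0 := by rw [Bb, map_one, (lei S n 2 hO).one, zero_mul, map_zero]
  have e1 : S.Sg 1 = 0 := by rw [NS.Sg, map_one, (lei S n 2 hO).one, map_zero]
  rw [one_mul, one_mul, e0, e1, Sg0 hO one_lt_two hr] at h0
  rw [Sg0 hO zero_lt_two hO.dη, ← sq, mul_comm _ r] at h1
  rw [Sg0 hO one_lt_two (dp hO 2), ← pow_succ, mul_comm _ r] at h2
  rw [hN.s3, ← pow_succ, mul_comm _ r, ← Algebra.smul_def] at h3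
  linear_combination h3 + S.η * h2 + S.η ^ 2 * h1 + S.η ^ 3 * h0

theorem d5 (hO : S.OK 6 2) {c : A} (hc : S.GX.Dg 5 c) : ∃ x : ℝ, c = x • S.η ^ 5 := by
  obtain ⟨b, hb, rfl⟩ := (hO.hl 1 4 rfl).2 c hc
  obtain ⟨x, rfl⟩ := hO.b2 b hb
  exact ⟨x, by rw [mul_smul_comm, ← pow_succ]⟩

theorem split (hO : S.OK 6 2) {c : A} (hc : S.GX.Dg 2 c) :
    ∃ (x : ℝ) (p : A), Prim S p ∧ c = x • S.η ^ 2 + p := by
  obtain ⟨x, hx⟩ := d5 hO (hO.gx.dg_mul _ _ _ _ (dp hO.toOK0 3) hc)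
  refine ⟨x, c - x • S.η ^ 2, ⟨dg_sub hc (dg_smul _ (dp hO.toOK0 2)), ?_⟩, by ring⟩
  rw [mul_sub, hx, mul_smul_comm, ← pow_add, sub_self]

theorem nondeg (hO : S.OK 6 2) {p : A} (hp : Prim S p)
    (h : ∀ q, Prim S q → S.GX.int (p * q * S.η ^ 2) = 0) : p = 0 := by
  refine pd' hO.gx hp.1 (k := 4) rfl fun b hb => ?_
  obtain ⟨c, h1, rfl⟩ := (hO.hl 2 2 rfl).2 b hb
  obtain ⟨x, q, hq, rfl⟩ := split hO h1
  rw [show p * (S.η ^ 2 * (x • S.η ^ 2 + q)) = x • (S.η ^ 4 * p) + p * q * S.η ^ 2 by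
    simp only [Algebra.smul_def]; ring, map_add, map_smul, hp.int4, h q hq, smul_zero, add_zero]

/-- the numbers attached to a primitive class -/
theorem one (hO : S.OK 6 2) {u : A} (hu : Prim S u) : ∃ μ l : ℝ,
    S.Sg (u * S.η) = algebraMap ℝ A μ ∧ S.Sg (u * S.η ^ 2) = l • S.η := by
  obtain ⟨μ, h1⟩ := hO.h0 _ (dSg hO.toOK0 (k := 0) (hO.gx.dg_mul 2 1 _ _ hu.1 hO.dη))
  obtain ⟨l, h2⟩ := hO.b2 _ (dSg hO.toOK0 (k := 1) (hO.gx.dg_mul 2 2 _ _ hu.1 (dp hO.toOK0 2)))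
  exact ⟨μ, l, h1, h2⟩

/-- the numbers attached to two primitive classes -/
theorem two (hO : S.OK 6 2) (hN : S.Num2 D a) {u w : A} (hu : Prim S u) (hw : Prim S w) :
    ∃ x t : ℝ, u * w * S.η = x • S.η ^ 5 ∧ S.Sg (u * w) = t • S.η ∧
      Bb S u w = algebraMap ℝ A (-t - x * (a * D + D)) ∧
      x • (S.Sg (S.η ^ 5) * S.η + S.Sg (S.η ^ 6) - (a * D + D) • S.η ^ 3) =
        (S.Sg (u * S.η) * S.η + S.Sg (u * S.η ^ 2)) * w := by
  have o := hO.toOK0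
  have m := hO.gx.dg_mul _ _ _ _ hu.1 hw.1
  obtain ⟨x, hx⟩ := d5 hO (hO.gx.dg_mul _ _ _ _ m hO.dη)
  obtain ⟨t, ht⟩ := hO.b2 _ (dSg o (k := 1) m)
  obtain ⟨β, hβ⟩ := hO.h0 (Bb S u w) (dl o (hO.gu.dg_mul 1 1 _ _ (dT o hu.1) (dT o hw.1)))
  obtain ⟨μ, l, h4, h5⟩ := one hO hu
  have h1 := der o u w
  have h2 := der o (u * S.η) w
  have h3 := der o (u * S.η ^ 2) w
  rw [Sg0 o one_lt_two hu.1, ht, hβ] at h1
  rw [mul_assoc, ← sq, mul_right_comm, hx, Sg_smul] at h2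
  rw [mul_assoc, ← pow_succ, mul_comm u (S.η ^ (2 + 1)), hu.2,
    show u * S.η ^ 2 * w = x • S.η ^ 6 by
      rw [pow_succ _ 5, ← smul_mul_assoc, ← hx]; ring, Sg_smul,
    show Bb S 0 w = 0 by rw [Bb, map_zero, map_zero, zero_mul, map_zero]] at h3
  have h6 : (β + t) • S.η ^ 3 + x • (S.Sg (S.η ^ 5) * S.η + S.Sg (S.η ^ 6)) =
      (S.Sg (u * S.η) * S.η + S.Sg (u * S.η ^ 2)) * w := by
    simp only [Algebra.smul_def, map_add] at h1 h2 h3 ⊢
    linear_combination -h3 - S.η * h2 - S.η ^ 2 * h1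
  have h7 := congrArg (fun z => S.GX.int (S.η ^ 3 * z)) h6
  have e1 := swp o (S.η ^ 4) (S.η ^ 5)
  have e2 := swp o (S.η ^ 3) (S.η ^ 6)
  rw [hN.s4, mul_smul_comm, ← pow_succ, map_smul] at e1
  rw [hN.s3, mul_comm (S.η ^ 6), ← Algebra.smul_def, map_smul] at e2
  rw [h4, h5] at h7
  rw [show S.η ^ 3 * ((algebraMap ℝ A μ * S.η + l • S.η) * w) = (μ + l) • (S.η ^ 4 * w) by
      simp only [Algebra.smul_def, map_add]; ring,
    show S.η ^ 3 * ((β + t) • S.η ^ 3 + x • (S.Sg (S.η ^ 5) * S.η + S.Sg (S.η ^ 6))) =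
      (β + t) • S.η ^ 6 + x • (S.η ^ 4 * S.Sg (S.η ^ 5) + S.η ^ 3 * S.Sg (S.η ^ 6)) by
      simp only [Algebra.smul_def]; ring, map_smul, hw.int4, map_add, map_smul, map_smul, map_add,
    e1, e2] at h7
  simp only [smul_eq_mul] at h7
  have h8 : β = -t - x * (a * D + D) :=
    mul_right_cancel₀ hO.vol.ne' (by linear_combination h7)
  refine ⟨x, t, hx, ht, by rw [hβ, h8], ?_⟩
  rw [← h6, h8]
  module

theorem qx (_hO : S.OK 6 2) {u w : A} {x : ℝ} (h : u * w * S.η = x • S.η ^ 5) :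
    S.GX.int (u * w * S.η ^ 2) = x * S.GX.int (S.η ^ 6) := by
  rw [sq, ← mul_assoc, h, smul_mul_assoc, ← pow_succ, map_smul, smul_eq_mul]

theorem three (hO : S.OK 6 2) (hN : S.Num2 D a)
    (hν : ∀ s, Prim S s → S.Sg (s * S.η) * S.η + S.Sg (s * S.η ^ 2) = 0) {u w r : A}
    (hu : Prim S u) (hw : Prim S w) (hr : Prim S r) : ∃ x y : ℝ, u * w * S.η = x • S.η ^ 5 ∧
      y * S.GX.int (S.η ^ 6) = S.GX.int (u * w * r) ∧ Bb S (u * w) r + Bb S u w * r =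
        y • (S.Sg (S.η ^ 5) - (a * D + D) • S.η ^ 2) - (2 * x * (a * D + D)) • r := by
  have o := hO.toOK0
  obtain ⟨x, t, h1, h2, h3, -⟩ := two hO hN hu hw
  obtain ⟨c, hc, e⟩ := (hO.hl 2 2 rfl).2 _ (hO.gx.dg_mul _ _ _ _ hu.1 hw.1)
  obtain ⟨x', s, hs, rfl⟩ := split hO hc
  have e' : u * w = x' • S.η ^ 4 + s * S.η ^ 2 := by
    rw [← e]; simp only [Algebra.smul_def]; ring
  obtain rfl : x' = x := by
    have k := qx hO h1
    rw [e', show (x' • S.η ^ 4 + s * S.η ^ 2) * S.η ^ 2 = x' • S.η ^ 6 + S.η ^ 4 * s by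
      simp only [Algebra.smul_def]; ring, map_add, hs.int4, add_zero, map_smul] at k
    exact mul_right_cancel₀ hO.vol.ne' k
  obtain ⟨y, t', k1, k2, k3, -⟩ := two hO hN hs hr
  obtain ⟨μ, l, k4, k5⟩ := one hO hs
  have k6 := der o s r
  have k7 := der o (s * S.η) r
  rw [Sg0 o one_lt_two hs.1, k2, k3] at k6
  rw [mul_assoc, ← sq, mul_right_comm, k1, Sg_smul, k4] at k7
  have k8 := B4 o hN hr.1
  rw [mul_comm r (S.η ^ 3), hr.2, show S.Sg 0 = 0 by rw [NS.Sg, map_zero, map_zero, map_zero]] at k8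
  have l1 : μ + l = 0 := by
    have k := congrArg (fun z => S.GX.int (S.η ^ 5 * z)) (hν s hs)
    simp only [k4, k5, ← Algebra.smul_def, ← add_smul, mul_smul_comm, ← pow_succ, map_smul,
      mul_zero, map_zero, smul_eq_mul] at k
    exact (mul_eq_zero.1 k).resolve_right hO.vol.ne'
  have l2 : t = x' * (a * D) + l := by
    have k := congrArg S.Sg e'
    rw [h2, NS.Sg, map_add, map_add, map_add, ← NS.Sg, ← NS.Sg, Sg_smul, hN.s4, k5, smul_smul,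
      ← add_smul] at k
    have k' := congrArg (fun z => S.GX.int (S.η ^ 5 * z)) k
    simp only [mul_smul_comm, ← pow_succ, map_smul, smul_eq_mul] at k'
    exact mul_right_cancel₀ hO.vol.ne' k'
  refine ⟨x', y, h1, ?_, ?_⟩
  · rw [← qx hO k1, e', add_mul, smul_mul_assoc, map_add, map_smul, hr.int4, smul_zero, zero_add,
      mul_right_comm]
  · rw [h3, e', Bb_add, Bb_smul, k7, k6, k8, l2, eq_neg_of_add_eq_zero_left l1]
    have k9 := hν r hr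
    simp only [Algebra.smul_def, map_add, map_sub, map_neg, map_mul, map_ofNat]
    linear_combination (algebraMap ℝ A x' * S.η) * k9

end M2.X62

open M2.X62 Al.X4a in
/-- **the fourth Betti number is at most two** -/
theorem M2.x62 {A B : Type} [CommRing A] [Algebra ℝ A] [CommRing B] [Algebra ℝ B] {S : NS A B}
    {D a : ℝ} (hO : S.OK 6 2) (hN : S.Num2 D a) :
    (∀ b, S.GX.Dg 2 b → ∃ x : ℝ, b = x • S.η ^ 2) ∨ ∃ u, S.U62 u := by
  have o := hO.toOK0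
  by_cases h0 : ∀ p, Prim S p → p = 0
  · refine .inl fun b hb => ?_
    obtain ⟨x, p, hp, rfl⟩ := split hO hb
    exact ⟨x, by rw [h0 p hp, add_zero]⟩
  have key : ∃ u, Prim S u ∧ ∀ w, Prim S w → ∃ z : ℝ, w = z • u := by
    by_cases hν : ∀ s, Prim S s → S.Sg (s * S.η) * S.η + S.Sg (s * S.η ^ 2) = 0
    · push Not at h0
      obtain ⟨u, hu, u0⟩ := h0
      obtain ⟨w, hw, w0⟩ : ∃ w, Prim S w ∧ S.GX.int (u * w * S.η ^ 2) ≠ 0 := by
        by_contra h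
        push Not at h
        exact u0 (nondeg hO hu h)
      refine ⟨w, hw, fun r hr => ?_⟩
      obtain ⟨x, y, h1, h2, h3⟩ := three hO hN hν hu hw hr
      obtain ⟨x', y', h1', h2', h3'⟩ := three hO hN hν hu hr hw
      obtain rfl : y = y' := mul_right_cancel₀ hO.vol.ne' (by rw [h2, h2', mul_right_comm])
      have h4 : (2 * x * (a * D + D)) • r = (2 * x' * (a * D + D)) • w := by
        linear_combination h3 - h3' - sym o u w r
      have h5 : 2 * x * (a * D + D) ≠ 0 := by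
        have := hN.pos
        have := hN.nn
        exact mul_ne_zero (mul_ne_zero two_ne_zero fun e => w0 (by rw [qx hO h1, e, zero_mul]))
          (by positivity)
      exact ⟨_, by rw [mul_smul, ← h4, inv_smul_smul₀ h5]⟩
    · push Not at hν
      obtain ⟨u, hu, u0⟩ := hν
      refine ⟨u, hu, fun w hw => ?_⟩
      obtain ⟨x, -, h1, -, -, h2⟩ := two hO hN hu hw
      obtain ⟨x', -, h1', -, -, h2'⟩ := two hO hN hw hu
      obtain rfl : x = x' := mul_right_cancel₀ hO.vol.ne' (by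
        rw [← qx hO h1, ← qx hO h1', mul_comm u w])
      obtain ⟨μ, l, k1, k2⟩ := one hO hu
      obtain ⟨μ', l', k1', k2'⟩ := one hO hw
      rw [h2, k1, k2, k1', k2'] at h2'
      rw [k1, k2, ← Algebra.smul_def, ← add_smul] at u0
      have h3 : (μ + l) • w - (μ' + l') • u = 0 :=
        (hO.hl 2 2 rfl).1 _ (dg_sub (dg_smul _ hw.1) (dg_smul _ hu.1)) (by
          simp only [Algebra.smul_def, map_add] at h2' ⊢
          linear_combination S.η * h2')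
      have h4 : μ + l ≠ 0 := fun e => u0 (by rw [e, zero_smul])
      exact ⟨_, by rw [mul_smul, ← sub_eq_zero.1 h3, inv_smul_smul₀ h4]⟩
  obtain ⟨u, hu, h1⟩ := key
  have u0 : u ≠ 0 := fun e => h0 fun p hp => by
    obtain ⟨z, rfl⟩ := h1 p hp
    rw [e, smul_zero]
  have h4 := hO.hr 2 2 rfl u hu.1 hu.2 (fun b k1 k2 => h1 b ⟨k1, k2⟩) u0
  rw [neg_one_sq, one_mul] at h4
  refine .inr ⟨u, hu.1, hu.2, h4, fun b hb => ?_, fun y hy ey => ?_⟩
  · obtain ⟨x, p, hp, rfl⟩ := split hO hb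
    obtain ⟨z, rfl⟩ := h1 p hp
    exact ⟨x, z, rfl⟩
  · obtain ⟨x, -, k1, -, -, k2⟩ := two hO hN hu hu
    obtain ⟨μ, l, k3, k4⟩ := one hO hu
    obtain ⟨c, hc⟩ := hO.h0 _ (dSg o (k := 0) hy)
    have x0 : x ≠ 0 := fun e => h4.ne' (by rw [qx hO k1, e, zero_mul])
    have k5 : x • (y * S.Sg (S.η ^ 6)) = 0 := by
      rw [k3, k4] at k2
      simp only [Algebra.smul_def, map_add, map_mul] at k2 ⊢
      linear_combination y * k2 + ((algebraMap ℝ A μ + algebraMap ℝ A l) * u -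
        algebraMap ℝ A x * (S.Sg (S.η ^ 5) - (algebraMap ℝ A a * algebraMap ℝ A D +
          algebraMap ℝ A D) * S.η ^ 2)) * ey
    have k6 := swp o y (S.η ^ 6)
    rw [(smul_eq_zero.1 k5).resolve_left x0, map_zero, hc, mul_comm, ← Algebra.smul_def, map_smul,
      smul_eq_mul] at k6
    rw [hc, (mul_eq_zero.1 k6.symm).resolve_right hO.vol.ne', map_zero]

open M2.X62 Al.X4a in
/-- the middle degree when the fourth Betti number is one -/
theorem M2.mid62 {A B : Type} [CommRing A] [Algebra ℝ A] [CommRing B] [Algebra ℝ B] {S : NS A B}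
    {D a : ℝ} (hO : S.OK 6 2) (hN : S.Num2 D a)
    (h2 : ∀ b, S.GX.Dg 2 b → ∃ x : ℝ, b = x • S.η ^ 2) :
    (∀ b, S.GX.Dg 3 b → ∃ (x : ℝ) (y : A), S.GX.Dg 3 y ∧ S.η * y = 0 ∧ b = x • S.η ^ 3 + y) ∧
    ∃ δ, S.GX.Dg 3 δ ∧ S.η * δ = 0 ∧ S.Sg (S.η ^ 6) = D • S.η ^ 3 + δ ∧
      (δ = 0 ∨ (S.GX.int (δ * δ) < 0 ∧ ∀ y, S.GX.Dg 3 y → S.η * y = 0 → ∃ z : ℝ, y = z • δ)) := by
  have o := hO.toOK0
  have h3 : ∀ b, S.GX.Dg 3 b →
      ∃ (x : ℝ) (y : A), S.GX.Dg 3 y ∧ S.η * y = 0 ∧ b = x • S.η ^ 3 + y := fun b hb => by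
    obtain ⟨c, k1, k2⟩ := (hO.hl 2 2 rfl).2 _ (hO.gx.dg_mul 1 3 _ _ hO.dη hb)
    obtain ⟨x, rfl⟩ := h2 c k1
    refine ⟨x, b - x • S.η ^ 3, dg_sub hb (dg_smul _ (dp o 3)), ?_, by ring⟩
    simp only [Algebra.smul_def] at k2 ⊢
    linear_combination -k2
  refine ⟨h3, ?_⟩
  obtain ⟨x, δ, k1, k2, k3⟩ := h3 _ (dSg o (k := 3) (dp o 6))
  have i3 : ∀ y, S.η * y = 0 → S.η ^ 3 * y = 0 := fun y hy => by linear_combination S.η ^ 2 * hy
  obtain rfl : x = D := by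
    have e := swp o (S.η ^ 3) (S.η ^ 6)
    rw [k3, hN.s3, mul_add, i3 δ k2, add_zero, mul_smul_comm, ← pow_add, mul_comm (S.η ^ 6),
      ← Algebra.smul_def, map_smul, map_smul] at e
    exact mul_right_cancel₀ hO.vol.ne' e
  refine ⟨δ, k1, k2, k3, (eq_or_ne δ 0).imp_right fun d0 => ?_⟩
  obtain ⟨y, hy, ey, y0⟩ : ∃ y, S.GX.Dg 3 y ∧ S.η * y = 0 ∧ S.GX.int (y * δ) ≠ 0 := by
    by_contra h
    push Not at h
    refine d0 (pd' hO.gx k1 (k := 3) rfl fun b hb => ?_)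
    obtain ⟨x', y, l1, l2, rfl⟩ := h3 b hb
    rw [mul_add, mul_smul_comm, mul_comm δ, i3 δ k2, smul_zero, zero_add, mul_comm, h y l1 l2]
  obtain ⟨c, hc⟩ := hO.h0 _ (dSg o (k := 0) hy)
  have c0 : c ≠ 0 := fun e => y0 (by
    have k := swp o y (S.η ^ 6)
    rwa [k3, hc, e, map_zero, mul_zero, map_zero, mul_add, mul_smul_comm, mul_comm y, i3 y ey,
      smul_zero, zero_add] at k)
  have h4 : ∀ z, S.GX.Dg 3 z → S.η * z = 0 → ∃ t : ℝ, z = t • δ := fun z hz ez => by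
    have k := der o y z
    obtain ⟨b, hb⟩ := h2 (Bb S y z) (dl o (hO.gu.dg_mul 2 2 _ _ (dT o hy) (dT o hz)))
    obtain ⟨f, hf, e⟩ := (hO.hl 0 6 rfl).2 _ (hO.gx.dg_mul 3 3 _ _ hy hz)
    obtain ⟨s, rfl⟩ := hO.h0 f hf
    rw [mul_comm y S.η, ey, show Bb S 0 z = 0 by rw [Bb, map_zero, map_zero, zero_mul, map_zero], hb,
      ← e, mul_comm (S.η ^ 6), ← Algebra.smul_def, Sg_smul, k3, hc] at k
    have l1 : (b + s * x) • S.η ^ 3 = c • z - s • δ := by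
      simp only [Algebra.smul_def, map_add, map_mul] at k ⊢
      linear_combination -k
    have l2 := congrArg (fun w => S.GX.int (S.η ^ 3 * w)) l1
    simp only [mul_sub, mul_smul_comm, i3 z ez, i3 δ k2, smul_zero, sub_zero, map_zero, ← pow_add,
      map_smul, smul_eq_mul] at l2
    rw [(mul_eq_zero.1 l2).resolve_right hO.vol.ne', zero_smul] at l1
    exact ⟨_, by rw [mul_smul, ← sub_eq_zero.1 l1.symm, inv_smul_smul₀ c0]⟩
  have h5 := hO.hr 3 0 rfl δ k1 (by rw [zero_add, pow_one, k2])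
    (fun b l1 l2 => h4 b l1 (by rwa [zero_add, pow_one] at l2)) d0
  rw [pow_zero, mul_one] at h5
  exact ⟨by linarith, h4⟩

end Vale.Agent.P280Z
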