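import Vale.Agent.P280Z.M2.Q62
import Vale.Agent.P280Z.M2.X62

/-!
# P280Z, block M2: from the numerical structure to the equations
-/

noncomputable section

namespace Vale.Agent.P280Z.M2

open Al Qs

variable {A B : Type} [CommRing A] [Algebra ℝ A] [CommRing B] [Algebra ℝ B]

/-- the normalised integral over the space of curves -/
def Jv (S : NS A B) (D : ℝ) : B →ₗ[ℝ] ℝ := (D * S.GX.int (S.η ^ 6))⁻¹ • J S

/-- the normalised data of the second case -/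
structure D62 (S : NS A B) (D : ℝ) (w y : A) (a mu l c q X2 Y2 X3 Y3 X4 Y4 X5 X6 z5 z6 : ℝ) :
    Prop where
  num : S.Num2 D a
  hw : S.U62 w
  sq : w ^ 2 = S.η ^ 4 + c • (S.η ^ 2 * w)
  smu : S.Sg (w * S.η) = algebraMap ℝ A (mu * D)
  sl : S.Sg (w * S.η ^ 2) = (l * D) • S.η
  dy : S.GX.Dg 3 y
  hy : S.η * y = 0
  wy : w * y = 0
  yy : y * y = q • S.η ^ 6
  p2 : S.pX 2 = (2 : ℝ) • (X2 • S.η ^ 2 + Y2 • w)
  p3 : S.pX 3 = (3 : ℝ) • (X3 • S.η ^ 3 + Y3 • (S.η * w) + y)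
  p4 : S.pX 4 = (4 : ℝ) • (X4 • S.η ^ 4 + Y4 • (S.η ^ 2 * w))
  p5 : S.pX 5 = (5 : ℝ) • (X5 • S.η ^ 5)
  p6 : S.pX 6 = (6 : ℝ) • (X6 • S.η ^ 6)
  rel : R62 (Jv S D) S.aa S.ee (S.T (S.es w)) (S.T (S.hh * S.es w)) (S.T (S.es y)) a mu l c q
  pk : P62 S.aa S.ee (S.T (S.es w)) (S.T (S.hh * S.es w)) (S.T (S.es y)) S.uu
    (fun k => S.T (S.es (S.pX k))) X2 Y2 X3 Y3 X4 Y4 X5 X6
  tab : T62 (fun i j k m n => Jv S D
    (Mq S.aa S.ee (S.T (S.es w)) (S.T (S.hh * S.es w)) (S.T (S.es y)) i j k m n)) a mu l c q z5 z6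
  eqs : E62 a mu l c q X2 Y2 X3 Y3 X4 Y4 X5 X6 z5 z6

variable {S : NS A B} {D a : ℝ} {u w y : A}

namespace Br62

theorem Th (h : S.OK0 6 2) (x : B) : S.T (S.hh * x) = x + S.hc * S.T x := by
  rw [(lei S _ _ h).mul, show S.T S.hh = 1 from h.Tη, NS.hc]
  ring

theorem Thh (h : S.OK0 6 2) (x : B) :
    S.T (S.hh * (S.hh * x)) = S.aa * S.T (S.hh * x) - S.ee * S.T x := by
  have L := lei S _ _ h
  rw [← L.ker _ _ L.aa, ← L.ker _ _ L.ee, ← map_sub]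
  refine congrArg S.T ?_
  rw [NS.aa, NS.ee]
  ring

theorem JT (h : S.OK0 6 2) (hN : S.Num2 D a) (α β : A) (c : ℝ)
    (e : S.GX.int (S.Sg β * α) = c * (D * S.GX.int (S.η ^ 6))) :
    Jv S D (S.T (S.es β) * S.T (S.es α)) = c := by
  have L := lei S _ _ h
  rw [NS.Sg, int_el h, L.ker _ _ (L.TT _)] at e
  rw [Jv, LinearMap.smul_apply, e, smul_eq_mul, mul_comm, mul_assoc,
    mul_inv_cancel₀ (mul_pos hN.pos h.vol).ne', mul_one]

theorem zero (h : S.OK0 6 2) {x : ℝ} (e : x • S.η ^ 6 = 0) : x = 0 := by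
  have k := congrArg S.GX.int e
  rw [map_smul, map_zero, smul_eq_mul] at k
  exact (mul_eq_zero.1 k).resolve_right h.vol.ne'

theorem norm (h : S.OK 6 2) (hu : S.U62 u) : ∃ (κ c : ℝ) (w : A), 0 < κ ∧ u = κ • w ∧ S.U62 w ∧
    w ^ 2 = S.η ^ 4 + c • (S.η ^ 2 * w) := by
  obtain ⟨b, hb, e⟩ := (h.hl 2 2 rfl).2 _ (h.gx.dg_mul 2 2 _ _ hu.dg hu.dg)
  obtain ⟨x, z, rfl⟩ := hu.d2 b hb
  have x0 : 0 < x := by
    have k := hu.pos
    rw [← e, show S.η ^ 2 * (x • S.η ^ 2 + z • u) * S.η ^ 2 = x • S.η ^ 6 by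
      linear_combination (norm := algebra) z • (S.η * hu.prim), map_smul, smul_eq_mul] at k
    exact (mul_pos_iff_of_pos_right h.vol).1 k
  obtain ⟨κ, k0, rfl⟩ : ∃ κ : ℝ, 0 < κ ∧ x = κ * κ :=
    ⟨√x, Real.sqrt_pos.2 x0, (Real.mul_self_sqrt x0.le).symm⟩
  obtain ⟨w, rfl⟩ : ∃ w, u = κ • w := ⟨κ⁻¹ • u, (smul_inv_smul₀ k0.ne' u).symm⟩
  have can : ∀ {x x' : A} {ρ : ℝ}, 0 < ρ → ρ • x = ρ • x' → x = x' := fun p e =>
    smul_right_injective A p.ne' e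
  refine ⟨κ, z / κ, w, k0, rfl, ⟨?_, can k0 ?_, ?_, fun b hb => ?_, hu.y0⟩,
    can (mul_pos k0 k0) ?_⟩
  · have := X4a.dg_smul κ⁻¹ hu.dg
    rwa [inv_smul_smul₀ k0.ne'] at this
  · linear_combination (norm := algebra) hu.prim
  · have k := hu.pos
    rw [smul_mul_smul_comm, smul_mul_assoc, map_smul, smul_eq_mul] at k
    exact (mul_pos_iff_of_pos_left (mul_pos k0 k0)).1 k
  · obtain ⟨x, z, rfl⟩ := hu.d2 b hb
    exact ⟨x, z * κ, by rw [smul_smul]⟩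
  · rw [smul_add, smul_smul, show κ * κ * (z / κ) = z * κ by field_simp]
    linear_combination (norm := algebra) -e

theorem rel (h : S.OK 6 2) {mu l c q : ℝ} (hN : S.Num2 D a) (hw : S.U62 w)
    (sq : w ^ 2 = S.η ^ 4 + c • (S.η ^ 2 * w)) (smu : S.Sg (w * S.η) = algebraMap ℝ A (mu * D))
    (sl : S.Sg (w * S.η ^ 2) = (l * D) • S.η) (hy : S.η * y = 0) (wy : w * y = 0)
    (yy : y * y = q • S.η ^ 6) :
    R62 (Jv S D) S.aa S.ee (S.T (S.es w)) (S.T (S.hh * S.es w)) (S.T (S.es y)) a mu l c q := by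
  have o := h.toOK0
  have L := lei S _ _ o
  have ep : ∀ k, S.es (S.η ^ k) = S.hh ^ k := fun k => map_pow _ _ _
  have k3 : S.hh * (S.hh * (S.hh * S.es w)) = 0 := by
    have := congrArg S.es hw.prim
    rw [map_mul, ep, map_zero] at this
    linear_combination this
  have t2 := Thh o (S.es w)
  have t3 := Thh o (S.hh * S.es w)
  have t4 := Thh o (S.hh * (S.hh * S.es w))
  rw [k3, map_zero, t2] at t3
  rw [k3, mul_zero, map_zero, t2] at t4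
  have sq' : S.es w * S.es w = S.hh ^ 4 + c • (S.hh * (S.hh * S.es w)) := by
    rw [← map_mul, ← pow_two, sq, map_add, map_smul, map_mul, ep, ep, pow_two, mul_assoc]
  have s1 := L.mul (S.es w) (S.es w)
  have s2 := Th o (S.es w * S.es w)
  have s3 := Th o (S.es w)
  rw [s1] at s2
  nth_rewrite 1 [sq'] at s2
  rw [mul_add, mul_smul_comm, k3, smul_zero, add_zero, ← pow_succ', L.pow 4] at s2
  rw [sq', map_add, map_smul, t2, L.pow 3] at s1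
  have e1 : S.hh * S.es y = 0 := by rw [NS.hh, ← map_mul, hy, map_zero]
  have e2 := Th o (S.es y)
  have e3 := L.mul (S.es w) (S.es y)
  have e4 := L.mul (S.es y) (S.es y)
  rw [e1, map_zero] at e2
  rw [← map_mul, wy, map_zero, map_zero] at e3
  rw [← map_mul, yy, map_smul, map_smul, Tη o 5] at e4
  have g5 : Hn S.aa S.ee 6 = 0 := Hz o le_rfl
  have g6 : S.aa * Hn S.aa S.ee 6 - S.ee * Hn S.aa S.ee 5 = 0 := Hz o (k := 7) (by norm_num)
  have m1 : S.hh * S.es w = S.es (w * S.η) := by rw [map_mul, mul_comm]; rfl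
  have m2 : S.hh * (S.hh * S.es w) = S.es (w * S.η ^ 2) := by rw [map_mul, ep]; ring
  refine ⟨?_, ?_, t3.symm, by linear_combination t4, g5, by linear_combination S.aa * g5 - g6,
    ?_, ?_, ?_, ?_, ?_, ?_, ?_⟩
  · change _ = S.H 3 + _
    rw [s1, s3, NS.aa, NS.hc]
    ring
  · change _ = S.H 4
    rw [s2, s3, NS.ee, NS.hc]
    ring
  · rw [NS.ee]
    linear_combination -S.hh * e2 - e1
  · rw [s3, NS.aa]
    rw [NS.hc] at e2 ⊢
    linear_combination -e3 + S.T (S.es w) * e2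
  · change _ = -(q • S.H 5)
    rw [e4, NS.aa]
    rw [NS.hc] at e2 ⊢
    linear_combination -2 * S.T (S.es y) * e2
  · change Jv S D (S.H 2 * S.H 5) = 1
    rw [← Tη o, ← Tη o]
    exact JT o hN _ _ _ (by rw [hN.s3, ← Algebra.smul_def, map_smul, smul_eq_mul, one_mul])
  · change Jv S D (S.H 3 * S.H 4) = a
    rw [← Tη o, ← Tη o]
    exact JT o hN _ _ _ (by
      rw [hN.s4, smul_mul_assoc, ← pow_succ', map_smul, smul_eq_mul, mul_assoc])
  · change Jv S D (_ * S.H 5) = mu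
    rw [← Tη o, m1]
    exact JT o hN _ _ _ (by rw [smu, ← Algebra.smul_def, map_smul, smul_eq_mul, mul_assoc])
  · change Jv S D (_ * S.H 4) = l
    rw [← Tη o, ← t2, m2]
    exact JT o hN _ _ _ (by
      rw [sl, smul_mul_assoc, ← pow_succ', map_smul, smul_eq_mul, mul_assoc])

end Br62

open Br62 in
/-- **the bridge** -/
theorem br62 (h : S.OK 6 2) (hN : S.Num2 D a) (hu : S.U62 u) {x2 y2 x3 y3 x4 y4 : ℝ}
    (p2 : S.pX 2 = x2 • S.η ^ 2 + y2 • u) (dy : S.GX.Dg 3 y) (hy : S.η * y = 0)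
    (p3 : S.pX 3 = x3 • S.η ^ 3 + y3 • (S.η * u) + y)
    (p4 : S.pX 4 = x4 • S.η ^ 4 + y4 • (S.η ^ 2 * u)) :
    ∃ (κ : ℝ) (w : A) (mu l c q X5 X6 z5 z6 : ℝ), 0 < κ ∧ u = κ • w ∧
      D62 S D w ((1 / 3 : ℝ) • y) a mu l c q (x2 / 2) (y2 * κ / 2) (x3 / 3) (y3 * κ / 3) (x4 / 4)
        (y4 * κ / 4) X5 X6 z5 z6 := by
  have o := h.toOK0
  obtain ⟨κ, c, w, k0, rfl, hw, sq⟩ := norm h hu
  obtain ⟨μ, l, h1, h2⟩ := X62.one h ⟨hw.dg, hw.prim⟩
  have D0 := hN.pos.ne'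
  rw [← div_mul_cancel₀ μ D0] at h1
  rw [← div_mul_cancel₀ l D0] at h2
  obtain ⟨y, rfl⟩ : ∃ y', y = (3 : ℝ) • y' := ⟨(1 / 3 : ℝ) • y, by algebra⟩
  have e3 : (1 / 3 : ℝ) • (3 : ℝ) • y = y := by algebra
  have dy' : S.GX.Dg 3 y := e3 ▸ X4a.dg_smul (1 / 3) dy
  have hy' : S.η * y = 0 := by linear_combination (norm := algebra) (1 / 3 : ℝ) • hy
  have wy : w * y = 0 := by
    obtain ⟨z, hz⟩ := top1 (n := 4) h (h.gx.dg_mul 2 3 _ _ hw.dg dy')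
    rw [hz, zero o (x := z) (by linear_combination (norm := algebra) w * hy' - S.η * hz),
      zero_smul]
  obtain ⟨q, yy⟩ := top0 o (h.gx.dg_mul 3 3 _ _ dy' dy')
  obtain ⟨x5, p5⟩ := top1 (n := 4) h (h.dX 5)
  obtain ⟨x6, p6⟩ := top0 o (h.dX 6)
  have r := rel h hN hw sq h1 h2 hy' wy yy
  have t1 : S.es (S.η * w) = S.hh * S.es w := map_mul _ _ _
  have t2 : S.T (S.es (S.η ^ 2 * w)) = S.aa * S.T (S.hh * S.es w) - S.ee * S.T (S.es w) := by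
    rw [map_mul, map_pow, pow_two, mul_assoc]
    exact Thh o _
  have k : P62 S.aa S.ee (S.T (S.es w)) (S.T (S.hh * S.es w)) (S.T (S.es y)) S.uu
      (fun k => S.T (S.es (S.pX k))) (x2 / 2) (y2 * κ / 2) (x3 / 3) (y3 * κ / 3) (x4 / 4)
      (y4 * κ / 4) (x5 / 5) (x6 / 6) := by
    refine ⟨uu_eq S, ?_, ?_, ?_, ?_, ?_, ?_, ?_⟩
    · simp only [p2, map_add, map_smul, Tη o 1, NS.H, Hn]
      algebra
    · simp only [p3, mul_smul_comm, map_add, map_smul, Tη o 2, NS.H, t1]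
      algebra
    · simp only [p4, mul_smul_comm, map_add, map_smul, Tη o 3, NS.H, t2]
      algebra
    · simp only [p5, map_smul, Tη o 4, NS.H]
      algebra
    · simp only [p6, map_smul, Tη o 5, NS.H]
      algebra
    · simp only [dg_hi h.gx (h.dX 7) (by norm_num), map_zero]
    · simp only [dg_hi h.gx (h.dX 8) (by norm_num), map_zero]
  have c' := ch o
  rw [Nat.cast_ofNat] at c'
  obtain ⟨f, hf, nw⟩ := nw2 o
  have v := t62 (l62 r)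
  rw [e3]
  refine ⟨κ, w, _, _, c, q, x5 / 5, x6 / 6, _, _, k0, rfl, hN, hw, sq, h1, h2, dy', hy', wy, yy,
    ?_, ?_, ?_, ?_, ?_, r, k, v, e62 v c' k hf nw⟩
  · rw [p2]; algebra
  · rw [p3]; algebra
  · rw [p4]; algebra
  · rw [p5]; algebra
  · rw [p6]; algebra

end Vale.Agent.P280Z.M2
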