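import Vale.Agent.P280Z.M2.C62b
import Vale.Agent.P280Z.R1.Defs

/-!
# P280Z, block M2: dimension six and degree four, the first case
-/

open PowerSeries Finset

noncomputable section

namespace Vale.Agent.P280Z

namespace C62

open Al Al.Cn Qs

variable {A B : Type} [CommRing A] [Algebra ℝ A] [CommRing B] [Algebra ℝ B] {S : NS A B}

theorem rl (h : S.OK0 6 2) {y : A} (dy : S.GX.Dg 3 y) (hy : S.η * y = 0) :
    S.ee * S.T (S.es y) = 0 ∧ ∃ q : ℝ, S.aa * S.T (S.es y) ^ 2 = q • S.H 5 := by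
  have L := lei S _ _ h
  obtain ⟨x, hx⟩ := top0 h (h.gx.dg_mul 3 3 _ _ dy dy)
  have t : S.T S.hh = 1 := h.Tη
  have e1 : S.hh * S.es y = 0 := by rw [NS.hh, ← map_mul, hy, map_zero]
  have e2 := congrArg S.T e1
  have e3 : S.es y * S.es y = x • S.hh ^ 6 := by rw [← map_mul, hx, map_smul, map_pow, NS.hh]
  have e4 := congrArg S.T e3
  rw [L.mul, t, map_zero] at e2
  rw [L.mul, map_smul, L.pow 5] at e4
  simp only [NS.aa, NS.ee, NS.hc]
  exact ⟨by linear_combination S.hh * e2 - e1, -x, by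
    linear_combination (norm := algebra) 2 * S.T (S.es y) * e2 - e4⟩

theorem h7 (h : S.OK0 6 2) : S.hh ^ 7 = 0 := by
  rw [NS.hh, ← map_pow, hz h (by norm_num), map_zero]

theorem fb (h : S.OK0 6 2) {x s : B} (hs : S.T s = 0) {c c1 c2 c3 : ℝ}
    (e1 : S.el x = algebraMap ℝ A c)
    (e2 : x * S.hh ^ 6 = c1 • (S.aa * (S.aa * S.hh ^ 6)) + c2 • (S.ee * S.hh ^ 6) +
      c3 • (s * S.hh ^ 6)) :
    c * S.GX.int (S.η ^ 6) =
      J S (c1 • (S.aa ^ 2 * S.H 5) + c2 • (S.ee * S.H 5) + c3 • (s * S.H 5)) := by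
  have L := lei S _ _ h
  have k := int_el h x (S.η ^ 6)
  rw [e1, ← Algebra.smul_def, map_smul, map_pow S.es, ← NS.hh, e2, map_add S.T, map_add S.T,
    map_smul S.T, map_smul S.T, map_smul S.T, L.ker _ _ L.aa, L.ker _ _ L.aa, L.ker _ _ L.ee,
    L.ker _ _ hs, L.pow 5, ← mul_assoc, ← sq] at k
  exact k

theorem inj (h : S.OK0 6 2) {c d : ℝ} (e : algebraMap ℝ A c = algebraMap ℝ A d) : c = d := by
  have k := congrArg (fun a => S.GX.int (a * S.η ^ 6)) e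
  simp only [← Algebra.smul_def, map_smul, smul_eq_mul] at k
  exact mul_right_cancel₀ h.vol.ne' k

end C62

open Al Al.Cn Qs C62 in
/-- the case where the power sums of even degree are multiples of the powers of `η` -/
theorem M2.cI {A B : Type} [CommRing A] [Algebra ℝ A] [CommRing B] [Algebra ℝ B] {S : NS A B}
    (h : S.OK 6 2) (x : S.Xt 6 2) {x2 x3 x4 : ℝ} {y : A} (p2 : S.pX 2 = x2 • S.η ^ 2)
    (dy : S.GX.Dg 3 y) (hy : S.η * y = 0) (p3 : S.pX 3 = x3 • S.η ^ 3 + y)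
    (p4 : S.pX 4 = x4 • S.η ^ 4) : R1.PN S 2 2 := by
  have o := h.toOK0
  have L := lei S _ _ o
  obtain ⟨x5, p5⟩ := top1 (n := 4) h (h.dX 5)
  obtain ⟨x6, p6⟩ := top0 o (h.dX 6)
  obtain ⟨es, q, ss⟩ := rl o dy hy
  have ts : S.T (S.T (S.es y)) = 0 := L.TT _
  obtain ⟨D, D0, hD⟩ := h.D
  have k7 := h7 o
  have aa : S.aa = 2 * S.hh - S.τ := by rw [NS.aa, NS.hc]; ring
  have N := fb o ts (c1 := 1) (c2 := 0) (c3 := 0) hD (by
    rw [aa]
    linear_combination (norm := algebra) (4 * S.τ - 4 * S.hh) * k7)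
  rw [one_smul, zero_smul, zero_smul, add_zero, add_zero] at N
  have v0 := h.vol
  have N0 := mul_pos D0 v0
  obtain ⟨v, hv⟩ : ∃ v, v = S.GX.int (S.η ^ 6) := ⟨_, rfl⟩
  rw [← hv] at N N0 v0
  have hI : ∀ z, J S z = D * v * ((D * v)⁻¹ • J S) z := fun z => by
    rw [LinearMap.smul_apply, smul_eq_mul, mul_inv_cancel_left₀ N0.ne']
  have T := tb (J := (D * v)⁻¹ • J S) es ss (Hz o le_rfl) (Hz o (by norm_num))
    (mul_left_cancel₀ N0.ne' (by rw [← hI, mul_one]; exact N.symm))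
  generalize (D * v)⁻¹ • J S = I at hI T
  generalize I (S.aa * S.ee ^ 3) = b at T
  generalize I (S.aa ^ 5 * S.T (S.es y)) = ζ at T
  have c := ch o
  rw [Nat.cast_ofNat] at c
  obtain ⟨f, hf, nw⟩ := nw2 o
  have k : Nq S.aa S.ee (S.T (S.es y)) S.Q x2 x3 x4 x5 x6 := by
    refine nq ⟨uu_eq S, ?_, ?_, ?_, ?_, ?_, ?_⟩ c
    · simp only [p2, map_smul, Tη o 1, NS.H, Hn]
    · simp only [p3, map_add, map_smul, Tη o 2, NS.H]
    · simp only [p4, map_smul, Tη o 3, NS.H]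
    · simp only [p5, map_smul, Tη o 4, NS.H]
    · simp only [p6, map_smul, Tη o 5, NS.H]
    · simp only [dg_hi h.gx (h.dX 7) (by norm_num), map_zero]
  have E := eqs T k hf nw
  generalize S.T (S.es y) = s at *
  have hb : 0 < b + 1 := by
    have w : 0 < J S (S.aa ^ 7) := x.ex.vol
    rw [hI, T.v0] at w
    linarith [(mul_pos_iff_of_pos_left N0).1 w]
  have c1 := h.c1
  rw [Nat.cast_ofNat] at c1
  obtain ⟨m, hm⟩ := x.intX
  rw [c1, smul_pow, map_smul, smul_eq_mul, ← hv] at hm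
  have td := x.td
  rw [Hr.coeff_td _ _ (by norm_num), Hr.tdx, c1, p2, p4, p6] at td
  have td' : tX x2 x4 x6 * v = 1 := by
    rw [← td, hv, ← smul_eq_mul, ← map_smul, tX]
    exact congrArg _ (by algebra)
  have q0 : S.Q 0 = 2 := by rw [q0 o, Nat.cast_ofNat]
  have u := uu_eq S
  rw [NS.uu] at u
  have e1 : S.pE 1 = (1 + x2 / 2) • (-S.τ) + x2 • S.hh := by
    simp only [hE, bt, sum_range_succ, sum_range_zero, Nat.choose, Nat.reduceSub, q0, k.q1, aa]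
    push_cast
    algebra
  have one : 0 < 1 + x2 / 2 →
      D * ((x2 / 2 + 1) ^ 2 / 8 - (x3 / 3 + ζ / 3 - 1 / 3 + x2 / 2) / 24) = 1 := fun p => by
    have w := x.one _ _ p e1
    rw [NS.χF, Hr.coeff_td _ _ (by norm_num), Hr.tdx, ← map_one (algebraMap ℝ A)] at w
    have w2 := fb o ts (c1 := (x2 / 2 + 1) ^ 2 / 8 - (x3 / 3 - 1 / 3 + x2 / 2) / 24)
      (c2 := x3 / 72 - 1 / 18) (c3 := -1 / 72) w (by
        simp only [e1, hE S 2, bt, sum_range_succ, sum_range_zero, Nat.choose, Nat.reduceSub, q0,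
          k.q1, k.q2, NS.aa, NS.ee, NS.hc]
        push_cast
        linear_combination (norm := algebra)
          (-(x2 / 2 + 1) * x2 / 4 + (x2 / 2 + 1) ^ 2 / 2 - x2 / 24) • (S.τ * k7) +
          (x2 ^ 2 / 8 - (x2 / 2 + 1) ^ 2 / 2 + x2 / 12) • (S.hh * k7))
    rw [hI, ev T ((x2 / 2 + 1) ^ 2 / 8 - (x3 / 3 - 1 / 3 + x2 / 2) / 24)
      (-4 * ((x2 / 2 + 1) ^ 2 / 8 - (x3 / 3 - 1 / 3 + x2 / 2) / 24) + (x3 / 72 - 1 / 18))
      (3 * ((x2 / 2 + 1) ^ 2 / 8 - (x3 / 3 - 1 / 3 + x2 / 2) / 24) - 4 * (x3 / 72 - 1 / 18))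
      (3 * (x3 / 72 - 1 / 18)) (-1 / 72) 0 0
      ((1 / 18 : ℝ) • S.aa ^ 3 - (1 / 24 : ℝ) • (S.aa * S.ee)) (by
        simp only [NS.H, Hn]
        algebra), ← hv] at w2
    exact mul_right_cancel₀ v0.ne' (by linear_combination -w2)
  rcases fin E hb td' (m := m) (by linear_combination hm) with ⟨rfl, rfl, rfl⟩ | ⟨rfl, rfl, rfl, rfl⟩
  · refine ⟨⟨1, by rw [e1]; norm_num⟩, ?_⟩
    obtain rfl : D = 4 := by linarith [one (by norm_num)]
    rw [hD, show (4 : ℝ) = 2 ^ 2 by norm_num, map_pow, map_ofNat, Nat.cast_ofNat]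
  exfalso
  obtain ⟨z, hz⟩ := x.intF 2 0 rfl
  rw [pow_zero, mul_one, ← neg_sq, hD, ← map_intCast (algebraMap ℝ A)] at hz
  obtain rfl := inj o hz
  have e2 : (z : ℝ) * (10 - x3 - ζ) = 72 := by linear_combination 72 * one (by norm_num)
  have q1 : S.Q 1 = 0 := by rw [k.q1]; algebra
  have q3 : S.Q 3 = 0 := by rw [nw 0, q1]; ring
  have q5 : S.Q 5 = 0 := by rw [nw 2, q1, q3]; ring
  have q4 : S.Q 4 = (1 / 2 : ℝ) • S.Q 2 ^ 2 := by rw [nw 1, q1, hf, q1]; algebra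
  have q6 : S.Q 6 = (1 / 4 : ℝ) • S.Q 2 ^ 3 := by rw [nw 3, q1, hf, q1, q4]; algebra
  have pK : ∀ j, S.pK j = S.pE j + S.es (S.pX j) - S.τ ^ j := fun j => by
    linear_combination -h.ses j
  have w := x.oneK 2 two_pos (by
    rw [pK, e1, c1, map_smul, ← NS.hh, aa]
    algebra)
  rw [show 6 + 2 - 1 = 7 from rfl, Hr.coeff_td _ _ (by norm_num)] at w
  have key : ∀ t : ℝ, z * (45 / 4) * t = 1 → 810 * t = 10 - x3 - ζ := fun t a => by
    linear_combination (10 - x3 - ζ) * a - 45 / 4 * t * e2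
  refine zero E (by exact_mod_cast D0) e2 (tk T (uu_eq S) (P := S.Q 2) (by
    rw [k.q2, uu_eq]; algebra) ?_ ?_ ?_ ?_ (key _ ((hI _).symm.trans w)))
  · rw [pK, e1, c1, map_smul, ← NS.hh, aa]
    algebra
  all_goals
    simp only [pK, p2, p4, p6, zero_smul, map_zero, hE, bt, sum_range_succ, sum_range_zero,
      Nat.choose, Nat.reduceSub, q0, q1, q3, q4, q5, q6, NS.uu]
    push_cast
    algebra

end Vale.Agent.P280Z
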