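import Vale.Agent.P280Z.M2.X62
import Vale.Agent.P280Z.M2.C62c
import Vale.Agent.P280Z.R1.Sk

/-!
# P280Z, block M2: dimension six and degree four, the assembly of the algebra
-/

noncomputable section

namespace Vale.Agent.P280Z.M2

open Al Al.X4a X62

/-- the second case -/
def CII : Prop := ∀ {A B : Type} [CommRing A] [Algebra ℝ A] [CommRing B] [Algebra ℝ B]
  {S : NS A B} {u y : A} {x2 y2 x3 y3 x4 y4 : ℝ}, S.OK 6 2 → S.Xt 6 2 → S.Desc → S.U62 u →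
  S.pX 2 = x2 • S.η ^ 2 + y2 • u → S.GX.Dg 3 y → S.η * y = 0 →
  S.pX 3 = x3 • S.η ^ 3 + y3 • (S.η * u) + y → S.pX 4 = x4 • S.η ^ 4 + y4 • (S.η ^ 2 * u) →
  y2 = 0 ∧ y3 = 0 ∧ y4 = 0

variable {A B : Type} [CommRing A] [Algebra ℝ A] [CommRing B] [Algebra ℝ B] {S : NS A B}

theorem num62 (h : S.OK 6 2) (x : S.Xt 6 2) : ∃ D a, S.Num2 D a := by
  obtain ⟨WA, WB, W⟩ := x.ex.wps
  have w : ∀ k, ∀ c ∈ WA, S.η ^ k * c ∈ WA := fun k c hc => by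
    induction k with
    | zero => rwa [pow_zero, one_mul]
    | succ k ih =>
      rw [pow_succ', mul_assoc]
      exact W.mulA _ W.η h.dη _ ih
  refine num h (by rw [← pow_succ]) (W.intA _ (w _ _ (W.el _ (W.T _ (W.es _ ?_)))))
  rw [← mul_one (S.η ^ 4)]
  exact w _ _ W.oneA

theorem dec (h : S.OK 6 2) {u : A}
    (h2 : ∀ b, S.GX.Dg 2 b → ∃ x z : ℝ, b = x • S.η ^ 2 + z • u) :
    (∃ x z : ℝ, ∃ y, S.GX.Dg 3 y ∧ S.η * y = 0 ∧ S.pX 3 = x • S.η ^ 3 + z • (S.η * u) + y) ∧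
      ∃ x z : ℝ, S.pX 4 = x • S.η ^ 4 + z • (S.η ^ 2 * u) := by
  obtain ⟨c, k1, k2⟩ := (h.hl 2 2 rfl).2 _ (h.gx.dg_mul 1 3 _ _ h.dη (h.dX 3))
  obtain ⟨c', l1, l2⟩ := (h.hl 2 2 rfl).2 _ (h.dX 4)
  obtain ⟨x, z, e⟩ := h2 c k1
  obtain ⟨x', z', e'⟩ := h2 c' l1
  refine ⟨⟨x, z, S.pX 3 - S.η * c, dg_sub (h.dX 3) (h.gx.dg_mul 1 2 _ _ h.dη k1),
    by linear_combination -k2, ?_⟩, x', z', ?_⟩
  · rw [e]
    algebra
  · rw [← l2, e']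
    algebra

/-- **the algebra of the case `(6, 2)`**, from the second case -/
theorem n62_of (c : CII) (h : S.OK 6 2) (x : S.Xt 6 2) (d : S.Desc) : R1.PN S 2 2 := by
  obtain ⟨D, a, hN⟩ := num62 h x
  rcases x62 h hN with h2 | ⟨u, hu⟩
  · obtain ⟨x2, p2⟩ := h2 _ (h.dX 2)
    obtain ⟨⟨x3, y3, y, dy, hy, p3⟩, x4, y4, p4⟩ := dec h (u := 0) fun b hb => by
      obtain ⟨x, e⟩ := h2 b hb
      exact ⟨x, 0, by rw [smul_zero, add_zero, ← e]⟩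
    rw [mul_zero, smul_zero, add_zero] at p3 p4
    exact cI h x p2 dy hy p3 p4
  obtain ⟨x2, y2, p2⟩ := hu.d2 _ (h.dX 2)
  obtain ⟨⟨x3, y3, y, dy, hy, p3⟩, x4, y4, p4⟩ := dec h hu.d2
  obtain ⟨rfl, rfl, rfl⟩ := c h x d hu p2 dy hy p3 p4
  rw [zero_smul, add_zero] at p2 p3 p4
  exact cI h x p2 dy hy p3 p4

end Vale.Agent.P280Z.M2
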