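import Vale.Agent.P280Z.M2.C62d
import Vale.Agent.P280Z.M2.Br62
import Vale.Agent.P280Z.M2.N62

/-!
# P280Z, block M2: dimension six and degree four, the second case from real algebra
-/

noncomputable section

namespace Vale.Agent.P280Z.M2

open Al C62

/-- the numbers of the family -/
def C1 : Prop := ∀ a mu l c X2 Y2 X3 Y3 X4 Y4 X5 X6 z5 z6 : ℝ,
  E62 a mu l c 0 X2 Y2 X3 Y3 X4 Y4 X5 X6 z5 z6 → 0 ≤ a → Y2 ≠ 0 → a = 2 ∧ l ^ 2 = 1 ∧ mu = 3 * l

/-- the finite list -/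
def C2 : Prop := ∀ c X2 Y2 X3 Y3 X4 Y4 X5 X6 z5 z6 : ℝ,
  E62 2 3 1 c 0 X2 Y2 X3 Y3 X4 Y4 X5 X6 z5 z6 → Y2 ≠ 0 → X6 = 0 ∧ X4 = X2 / 2 - Y2 ∧
    Y4 = 2 * Y2 - X2 ∧ Y2 ^ 2 = 4 / 25 ∧ 10 * X2 = (6 - c) * Y2 ∧ (c = 11 ∨ c = -14)

/-- the case where the second power sum is a multiple of `η ^ 2` -/
def Y0 : Prop := ∀ a mu l c q X2 X3 Y3 X4 Y4 X5 X6 z5 z6 : ℝ,
  E62 a mu l c q X2 0 X3 Y3 X4 Y4 X5 X6 z5 z6 → 0 ≤ a → Y3 = 0 ∧ Y4 = 0

section
variable {a mu l c q X2 Y2 X3 Y3 X4 Y4 X5 X6 z5 z6 : ℝ}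

theorem E62.neg (h : E62 a mu l c q X2 Y2 X3 Y3 X4 Y4 X5 X6 z5 z6) :
    E62 a (-mu) (-l) (-c) q X2 (-Y2) X3 (-Y3) X4 (-Y4) X5 X6 (-z5) z6 :=
  ⟨by linear_combination h.r0, by linear_combination h.r3_02000, by linear_combination h.r3_21000,
    by linear_combination h.r3_40000, by linear_combination -h.r3_11100,
    by linear_combination -h.r3_20010, by linear_combination -h.r3_30100,
    by linear_combination h.r3_01200, by linear_combination h.r3_20200,
    by linear_combination -h.r3_10300, by linear_combination -h.r3_10101,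
    by linear_combination h.r3_20001, by linear_combination h.r4_11000,
    by linear_combination h.r4_30000, by linear_combination -h.r4_01100,
    by linear_combination -h.r4_10010, by linear_combination -h.r4_20100,
    by linear_combination h.r4_10200, by linear_combination h.r4_10001,
    by linear_combination h.r5_01000, by linear_combination h.r5_20000,
    by linear_combination -h.r5_00010, by linear_combination -h.r5_10100,
    by linear_combination h.r5_00200, by linear_combination h.r5_00001,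
    by linear_combination h.r6_10000, by linear_combination -h.r6_00100,
    by linear_combination h.r7_00000⟩

variable {A B : Type} [CommRing A] [Algebra ℝ A] [CommRing B] [Algebra ℝ B] {S : NS A B}
  {D : ℝ} {w y : A}

/-- the Todd genus -/
theorem tdk (h : S.OK 6 2) (x : S.Xt 6 2)
    (d : D62 S D w y a mu l c q X2 Y2 X3 Y3 X4 Y4 X5 X6 z5 z6) : ∃ m : ℤ,
    (tX (2 * X2) (4 * X4) (6 * X6) - (3 * X2 * Y2 ^ 2 + c * Y2 ^ 3) / 10368 + Y2 ^ 2 / 144 -
      Y2 * Y4 / 8640) * m = 4096 := by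
  have c1 := h.c1
  rw [Nat.cast_ofNat] at c1
  obtain ⟨m, hm⟩ := x.intX
  rw [c1, smul_pow, map_smul, smul_eq_mul] at hm
  have td := x.td
  rw [Hr.coeff_td _ _ (by norm_num), Hr.tdx, c1, d.p2, d.p4, d.p6] at td
  have k : (tX (2 * X2) (4 * X4) (6 * X6) - (3 * X2 * Y2 ^ 2 + c * Y2 ^ 3) / 10368 + Y2 ^ 2 / 144 -
      Y2 * Y4 / 8640) * S.GX.int (S.η ^ 6) = 1 := by
    rw [← td, ← smul_eq_mul, ← map_smul, tX]
    refine congrArg _ ?_
    linear_combination (norm := algebra)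
      ((3 * X2 * Y2 ^ 2 + c * Y2 ^ 3) / 10368 - Y2 ^ 2 / 144 + Y2 * Y4 / 8640) •
        (S.η ^ 2 * d.sq) + (Y2 ^ 3 / 10368) • (w * d.sq) +
      (c * ((3 * X2 * Y2 ^ 2 + c * Y2 ^ 3) / 10368 - Y2 ^ 2 / 144 + Y2 * Y4 / 8640) +
        Y2 ^ 3 / 10368 + 3 * X2 ^ 2 * Y2 / 10368 - X2 * Y2 / 72 + (X2 * Y4 + Y2 * X4) / 8640 +
        Y2 / 18 - Y4 / 360) • (S.η * d.hw.prim)
  exact ⟨m, by linear_combination 4096 * k - (tX (2 * X2) (4 * X4) (6 * X6) -
    (3 * X2 * Y2 ^ 2 + c * Y2 ^ 3) / 10368 + Y2 ^ 2 / 144 - Y2 * Y4 / 8640) * hm⟩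

theorem dk' (h : S.OK 6 2) (d : D62 S D w y a mu l c q X2 Y2 X3 Y3 X4 Y4 X5 X6 z5 z6)
    (e : S.Desc) (hY : Y2 ≠ 0) (n : ℤ) (n0 : 0 < n) (e1 : X2 + 1 + Y2 * mu = n)
    (e2 : mu ^ 2 + 2 * a + 1 + l * c = 0) : False :=
  dk h d.num d.hw e (X := X2) (by rw [d.p2]; algebra) hY (by rw [mul_comm, d.smu])
    (by rw [mul_comm, d.sl]) d.sq n n0 e1 e2

theorem y2z (c1 : C1) (c2 : C2) (h : S.OK 6 2) (x : S.Xt 6 2) (e : S.Desc)
    (d : D62 S D w y a mu l c q X2 Y2 X3 Y3 X4 Y4 X5 X6 z5 z6) : Y2 = 0 := by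
  by_contra hY
  have E := d.eqs
  by_cases hq : q = 0
  swap
  · have k0 : 2 * a + 2 + c * (l + mu) = 0 := (mul_eq_zero.1 E.r0).resolve_left hq
    have k1 : X2 + Y2 * mu = 0 :=
      mul_left_cancel₀ hq (by linear_combination E.r3_20001 + X2 * E.r0)
    have k2 : mu * X2 = Y2 * (2 * a + 1 + l * c) :=
      mul_left_cancel₀ hq (by linear_combination E.r3_10101)
    exact dk' h d e hY 1 one_pos (by push_cast; linarith)
      (mul_left_cancel₀ hY (by linear_combination mu * k1 - k2))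
  subst hq
  obtain ⟨rfl, k1, rfl⟩ := c1 _ _ _ _ _ _ _ _ _ _ _ _ _ _ E d.num.nn hY
  obtain ⟨m, t⟩ := tdk h x d
  rw [tX] at t
  have n : ∀ a c : ℤ, (a : ℝ) * m = c → ¬ a ∣ c → False := fun a c e k =>
    k ⟨m, by exact_mod_cast e.symm⟩
  have s : Y2 ^ 2 = 4 / 25 → Y2 = 2 / 5 ∨ Y2 = -(2 / 5) := fun k =>
    sq_eq_sq_iff_eq_or_eq_neg.1 (by linarith)
  rcases sq_eq_sq_iff_eq_or_eq_neg.1 (k1.trans (one_pow 2).symm) with rfl | rfl
  · rw [mul_one] at E
    obtain ⟨rfl, rfl, rfl, k2, k3, rfl | rfl⟩ := c2 _ _ _ _ _ _ _ _ _ _ _ E hY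
    · rcases s k2 with rfl | rfl
      · obtain rfl : X2 = -1 / 5 := by linarith
        exact n 863 35389440 (by push_cast; linarith) (by norm_num)
      · obtain rfl : X2 = 1 / 5 := by linarith
        exact n 29 1474560 (by push_cast; linarith) (by norm_num)
    · rcases s k2 with rfl | rfl
      · exact dk' h d e hY 3 (by norm_num) (by push_cast; linarith) (by norm_num)
      · obtain rfl : X2 = -4 / 5 := by linarith
        exact n 5 147456 (by push_cast; linarith) (by norm_num)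
  · have E' := E.neg
    rw [mul_neg, mul_one, neg_neg, neg_neg] at E'
    obtain ⟨rfl, rfl, k4, k2, k3, k5⟩ := c2 _ _ _ _ _ _ _ _ _ _ _ E' (neg_ne_zero.2 hY)
    obtain rfl : Y4 = 2 * Y2 + X2 := by linarith
    rw [neg_sq] at k2
    rcases k5 with k5 | k5
    · obtain rfl : c = -11 := by linarith
      rcases s k2 with rfl | rfl
      · obtain rfl : X2 = 1 / 5 := by linarith
        exact n 29 1474560 (by push_cast; linarith) (by norm_num)
      · obtain rfl : X2 = -1 / 5 := by linarith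
        exact n 863 35389440 (by push_cast; linarith) (by norm_num)
    · obtain rfl : c = 14 := by linarith
      rcases s k2 with rfl | rfl
      · obtain rfl : X2 = -4 / 5 := by linarith
        exact n 5 147456 (by push_cast; linarith) (by norm_num)
      · exact dk' h d e hY 3 (by norm_num) (by push_cast; linarith) (by norm_num)

end

/-- **the second case**, from three statements of real algebra -/
theorem cII_of (c1 : C1) (c2 : C2) (y0 : Y0) : CII := fun h x e hu p2 dy hy p3 p4 => by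
  obtain ⟨D, a, hN⟩ := num62 h x
  obtain ⟨κ, w, mu, l, c, q, X5, X6, z5, z6, k0, -, d⟩ := br62 h hN hu p2 dy hy p3 p4
  have k := y2z c1 c2 h x e d
  have E := d.eqs
  rw [k] at E
  obtain ⟨k3, k4⟩ := y0 _ _ _ _ _ _ _ _ _ _ _ _ _ _ E hN.nn
  exact ⟨mul_right_cancel₀ k0.ne' (by linarith), mul_right_cancel₀ k0.ne' (by linarith),
    mul_right_cancel₀ k0.ne' (by linarith)⟩

end Vale.Agent.P280Z.M2
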