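import Vale.Agent.P280Z.M2.N62
import Vale.Agent.P280Z.R1.C62
import Vale.Agent.P280Z.R1.Desc
import Vale.Agent.P280Z.R1.Kob
import Vale.Agent.P280Z.R1.Mfx
import Vale.Agent.P280Z.R1.Mod2
import Vale.Agent.P280Z.R1.Scc
import Vale.Agent.P280Z.R1.Asm
import Vale.Agent.P280Z.R1.Ramp
import Vale.Agent.P280Z.R1.Rext
import Vale.Agent.P280Z.R1.Rpx
import Vale.Agent.P280Z.R1.Onto
import Vale.Agent.P280Z.R1.Tvx
import Vale.Agent.P280Z.R1.Dsb
import Vale.Agent.P280Z.R1.Xt
import Vale.Agent.P280Z.Tr.All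

/-!
# P280Z, block M2: dimension six and degree four, from the second case of the algebra
-/

noncomputable section

namespace Vale.Agent.P280Z.M2

open R1

theorem descz : DESC := desc_of Ld.va Gm.cov rext ramp dsb

theorem mfxz : MFX := mfx_of Ld.va Gm.cov rext (rpx_of onto tfb) tvx asm

theorem c62_cII (c : CII) : Cv.CS 6 2 :=
  c62_of (fun T t _ _ _ _ _ _ _ _ _ F E s => n62_of c s.ns (xt T t F E s) (descz T t F E s))
    (kob2_of fin2) mod2 scc mfxz Tr.trc

end Vale.Agent.P280Z.M2
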