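import Vale.Agent.P280Z.M2.E62

/-!
# P280Z, block M2: the equations of the second case when `Y2 = 0`
-/

namespace Vale.Agent.P280Z.M2

namespace Y062

variable {a mu l c q X2 X3 Y3 X4 Y4 X5 X6 z5 z6 : ℝ}

theorem s1
    (e1 : -90*a*X3^2 - 30*a*X3 - 160*a - 90*l*X3*Y3 + 30*l*Y3 + 90*X5 + 288 = 0)
    (e2 : -270*a*X3^2 - 90*a*X3 + 90*a*X5 - 192*a - 90*mu*X3*Y3 + 30*mu*Y3 - 270*l*X3*Y3 + 45*q -
      45*X3^2 + 30*X3 + 45*Y3^2 + 180*X5 + 256 = 0)
    (e3 : -45*mu*X3^2 + 30*mu*X3 + 45*mu*Y3^2 + 90*mu*X5 - 32*mu - 45*l*X3^2 - 60*l*X3 - 45*l*Y3^2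
      + 160*l + 90*X3*Y3 - 30*Y3 = 0)
    (e4 : 45*mu*q - 45*mu*X3^2 + 30*mu*X3 + 45*mu*Y3^2 + 90*mu*X5 - 32*mu - 90*l*X3^2 - 30*l*X3 -
      90*l*Y3^2 + 90*l*X5 + 128*l + 90*X3*Y3 - 30*Y3 = 0)
    (e5 : 90*a*X3*Y3 - 30*a*Y3 + 45*mu*q - 135*mu*X3^2 + 135*mu*Y3^2 + 180*mu*X5 + 96*mu -
      180*l*X3^2 - 60*l*X3 - 90*l*Y3^2 + 90*l*X5 - 32*l + 270*X3*Y3 = 0)
    (e6 : -90*a*X3^2 - 90*a*X3*X5 + 42*a*X3 - 150*a*X5 + 320*a + 90*mu*X3*Y3 - 90*mu*Y3*X5 +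
      42*mu*Y3 - 90*l*X3*Y3 - 90*l*Y3*X5 - 168*l*Y3 - 45*q + 45*X3^2 - 90*X3*X5 + 42*X3 - 45*Y3^2
      + 300*X5 - 640 = 0)
    (e7 : -90*a*X3*Y3 + 90*a*Y3*X5 - 42*a*Y3 - 45*mu*q - 45*mu*X3^2 - 90*mu*X3*X5 - 168*mu*X3 +
      45*mu*Y3^2 + 300*mu*X5 + 160*mu - 90*l*X3*X5 + 252*l*X3 - 90*l*Y3^2 - 150*l*X5 - 480*l +
      90*X3*Y3 + 90*Y3*X5 + 168*Y3 = 0)
    (k : 3*mu*Y3 + 3*X3 - 1 = 0) : Y3 * (a - 2) = 0 := by
  linear_combination (-(582263/24296817)*a*q*Y3*X5 - (343319177/2429681700)*a*q*Y3 -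
    (156995017/2429681700)*a*X3^2*Y3 - (31750129/202473475)*a*X3*Y3*X5 -
    (9358322009/36445225500)*a*X3*Y3 + (156995017/2429681700)*a*Y3^3 +
    (2346639649/4859363400)*a*Y3*X5^2 + (1804223369/12148408500)*a*Y3*X5 -
    (1058433253837/546678382500)*a*Y3 + (582263/24296817)*mu*q^2*X3 - (582263/72890451)*mu*q^2 -
    (26384617/1214840850)*mu*q*X3^2 - (976300883/1619787800)*mu*q*X3*X5 +
    (193517760313/72890451000)*mu*q*X3 - (1068545687/4859363400)*mu*q*X5 -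
    (119375591453/218671353000)*mu*q + (60149097/809893900)*mu*X3^2*X5 -
    (955467187/1012367375)*mu*X3^2 + (2346639649/2429681700)*mu*X3*X5^2 -
    (7755571969/4049469500)*mu*X3*X5 + (6688047061/15185510625)*mu*X3 -
    (6078495923/14578090200)*mu*X5^2 + (3020948537/6074204250)*mu*X5 + (5700001324/45556531875)*mu
    + (582263/24296817)*l*q*X3^2 + (582263/24296817)*l*q*X3*X5 - (5362373323/7289045100)*l*q*X3 +
    (582263/24296817)*l*q*Y3^2 - (375895021/1457809020)*l*q*X5 - (4029198502/5466783825)*l*q -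
    (601216567/2429681700)*l*X3^3 - (1121559647/4859363400)*l*X3^2*X5 +
    (26220564301/8098939000)*l*X3^2 - (305068867/809893900)*l*X3*Y3^2 -
    (2346639649/4859363400)*l*X3*X5^2 + (92376997649/18222612750)*l*X3*X5 -
    (576721374283/91113063750)*l*X3 - (1883562743/4859363400)*l*Y3^2*X5 +
    (44917637657/24296817000)*l*Y3^2 - (2562736279/7289045100)*l*X5^2 +
    (159394573981/109335676500)*l*X5 + (499724310076/410008786875)*l - (582263/24296817)*q^2*Y3 +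
    (26384617/1214840850)*q*X3*Y3 + (976300883/1619787800)*q*Y3*X5 -
    (25487962703/72890451000)*q*Y3 - (439800649/485936340)*X3^2*Y3 - (60149097/809893900)*X3*Y3*X5
    + (26605215443/9111306375)*X3*Y3 - (439800649/485936340)*Y3^3 -
    (2346639649/2429681700)*Y3*X5^2 - (10691895051/4049469500)*Y3*X5 +
    (599602471141/136669595625)*Y3) * k + ((1164526/364452255)*a*q*X5 + (18632416/1822261275)*a*q
    + (1408881899/36445225500)*a*X3*X5 + (1244836693/364452255000)*a*X3 -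
    (156995017/18222612750)*a*Y3^2 - (2346639649/36445225500)*a*X5^2 +
    (221012677679/2186713530000)*a*X5 + (302143119662/683347978125)*a - (1164526/364452255)*l*q*Y3
    - (601216567/18222612750)*l*X3*Y3 + (1059106783/12148408500)*l*Y3*X5 -
    (47089231639/273339191250)*l*Y3 + (582263/364452255)*q^2 + (343327889/145780902000)*q*X3 -
    (10867036031/291561804000)*q*X5 + (14660017676/136669595625)*q + (9709961/647915120)*X3^3 -
    (156352367/58312360800)*X3^2*X5 + (313630397/1822261275)*X3^2 + (9709961/647915120)*X3*Y3^2 +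
    (14218311937/437342706000)*X3*X5 - (408964147123/2186713530000)*X3 -
    (156352367/58312360800)*Y3^2*X5 + (11270545217/72890451000)*Y3^2 +
    (5102017123/145780902000)*X5^2 + (1175896601983/13120281180000)*X5 -
    (1939928482133/2050043934375)) * e3 + (-(582263/364452255)*a*q*X5 - (9316208/1822261275)*a*q -
    (1027880351/36445225500)*a*X3*X5 + (17584920781/121484085000)*a*X3 +
    (156995017/36445225500)*a*Y3^2 + (2346639649/72890451000)*a*X5^2 -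
    (150392166167/2186713530000)*a*X5 - (66545328782/227782659375)*a + (582263/364452255)*l*q*Y3 +
    (601216567/36445225500)*l*X3*Y3 - (1265220773/36445225500)*l*Y3*X5 +
    (19971357544/136669595625)*l*Y3 - (582263/728904510)*q^2 + (191374321/48593634000)*q*X3 +
    (5076043463/291561804000)*q*X5 - (52293766841/728904510000)*q + (140297939/29156180400)*X3^3 -
    (156352367/58312360800)*X3^2*X5 - (41780813/7289045100)*X3^2 + (140297939/29156180400)*X3*Y3^2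
    + (1757704801/109335676500)*X3*X5 - (376494934411/2186713530000)*X3 -
    (156352367/58312360800)*Y3^2*X5 - (20551511717/218671353000)*Y3^2 -
    (3315590561/72890451000)*X5^2 - (800354186867/13120281180000)*X5 +
    (3904663910441/6150131803125)) * e4 + (-(4286192201/58312360800)*a*X3 -
    (68234461/5831236080)*a*X5 - (116386489/10933567650)*a - (646878803/72890451000)*l*Y3*X5 -
    (16052188511/728904510000)*l*Y3 - (298314763/116624721600)*q*X3 + (16609247/58312360800)*q*X5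
    - (165395267/87468541200)*q - (717544123/116624721600)*X3^3 + (156352367/58312360800)*X3^2*X5
    - (14551636651/291561804000)*X3^2 - (717544123/116624721600)*X3*Y3^2 -
    (2807505349/174937082400)*X3*X5 + (81860652011/583123608000)*X3 +
    (156352367/58312360800)*Y3^2*X5 - (123472331/87468541200)*Y3^2 + (121118864/9111306375)*X5^2 +
    (412560979379/13120281180000)*X5 + (214634585401/12300263606250)) * e5 +
    ((70879803/6479151200)*a*X3 + (132258541/3644522550)*a - (500473781/29156180400)*l*Y3 +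
    (25517611/38874907200)*q*X3 + (44353949/29156180400)*q - (156352367/116624721600)*X3^3 +
    (30191707/19437453600)*X3^2 - (156352367/116624721600)*X3*Y3^2 + (16349513/11662472160)*X3*X5
    - (7089755551/349874164800)*X3 + (156352367/87468541200)*Y3^2 - (33584281/43734270600)*X5 -
    (141288488539/1968042177000)) * e7 + ((148325153/3644522550)*a*Y3 - (582263/242968170)*mu*q^2
    + (142837217/12148408500)*mu*q*X3 + (7971539747/145780902000)*mu*q*X5 -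
    (51163522591/242968170000)*mu*q - (307447807/24296817000)*mu*X3*X5 -
    (1248341987/121484085000)*mu*X3 - (2346639649/29156180400)*mu*X5^2 +
    (9661105823/36445225500)*mu*X5 - (792838918/15185510625)*mu - (582263/121484085)*l*q*X3 -
    (582263/121484085)*l*q*X5 + (18632416/1822261275)*l*q + (501444718/9111306375)*l*X3*X5 -
    (5864396567/45556531875)*l*X3 + (189552896/3037102125)*l*Y3^2 +
    (2346639649/24296817000)*l*X5^2 - (335824105169/546678382500)*l*X5 +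
    (296525962912/683347978125)*l - (148325153/14578090200)*q*Y3 - (148325153/14578090200)*X3^2*Y3
    + (7737037669/109335676500)*X3*Y3 - (148325153/14578090200)*Y3^3 -
    (551144069/145780902000)*Y3*X5 - (241084202843/3280070295000)*Y3) * e1 +
    (-(805876277/19437453600)*a*Y3 + (582263/728904510)*mu*q^2 - (113724067/36445225500)*mu*q*X3 -
    (859848283/48593634000)*mu*q*X5 + (159871864823/2186713530000)*mu*q +
    (20049699/8098939000)*mu*X3*X5 + (433647203/182226127500)*mu*X3 +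
    (2346639649/72890451000)*mu*X5^2 - (72906436519/728904510000)*mu*X5 +
    (17801318953/1366695956250)*mu + (582263/364452255)*l*q*X3 + (582263/364452255)*l*q*X5 -
    (18632416/5466783825)*l*q - (1121559647/72890451000)*l*X3*X5 + (46591937281/728904510000)*l*X3
    - (189552896/9111306375)*l*Y3^2 - (2346639649/72890451000)*l*X5^2 +
    (254954198941/1093356765000)*l*X5 - (200735250253/1366695956250)*l +
    (67644469/38874907200)*q*Y3 + (156352367/116624721600)*X3^2*Y3 -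
    (6954432533/174937082400)*X3*Y3 + (156352367/116624721600)*Y3^3 -
    (145965277/58312360800)*Y3*X5 + (429856425061/5248112472000)*Y3) * e2 +
    (-(44426383/58312360800)*a*Y3 - (582263/242968170)*mu*q*X3 - (64279799/4859363400)*mu*q +
    (246658013/7289045100)*mu*X3 - (3693911/1166247216)*mu*X5 - (199436131/10933567650)*mu -
    (8096893/129583024)*l*X3 - (8306807/728904510)*l*X5 + (94747627/1214840850)*l +
    (67644469/38874907200)*q*Y3 + (156352367/116624721600)*X3^2*Y3 + (40979371/174937082400)*X3*Y3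
    + (156352367/116624721600)*Y3^3 - (16349513/11662472160)*Y3*X5 -
    (8702186671/1049622494400)*Y3) * e6

theorem s2
    (e1 : -90*l*X3*Y3 + 30*l*Y3 - 180*X3^2 - 60*X3 + 90*X5 - 32 = 0)
    (e2 : -90*mu*X3*Y3 + 30*mu*Y3 - 270*l*X3*Y3 + 45*q - 585*X3^2 - 150*X3 + 45*Y3^2 + 360*X5 -
      128 = 0)
    (e3 : -45*mu*X3^2 + 30*mu*X3 + 45*mu*Y3^2 + 90*mu*X5 - 32*mu - 45*l*X3^2 - 60*l*X3 - 45*l*Y3^2
      + 160*l + 90*X3*Y3 - 30*Y3 = 0)
    (e4 : 45*mu*q - 45*mu*X3^2 + 30*mu*X3 + 45*mu*Y3^2 + 90*mu*X5 - 32*mu - 90*l*X3^2 - 30*l*X3 -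
      90*l*Y3^2 + 90*l*X5 + 128*l + 90*X3*Y3 - 30*Y3 = 0)
    (e5 : 45*mu*q - 135*mu*X3^2 + 135*mu*Y3^2 + 180*mu*X5 + 96*mu - 180*l*X3^2 - 60*l*X3 -
      90*l*Y3^2 + 90*l*X5 - 32*l + 450*X3*Y3 - 60*Y3 = 0)
    (e6 : 90*mu*X3*Y3 - 90*mu*Y3*X5 + 42*mu*Y3 - 90*l*X3*Y3 - 90*l*Y3*X5 - 168*l*Y3 - 45*q -
      135*X3^2 - 270*X3*X5 + 126*X3 - 45*Y3^2 = 0)
    (e7 : -45*mu*q - 45*mu*X3^2 - 90*mu*X3*X5 - 168*mu*X3 + 45*mu*Y3^2 + 300*mu*X5 + 160*mu -
      90*l*X3*X5 + 252*l*X3 - 90*l*Y3^2 - 150*l*X5 - 480*l - 90*X3*Y3 + 270*Y3*X5 + 84*Y3 = 0)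
    (k : 3*mu*Y3 + 3*X3 - 1 = 0) : Y3 = 0 := by
  linear_combination (-(539/1626)*mu*q*X3 + (539/4878)*mu*q + (4738/5691)*mu*X3^2 +
    (9439/11382)*mu*X3*X5 - (92524/85365)*mu*X3 - (3446/17073)*mu*X5 + (53552/256095)*mu -
    (77/813)*l*q - (385/1626)*l*X3^2 - (694/1897)*l*X3*X5 + (150974/85365)*l*X3 +
    (385/1626)*l*Y3^2 + (2055/1897)*l*X5 - (9680/51219)*l + (539/1626)*q*Y3 + (652/5691)*X3*Y3 -
    (1111/11382)*Y3*X5 + (31861/85365)*Y3) * k + ((77/2439)*l*Y3 - (539/24390)*q +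
    (4073/341460)*X3 - (34507/682920)*X5 + (1424/182925)) * e3 + (-(77/4878)*l*Y3 -
    (19687/1365840)*X3 - (73/227640)*X5 - (31343/2560950)) * e5 + ((539/48780)*q - (991/113820)*X3
    + (4843/227640)*X5 + (4306/142275)) * e4 + ((1265/273168)*X3 + (58/7317)) * e7 +
    ((539/16260)*mu*q - (4841/56910)*mu*X3 - (359/5691)*mu*X5 + (1357/28455)*mu +
    (1927/28455)*l*X3 + (23029/341460)*l*X5 - (9007/60975)*l - (32/4065)*Y3) * e1 +
    (-(539/48780)*mu*q + (5489/170730)*mu*X3 + (7937/341460)*mu*X5 - (114419/5121900)*mu -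
    (1927/113820)*l*X3 - (539/24390)*l*X5 + (29443/569100)*l - (263/39024)*Y3) * e2 +
    ((751/170730)*mu*X3 + (209/204876)*mu - (391/341460)*l*X3 + (6859/1024380)*l - (263/39024)*Y3)
    * e6

theorem s3
    (e1 : -90*a*X3^2 - 30*a*X3 - 160*a + 90*X5 + 288 = 0)
    (e2 : -270*a*X3^2 - 90*a*X3 + 90*a*X5 - 192*a - 90*mu*X3*Y3 + 30*mu*Y3 - 45*X3^2 + 30*X3 +
      45*Y3^2 + 180*X5 + 256 = 0)
    (e3 : -45*mu*X3^2 + 30*mu*X3 + 45*mu*Y3^2 + 90*mu*X5 - 32*mu + 90*X3*Y3 - 30*Y3 = 0)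
    (e5 : 90*a*X3*Y3 - 30*a*Y3 - 135*mu*X3^2 + 135*mu*Y3^2 + 180*mu*X5 + 96*mu + 270*X3*Y3 = 0)
    (e6 : -90*a*X3^2 - 90*a*X3*X5 + 42*a*X3 - 150*a*X5 + 320*a + 90*mu*X3*Y3 - 90*mu*Y3*X5 +
      42*mu*Y3 + 45*X3^2 - 90*X3*X5 + 42*X3 - 45*Y3^2 + 300*X5 - 640 = 0)
    (e7 : -90*a*X3*Y3 + 90*a*Y3*X5 - 42*a*Y3 - 45*mu*X3^2 - 90*mu*X3*X5 - 168*mu*X3 + 45*mu*Y3^2 +
      300*mu*X5 + 160*mu + 90*X3*Y3 + 90*Y3*X5 + 168*Y3 = 0) :
    Y3 * (mu ^ 2 + 1) = 0 := by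
  linear_combination ((433/38880)*a*X3*X5 - (61/16200)*a*X3 - (269/58320)*a*X5 - (407/24300)*a +
    (7/540)*mu*X3*Y3 + (31/2592)*mu*Y3*X5 - (89/9720)*mu*Y3 + (61/4320)*X3*X5 + (2521/48600)*X3 -
    (7/1620)*Y3^2 + (7/6480)*X5^2 - (173/16200)*X5 + (10531/182250)) * e3 + (-(97/38880)*a*X3*X5 +
    (41/24300)*a*X3 - (193/58320)*a*X5 + (667/291600)*a - (7/1620)*mu*X3*Y3 - (31/7776)*mu*Y3*X5 +
    (19/12960)*mu*Y3 - (373/77760)*X3*X5 - (4129/194400)*X3 + (7/6480)*Y3^2 - (7/12960)*X5^2 +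
    (709/583200)*X5 - (4241/364500)) * e5 + ((29/9720)*a*X3 + (7/3240)*a*X5 + (31/291600)*a +
    (37/7776)*mu*Y3 + (7/25920)*X3*X5 + (1463/194400)*X3 + (7/6480)*Y3^2 - (1/38880)*X5 +
    (269/72900)) * e7 + ((31/7776)*a*Y3*X5 - (31/9720)*a*Y3 - (71/38880)*mu*X3*X5 -
    (31/12150)*mu*X3 - (7/1620)*mu*Y3^2 - (739/29160)*mu*X5 + (1339/36450)*mu - (7/1620)*X3*Y3 +
    (239/38880)*Y3*X5 + (223/24300)*Y3) * e1 + (-(7/3240)*a*Y3*X5 + (11/12150)*a*Y3 +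
    (23/19440)*mu*X3 + (83/7776)*mu*X5 - (457/29160)*mu + (7/6480)*X3*Y3 - (7/2880)*Y3*X5 -
    (493/48600)*Y3) * e2 + (-(1/1215)*a*Y3 - (61/19440)*mu*X3 + (31/7776)*mu*X5 + (191/29160)*mu +
    (7/6480)*X3*Y3 - (7/25920)*Y3*X5 - (157/48600)*Y3) * e6

theorem s4
    (e1 : -90*a*X3^2 - 30*a*X3 - 160*a - 90*l*X3*Y3 + 30*l*Y3 + 90*X5 + 288 = 0)
    (e2 : -270*a*X3^2 - 90*a*X3 + 90*a*X5 - 192*a - 90*mu*X3*Y3 + 30*mu*Y3 - 270*l*X3*Y3 - 45*X3^2
      + 30*X3 + 45*Y3^2 + 180*X5 + 256 = 0)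
    (e3 : -45*mu*X3^2 + 30*mu*X3 + 45*mu*Y3^2 + 90*mu*X5 - 32*mu - 45*l*X3^2 - 60*l*X3 - 45*l*Y3^2
      + 160*l + 90*X3*Y3 - 30*Y3 = 0)
    (e5 : 90*a*X3*Y3 - 30*a*Y3 - 135*mu*X3^2 + 135*mu*Y3^2 + 180*mu*X5 + 96*mu - 180*l*X3^2 -
      60*l*X3 - 90*l*Y3^2 + 90*l*X5 - 32*l + 270*X3*Y3 = 0)
    (e6 : -90*a*X3^2 - 90*a*X3*X5 + 42*a*X3 - 150*a*X5 + 320*a + 90*mu*X3*Y3 - 90*mu*Y3*X5 +
      42*mu*Y3 - 90*l*X3*Y3 - 90*l*Y3*X5 - 168*l*Y3 + 45*X3^2 - 90*X3*X5 + 42*X3 - 45*Y3^2 +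
      300*X5 - 640 = 0)
    (e7 : -90*a*X3*Y3 + 90*a*Y3*X5 - 42*a*Y3 - 45*mu*X3^2 - 90*mu*X3*X5 - 168*mu*X3 + 45*mu*Y3^2 +
      300*mu*X5 + 160*mu - 90*l*X3*X5 + 252*l*X3 - 90*l*Y3^2 - 150*l*X5 - 480*l + 90*X3*Y3 +
      90*Y3*X5 + 168*Y3 = 0)
    (k : -45*X3^2 + 30*X3 + 90*X5 - 32 - 45*Y3^2 = 0) :
    l * (225 * X3 ^ 2 - 15 * X3 + 16) = 0 := by
  linear_combination ((1205009/484800)*a*mu*X3*X5 - (2104127/1818000)*a*mu*X3 -
    (147317/72720)*a*mu*X5 - (689713/136350)*a*mu - (261389/290880)*a*l*X3*X5 -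
    (13190411/727200)*a*l*X3 + (39970729/4363200)*a*l*X5 + (4264151/340875)*a*l +
    (20233/60600)*a*X3*Y3 - (1308247/1454400)*a*Y3*X5 + (3765311/909000)*a*Y3 +
    (500767/484800)*mu^2*Y3*X5 + (2867083/3636000)*mu^2*Y3 - (107449/181800)*mu*l*X3*Y3 +
    (20527/121200)*mu*l*Y3*X5 - (16796929/10908000)*mu*l*Y3 + (13337/727200)*mu*X3*X5 +
    (31214267/3636000)*mu*X3 - (3323/12120)*mu*Y3^2 - (132847/109080)*mu*X5 + (1189283/136350)*mu
    - (2501/2525)*l^2*X3*Y3 - (500767/484800)*l^2*Y3*X5 - (6535439/1818000)*l^2*Y3 -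
    (246821/145440)*l*X3*X5 + (2713453/242400)*l*X3 + (375287/363600)*l*Y3^2 +
    (14911/121200)*l*X5^2 - (64244239/10908000)*l*X5 - (2681191/126250)*l - (3323/12120)*X3*Y3 +
    (1475627/1454400)*Y3*X5 - (1838159/227250)*Y3) * k + ((1799593/1454400)*a*X3*X5 -
    (17922293/1818000)*a*X3 + (1406123/1090800)*a*X5 - (1858222/340875)*a +
    (500767/484800)*mu*Y3*X5 - (3392281/1818000)*mu*Y3 - (5521/9090)*l*X3*Y3 +
    (336551/484800)*l*Y3*X5 + (12907303/2727000)*l*Y3 + (1016069/1454400)*X3*X5 +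
    (8897557/606000)*X3 - (4529/20200)*Y3^2 + (14911/60600)*X5^2 - (6620611/1363500)*X5 +
    (2241607/189375)) * e3 + ((111931/28800)*a*X3 - (221681/181800)*a*X5 + (467363/681750)*a +
    (1741331/1454400)*mu*Y3 + (72623/181800)*l*X3*Y3 + (20527/121200)*l*Y3*X5 -
    (38102539/10908000)*l*Y3 + (30841/363600)*X3*X5 - (49388911/7272000)*X3 + (14177/484800)*Y3^2
    - (14911/121200)*X5^2 + (20853007/5454000)*X5 - (12787111/6817500)) * e5 +
    ((2439059/2908800)*a*X3 + (907717/1454400)*a*X5 - (961691/340875)*a - (90889/96960)*mu*Y3 +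
    (896659/363600)*l*Y3 + (14911/242400)*X3*X5 - (15298319/7272000)*X3 - (13351/96960)*Y3^2 -
    (312829/181800)*X5 + (7945319/1363500)) * e7 + ((907717/484800)*a*Y3*X5 - (571741/113625)*a*Y3
    + (1799593/1454400)*mu*X3*X5 + (5805701/909000)*mu*X3 - (12633121/1090800)*mu*X5 -
    (388937/681750)*mu - (346931/161600)*l*X3*X5 - (8301583/909000)*l*X3 - (62431/45450)*l*Y3^2 +
    (13322777/727200)*l*X5 - (2863049/681750)*l - (3323/7575)*X3*Y3 - (236541/161600)*Y3*X5 +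
    (3237871/454500)*Y3) * e1 + (-(907717/1454400)*a*Y3*X5 + (4893669/1616000)*a*Y3 -
    (500767/484800)*mu*X3*X5 - (7196203/3636000)*mu*X3 + (206261/45450)*mu*X5 +
    (300277/2727000)*mu + (191737/290880)*l*X3*X5 + (1513319/363600)*l*X3 + (107449/181800)*l*Y3^2
    - (7278337/872640)*l*X5 + (39601/68175)*l + (4411/32320)*X3*Y3 + (1786691/1454400)*Y3*X5 -
    (6340969/1212000)*Y3) * e2 + (-(2923271/2908800)*a*Y3 - (9019/7575)*mu*X3 +
    (500767/242400)*mu*X5 - (59261/909000)*mu + (696167/242400)*l*X3 - (139553/161600)*l*X5 -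
    (440401/227250)*l - (13351/96960)*X3*Y3 - (14911/242400)*Y3*X5 + (3020659/1212000)*Y3) * e6

theorem sA (h : E62 a mu l c q 0 0 X3 Y3 0 0 X5 X6 z5 z6) : Y3 = 0 := by
  obtain rfl : X6 = 0 := by linear_combination (1/120) * h.r5_20000
  have e1 : -90*a*X3^2 - 30*a*X3 - 160*a - 90*l*X3*Y3 + 30*l*Y3 + 90*X5 + 288 = 0 := by
    linear_combination h.r4_11000
  have e2 : -270*a*X3^2 - 90*a*X3 + 90*a*X5 - 192*a - 90*mu*X3*Y3 + 30*mu*Y3 - 270*l*X3*Y3 + 45*q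
    - 45*X3^2 + 30*X3 + 45*Y3^2 + 180*X5 + 256 = 0 := by
    linear_combination h.r4_30000 + 45 * h.r0
  have e3 : -45*mu*X3^2 + 30*mu*X3 + 45*mu*Y3^2 + 90*mu*X5 - 32*mu - 45*l*X3^2 - 60*l*X3 -
    45*l*Y3^2 + 160*l + 90*X3*Y3 - 30*Y3 = 0 := by
    linear_combination h.r4_01100
  have e4 : 45*mu*q - 45*mu*X3^2 + 30*mu*X3 + 45*mu*Y3^2 + 90*mu*X5 - 32*mu - 90*l*X3^2 - 30*l*X3
    - 90*l*Y3^2 + 90*l*X5 + 128*l + 90*X3*Y3 - 30*Y3 = 0 := by
    linear_combination h.r4_10010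
  have e5 : 90*a*X3*Y3 - 30*a*Y3 + 45*mu*q - 135*mu*X3^2 + 135*mu*Y3^2 + 180*mu*X5 + 96*mu -
    180*l*X3^2 - 60*l*X3 - 90*l*Y3^2 + 90*l*X5 - 32*l + 270*X3*Y3 = 0 := by
    linear_combination h.r4_20100
  have e6 : -90*a*X3^2 - 90*a*X3*X5 + 42*a*X3 - 150*a*X5 + 320*a + 90*mu*X3*Y3 - 90*mu*Y3*X5 +
    42*mu*Y3 - 90*l*X3*Y3 - 90*l*Y3*X5 - 168*l*Y3 - 45*q + 45*X3^2 - 90*X3*X5 + 42*X3 - 45*Y3^2 +
    300*X5 - 640 = 0 := by
    linear_combination h.r6_10000 - 45 * h.r0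
  have e7 : -90*a*X3*Y3 + 90*a*Y3*X5 - 42*a*Y3 - 45*mu*q - 45*mu*X3^2 - 90*mu*X3*X5 - 168*mu*X3 +
    45*mu*Y3^2 + 300*mu*X5 + 160*mu - 90*l*X3*X5 + 252*l*X3 - 90*l*Y3^2 - 150*l*X5 - 480*l +
    90*X3*Y3 + 90*Y3*X5 + 168*Y3 = 0 := by
    linear_combination h.r6_00100
  have k0 : q * (3*mu*Y3 + 3*X3 - 1) = 0 := by
    linear_combination (1/2) * h.r4_10001 - (1 - 3 * X3) * h.r0
  rcases mul_eq_zero.1 k0 with rfl | k
  · have k1 : l * (-45*X3^2 + 30*X3 + 90*X5 - 32 - 45*Y3^2) = 0 := by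
      linear_combination e4 - e3
    by_cases hl : l = 0
    · subst hl
      refine (mul_eq_zero.1 (s3 (a := a) (mu := mu) (X3 := X3) (X5 := X5)
        (by linear_combination e1) (by linear_combination e2) (by linear_combination e3)
        (by linear_combination e5) (by linear_combination e6)
        (by linear_combination e7))).resolve_right ?_
      positivity
    · have k2 := (mul_eq_zero.1 k1).resolve_left hl
      have k3 := (mul_eq_zero.1 (s4 (a := a) (mu := mu) (l := l) (by linear_combination e1)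
        (by linear_combination e2) (by linear_combination e3) (by linear_combination e5)
        (by linear_combination e6) (by linear_combination e7) k2)).resolve_left hl
      nlinarith [sq_nonneg (30 * X3 - 1)]
  · rcases mul_eq_zero.1 (s1 e1 e2 e3 e4 e5 e6 e7 k) with h0 | h0
    · exact h0
    · obtain rfl : a = 2 := by linarith
      exact s2 (l := l) (q := q) (X5 := X5) (by linear_combination e1) (by linear_combination e2)
        (by linear_combination e3) (by linear_combination e4) (by linear_combination e5)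
        (by linear_combination e6) (by linear_combination e7) k

theorem sB (h : E62 a mu l c q X2 0 X3 Y3 X4 Y4 X5 X6 z5 z6) : X2 * Y3 = 0 ∧ Y4 = 0 := by
  have p : mu ^ 2 + 1 ≠ 0 := by positivity
  have k : l * (X2^3 - 3*X2*X3 + 2*X2 + 2*X4) = 0 := by
    linear_combination h.r3_20010 - h.r3_11100
  rcases mul_eq_zero.1 k with rfl | k
  · refine ⟨(mul_eq_zero.1 (show X2 * Y3 * (mu ^ 2 + 1) = 0 by
      linear_combination (1/3) * h.r3_11100 - mu * h.r3_02000 + (4/3) * mu * h.r3_21000 -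
        (1/3) * mu * h.r3_40000)).resolve_right p, ?_⟩
    linear_combination (-(1/2)*a*mu^2 + (1/2)*a + 2*mu^2 + 2) * h.r3_11100 +
      (-(1/2)*mu^2 - (1/2)) * h.r3_30100 + (-3*a*mu - mu^3 + (5/2)*mu) * h.r3_02000 +
      (4*a*mu + (1/2)*mu^3 - (11/2)*mu) * h.r3_21000 + (-a*mu + (7/4)*mu) * h.r3_40000 +
      (1/4) * mu * h.r3_20200
  · obtain rfl : X4 = (-X2^3 + 3*X2*X3 - 2*X2) / 2 := by linear_combination (1/2) * k
    have k2 := (mul_eq_zero.1 (show X2 * Y3 * (mu ^ 2 + 1) = 0 by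
      linear_combination (1/3) * h.r3_11100 + ((1/24)*mu + (1/24)*l) * h.r3_01200 +
        (-(1/3)*mu + (1/3)*l) * h.r3_02000 + ((1/6)*mu - (1/6)*l) * h.r3_21000)).resolve_right p
    refine ⟨k2, ?_⟩
    linear_combination (3/2) * h.r3_11100 - (1/8) * mu * h.r3_01200 - (1/2) * h.r3_30100 +
      ((3/2)*a + 3*mu^2 - (3/2)*mu*l + (3/2)) * k2

end Y062

/-- if `Y2 = 0` then `Y3 = Y4 = 0` -/
theorem y0 {a mu l c q X2 X3 Y3 X4 Y4 X5 X6 z5 z6 : ℝ}
    (h : E62 a mu l c q X2 0 X3 Y3 X4 Y4 X5 X6 z5 z6) : Y3 = 0 ∧ Y4 = 0 := by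
  obtain ⟨k, rfl⟩ := Y062.sB h
  refine ⟨?_, rfl⟩
  rcases mul_eq_zero.1 k with rfl | k
  · obtain rfl : X4 = 0 := by linear_combination (1/2) * h.r3_02000
    exact Y062.sA h
  · exact k

end Vale.Agent.P280Z.M2
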