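import Mathlib.Data.Real.Basic
import Mathlib.Tactic.LinearCombination
import Mathlib.Tactic.Linarith
import Mathlib.Tactic.FieldSimp

/-!
# P280Z, block M2: the polynomial equations in dimension six, fibres of dimension two, `b₄ = 2`

Normalisation: `u ^ 2 = η ^ 4 + c η ^ 2 u`, `S η ^ 3 = D`, `S η ^ 4 = a D η`, `S (η u) = mu D`,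
`S (η ^ 2 u) = l D η`, `p k = k (X k η ^ k + Y k η ^ (k - 2) u)`, plus `3 y` for `k = 3`,
`y ^ 2 = q η ^ 6`; `J` is the integral over `K` divided by `D v`; `t = T u`, `r = T (η u)`,
`s = T y`; `z5 = J (A ^ 2 t ^ 5)`, `z6 = J (A t ^ 6)`.  The field `rk_ijmnp` is the relation of
degree `k` tested against `A ^ i e ^ j t ^ m r ^ n s ^ p`.  The combination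
`r3_20200 - 4 r3_01200` (up to the factors) does not contain `z5`.
-/

namespace Vale.Agent.P280Z.M2

/-- the equations -/
structure E62 (a mu l c q X2 Y2 X3 Y3 X4 Y4 X5 X6 z5 z6 : ℝ) : Prop where
  r0 : q * (2 * a + 2 + c * (l + mu)) = 0
  r3_02000 :
    2*a*X2^3 - 3*a*X2*X3 - 4*a*X2 - 2*mu*Y2^3 + 3*l*X2^2*Y2 + l*Y2^3 - 3*l*Y2*X3 + 2*l*Y2 - X2^3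
    - 3*X2*Y2^2 + 6*X2 + 2*X4 = 0
  r3_21000 :
    5*a*X2^3 - 3*a*X2*Y2^2 - 9*a*X2*X3 - 6*a*X2 + 2*a*X4 + 3*mu*X2^2*Y2 - 5*mu*Y2^3 - 3*mu*Y2*X3
    + 2*mu*Y2 + 9*l*X2^2*Y2 - 3*l*X2*Y3 + l*Y2^3 - 6*l*Y2*X3 - 2*l*Y2 - X2^3 - 9*X2*Y2^2 + 6*X2 +
    3*Y2*Y3 + 2*X4 = 0
  r3_40000 :
    14*a*X2^3 - 18*a*X2*Y2^2 - 27*a*X2*X3 - 12*a*X2 + 3*a*Y2*Y3 + 8*a*X4 + 15*mu*X2^2*Y2 -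
    3*mu*X2*Y3 - 17*mu*Y2^3 - 12*mu*Y2*X3 + 2*mu*Y2 - 3*l*c*X2*Y2^2 + 27*l*X2^2*Y2 - 12*l*X2*Y3 +
    l*Y2^3 - 18*l*Y2*X3 - 6*l*Y2 + 2*l*Y4 + c*Y2^3 - 30*X2*Y2^2 - 3*X2*X3 + 8*X2 + 12*Y2*Y3 +
    4*X4 = 0
  r3_11100 :
    -3*a*X2^2*Y2 + 9*a*Y2^3 + 3*a*Y2*X3 - 2*a*Y2 - 2*mu*c*Y2^3 + mu*X2^3 - 15*mu*X2*Y2^2 -
    3*mu*X2*X3 + 2*mu*X2 + 6*mu*Y2*Y3 + 2*mu*X4 + 6*l*c*Y2^3 + 3*l*X2^3 + 3*l*X2*Y2^2 - 6*l*X2*X3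
    - 2*l*X2 - 3*l*Y2*Y3 + 2*l*X4 - 9*X2^2*Y2 + 3*X2*Y3 + 3*Y2^3 + 6*Y2*X3 + 2*Y2 = 0
  r3_20010 :
    -3*a*X2^2*Y2 + 13*a*Y2^3 + 3*a*Y2*X3 - 2*a*Y2 - 3*mu*c*Y2^3 + mu*X2^3 - 21*mu*X2*Y2^2 -
    3*mu*X2*X3 + 2*mu*X2 + 9*mu*Y2*Y3 + 2*mu*X4 + 9*l*c*Y2^3 + 4*l*X2^3 + 6*l*X2*Y2^2 - 9*l*X2*X3
    - 6*l*Y2*Y3 + 4*l*X4 - 12*X2^2*Y2 + 3*X2*Y3 + 4*Y2^3 + 9*Y2*X3 = 0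
  r3_30100 :
    -18*a*X2^2*Y2 + 3*a*X2*Y3 + 30*a*Y2^3 + 15*a*Y2*X3 - 4*a*Y2 - 4*mu*c*Y2^3 + 5*mu*X2^3 -
    51*mu*X2*Y2^2 - 12*mu*X2*X3 + 2*mu*X2 + 21*mu*Y2*Y3 + 6*mu*X4 - 3*l*c*X2^2*Y2 + 18*l*c*Y2^3 +
    3*l*c*Y2*X3 - 2*l*c*Y2 + 9*l*X2^3 + 3*l*X2*Y2^2 - 18*l*X2*X3 - 6*l*X2 - 6*l*Y2*Y3 + 6*l*X4 +
    3*c*X2*Y2^2 - 30*X2^2*Y2 + 12*X2*Y3 + 12*Y2^3 + 21*Y2*X3 + 4*Y2 - 2*Y4 = 0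
  r3_01200 :
    8*a*c*Y2^3 - 4*a*X2^3 + 108*a*X2*Y2^2 + 12*a*X2*X3 - 8*a*X2 - 48*a*Y2*Y3 - 8*a*X4 -
    3*mu*c^2*Y2^3 - 24*mu*c*X2*Y2^2 + 12*mu*c*Y2*Y3 - 60*mu*X2^2*Y2 + 24*mu*X2*Y3 + 3*mu*Y2^3 +
    36*mu*Y2*X3 + 24*mu*Y2 + 7*l*c^2*Y2^3 + 72*l*c*X2*Y2^2 - 36*l*c*Y2*Y3 + 12*l*X2^2*Y2 -
    12*l*X2*Y3 + 3*l*Y2^3 - 24*l*Y2 - 2*c*Y2^3 - 12*X2^3 + 36*X2*Y2^2 + 24*X2*X3 + 8*X2 + Y2^3*z5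
    - 12*Y2*Y3 - 8*X4 = 0
  r3_20200 :
    -6*a*X2^3 + 90*a*X2*Y2^2 + 15*a*X2*X3 - 4*a*X2 - 39*a*Y2*Y3 - 8*a*X4 - 12*mu*c*X2*Y2^2 +
    9*mu*c*Y2*Y3 - 51*mu*X2^2*Y2 + 21*mu*X2*Y3 + 36*mu*Y2*X3 + 6*mu*Y2 - 4*mu*Y4 - l*c*X2^3 +
    54*l*c*X2*Y2^2 + 3*l*c*X2*X3 - 2*l*c*X2 - 27*l*c*Y2*Y3 - 2*l*c*X4 + 3*l*X2^2*Y2 - 6*l*X2*Y3 -
    6*l*Y2 + 2*l*Y4 + 3*c*X2^2*Y2 - 3*c*Y2*X3 + 2*c*Y2 - 10*X2^3 + 36*X2*Y2^2 + 21*X2*X3 + 4*X2 +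
    Y2^3*z5 - 12*Y2*Y3 - 8*X4 = 0
  r3_10300 :
    -12*a*c*Y2*Y3 + 180*a*X2^2*Y2 - 78*a*X2*Y3 - 126*a*Y2*X3 - 24*a*Y2 + 16*a*Y4 + 3*mu*c^2*Y2*Y3
    - 24*mu*c*X2^2*Y2 + 18*mu*c*X2*Y3 + 12*mu*c*Y2*X3 + 16*mu*c*Y2 - 4*mu*c*Y4 - 34*mu*X2^3 +
    72*mu*X2*X3 + 12*mu*X2 + 21*mu*Y2*Y3 - 28*mu*X4 - 9*l*c^2*Y2*Y3 + 108*l*c*X2^2*Y2 -
    54*l*c*X2*Y3 - 72*l*c*Y2*X3 - 24*l*c*Y2 + 12*l*c*Y4 + 2*l*X2^3 - 12*l*X2 + 3*l*Y2*Y3 - 4*l*X4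
    + 2*c*X2^3 - 6*c*X2*X3 + 4*c*X2 - 6*c*Y2*Y3 + 4*c*X4 + 72*X2^2*Y2 + 6*X2*Y2^2*z5 - 24*X2*Y3 +
    2*Y2^3*z6 - 54*Y2*X3 - 3*Y2*Y3*z5 + 4*Y4 = 0
  r3_10101 :
    -2*a*q*Y2 + mu*q*X2 - l*c*q*Y2 - q*Y2 = 0
  r3_20001 :
    -2*a*q*X2 - mu*c*q*X2 + mu*q*Y2 - l*c*q*X2 - q*X2 = 0
  r4_11000 :
    135*a*X2^2*X3 + 45*a*X2^2 - 90*a*X2*X4 - 45*a*Y2^2*X3 + 15*a*Y2^2 - 90*a*X3^2 - 30*a*X3 -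
    160*a + 90*mu*X2*Y2*X3 - 30*mu*X2*Y2 - 90*mu*Y2^2*Y3 - 90*mu*Y2*X4 + 45*l*X2^2*Y3 +
    180*l*X2*Y2*X3 + 30*l*X2*Y2 + 45*l*Y2^2*Y3 - 90*l*Y2*X4 - 90*l*X3*Y3 + 30*l*Y3 - 45*X2^2 -
    90*X2*Y2*Y3 - 90*X2*X4 - 90*Y2^2*X3 - 15*Y2^2 + 90*X5 + 288 = 0
  r4_30000 :
    -90*a*q + 405*a*X2^2*X3 + 90*a*X2^2 - 90*a*X2*Y2*Y3 - 360*a*X2*X4 - 225*a*Y2^2*X3 + 30*a*Y2^2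
    - 270*a*X3^2 - 90*a*X3 + 90*a*X5 - 192*a - 45*mu*c*q + 45*mu*X2^2*Y3 + 360*mu*X2*Y2*X3 -
    30*mu*X2*Y2 - 315*mu*Y2^2*Y3 - 270*mu*Y2*X4 - 90*mu*X3*Y3 + 30*mu*Y3 - 45*l*c*q -
    45*l*c*Y2^2*X3 + 15*l*c*Y2^2 + 180*l*X2^2*Y3 + 540*l*X2*Y2*X3 + 90*l*X2*Y2 - 90*l*X2*Y4 +
    90*l*Y2^2*Y3 - 270*l*Y2*X4 - 270*l*X3*Y3 - 45*q + 45*X2^2*X3 - 60*X2^2 - 360*X2*Y2*Y3 -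
    180*X2*X4 - 315*Y2^2*X3 - 30*Y2^2 + 90*Y2*Y4 - 45*X3^2 + 30*X3 + 45*Y3^2 + 180*X5 + 256 = 0
  r4_01100 :
    -90*a*X2*Y2*X3 + 30*a*X2*Y2 + 180*a*Y2^2*Y3 + 90*a*Y2*X4 - 45*mu*c*Y2^2*Y3 + 45*mu*X2^2*X3 -
    15*mu*X2^2 - 180*mu*X2*Y2*Y3 - 90*mu*X2*X4 - 135*mu*Y2^2*X3 - 45*mu*Y2^2 - 45*mu*X3^2 +
    30*mu*X3 + 45*mu*Y3^2 + 90*mu*X5 - 32*mu + 135*l*c*Y2^2*Y3 + 90*l*X2^2*X3 + 15*l*X2^2 +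
    90*l*X2*Y2*Y3 - 90*l*X2*X4 + 45*l*Y2^2 - 45*l*X3^2 - 60*l*X3 - 45*l*Y3^2 + 160*l - 45*X2^2*Y3
    - 180*X2*Y2*X3 - 30*X2*Y2 + 45*Y2^2*Y3 + 90*Y2*X4 + 90*X3*Y3 - 30*Y3 = 0
  r4_10010 :
    -90*a*X2*Y2*X3 + 30*a*X2*Y2 + 270*a*Y2^2*Y3 + 90*a*Y2*X4 - 90*mu*c*Y2^2*Y3 + 45*mu*q +
    45*mu*X2^2*X3 - 15*mu*X2^2 - 270*mu*X2*Y2*Y3 - 90*mu*X2*X4 - 225*mu*Y2^2*X3 - 15*mu*Y2^2 +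
    90*mu*Y2*Y4 - 45*mu*X3^2 + 30*mu*X3 + 45*mu*Y3^2 + 90*mu*X5 - 32*mu + 225*l*c*Y2^2*Y3 +
    135*l*X2^2*X3 + 180*l*X2*Y2*Y3 - 180*l*X2*X4 + 45*l*Y2^2*X3 + 30*l*Y2^2 - 90*l*Y2*Y4 -
    90*l*X3^2 - 30*l*X3 - 90*l*Y3^2 + 90*l*X5 + 128*l - 45*X2^2*Y3 - 270*X2*Y2*X3 + 45*Y2^2*Y3 +
    180*Y2*X4 + 90*X3*Y3 - 30*Y3 = 0
  r4_20100 :
    -45*a*X2^2*Y3 - 450*a*X2*Y2*X3 + 60*a*X2*Y2 + 585*a*Y2^2*Y3 + 360*a*Y2*X4 + 90*a*X3*Y3 -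
    30*a*Y3 - 135*mu*c*Y2^2*Y3 + 45*mu*q + 180*mu*X2^2*X3 - 15*mu*X2^2 - 630*mu*X2*Y2*Y3 -
    270*mu*X2*X4 - 540*mu*Y2^2*X3 - 45*mu*Y2^2 + 180*mu*Y2*Y4 - 135*mu*X3^2 + 135*mu*Y3^2 +
    180*mu*X5 + 96*mu - 90*l*c*X2*Y2*X3 + 30*l*c*X2*Y2 + 405*l*c*Y2^2*Y3 + 90*l*c*Y2*X4 +
    270*l*X2^2*X3 + 45*l*X2^2 + 180*l*X2*Y2*Y3 - 270*l*X2*X4 + 45*l*Y2^2 - 90*l*Y2*Y4 -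
    180*l*X3^2 - 60*l*X3 - 90*l*Y3^2 + 90*l*X5 - 32*l + 45*c*Y2^2*X3 - 15*c*Y2^2 - 180*X2^2*Y3 -
    630*X2*Y2*X3 - 60*X2*Y2 + 90*X2*Y4 + 180*Y2^2*Y3 + 360*Y2*X4 + 270*X3*Y3 = 0
  r4_10200 :
    180*a*c*Y2^2*Y3 - 180*a*q - 450*a*X2^2*X3 + 60*a*X2^2 + 2340*a*X2*Y2*Y3 + 720*a*X2*X4 +
    1890*a*Y2^2*X3 + 180*a*Y2^2 - 720*a*Y2*Y4 + 360*a*X3^2 - 60*a*X3 - 540*a*Y3^2 - 540*a*X5 -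
    128*a - 45*mu*c^2*Y2^2*Y3 - 540*mu*c*X2*Y2*Y3 - 180*mu*c*Y2^2*X3 - 120*mu*c*Y2^2 +
    180*mu*c*Y2*Y4 + 180*mu*c*Y3^2 - 630*mu*X2^2*Y3 - 2160*mu*X2*Y2*X3 - 180*mu*X2*Y2 +
    360*mu*X2*Y4 - 315*mu*Y2^2*Y3 + 1260*mu*Y2*X4 + 900*mu*X3*Y3 + 60*mu*Y3 + 135*l*c^2*Y2^2*Y3 -
    90*l*c*q - 90*l*c*X2^2*X3 + 30*l*c*X2^2 + 1620*l*c*X2*Y2*Y3 + 180*l*c*X2*X4 +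
    1080*l*c*Y2^2*X3 + 180*l*c*Y2^2 - 540*l*c*Y2*Y4 + 90*l*c*X3^2 - 60*l*c*X3 - 450*l*c*Y3^2 -
    180*l*c*X5 + 64*l*c + 180*l*X2^2*Y3 + 180*l*X2*Y2 - 180*l*X2*Y4 - 45*l*Y2^2*Y3 + 180*l*Y2*X4
    - 180*l*X3*Y3 - 120*l*Y3 + 180*c*X2*Y2*X3 - 60*c*X2*Y2 + 90*c*Y2^2*Y3 - 180*c*Y2*X4 - 90*q -
    630*X2^2*X3 - 60*X2^2 + 720*X2*Y2*Y3 + 720*X2*X4 + 810*Y2^2*X3 + 45*Y2^2*Y3*z5 - 180*Y2*Y4 +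
    450*X3^2 + 60*X3 - 90*Y3^2 - 360*X5 + 128 = 0
  r4_10001 :
    6*a*q*X2^2 + 6*a*q*Y2^2 - 12*a*q*X3 + 4*a*q + 3*mu*c*q*X2^2 - 6*mu*c*q*X3 + 2*mu*c*q -
    6*mu*q*X2*Y2 + 6*mu*q*Y3 + 3*l*c*q*X2^2 + 3*l*c*q*Y2^2 - 6*l*c*q*X3 + 2*l*c*q + 3*q*X2^2 +
    3*q*Y2^2 - 6*q*X3 + 2*q = 0
  r5_01000 :
    45*a*X2^3 + 60*a*X2^2*X4 + 45*a*X2*Y2^2 - 75*a*X2*X3 + 30*a*X2 - 60*a*Y2^2*X4 - 60*a*X3*X4 -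
    50*a*X4 - 45*mu*X2^2*Y2 + 120*mu*X2*Y2*X4 - 45*mu*Y2^3 + 75*mu*Y2*X3 - 120*mu*Y2*X5 + 6*mu*Y2
    + 45*l*X2^2*Y2 + 120*l*X2*Y2*X4 + 75*l*X2*Y3 + 45*l*Y2^3 - 150*l*Y2*X3 - 30*l*Y2 - 60*l*Y3*X4
    - 45*X2^3 + 60*X2^2*X4 - 45*X2*Y2^2 - 120*X2*X5 - 54*X2 - 60*Y2^2*X4 - 75*Y2*Y3 + 150*X4 = 0
  r5_20000 :
    90*a*X2^3 + 240*a*X2^2*X4 + 90*a*X2*Y2^2 - 225*a*X2*X3 - 120*a*X2*X5 + 36*a*X2 -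
    240*a*Y2^2*X4 - 75*a*Y2*Y3 - 180*a*X3*X4 - 45*mu*X2^2*Y2 + 360*mu*X2*Y2*X4 + 75*mu*X2*Y3 -
    45*mu*Y2^3 - 120*mu*Y2^2*Y4 - 240*mu*Y2*X5 - 18*mu*Y2 - 60*mu*Y3*X4 + 45*l*c*X2*Y2^2 -
    60*l*c*Y2^2*X4 + 135*l*X2^2*Y2 + 60*l*X2^2*Y4 + 360*l*X2*Y2*X4 + 45*l*Y2^3 + 60*l*Y2^2*Y4 -
    150*l*Y2*X3 - 120*l*Y2*X5 + 6*l*Y2 - 60*l*X3*Y4 - 120*l*Y3*X4 - 50*l*Y4 - 15*c*Y2^3 - 60*X2^3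
    + 120*X2^2*X4 - 90*X2*Y2^2 - 120*X2*Y2*Y4 + 75*X2*X3 - 240*X2*X5 - 48*X2 - 240*Y2^2*X4 -
    60*X3*X4 + 100*X4 + 120*X6 = 0
  r5_00010 :
    45*a*X2^2*Y2 - 120*a*X2*Y2*X4 + 45*a*Y2^3 + 120*a*Y2^2*Y4 - 75*a*Y2*X3 + 120*a*Y2*X5 - 6*a*Y2
    - 15*mu*c*Y2^3 - 60*mu*c*Y2^2*Y4 - 15*mu*X2^3 + 60*mu*X2^2*X4 - 45*mu*X2*Y2^2 -
    120*mu*X2*Y2*Y4 + 75*mu*X2*X3 - 120*mu*X2*X5 + 6*mu*X2 - 180*mu*Y2^2*X4 + 75*mu*Y2*Y3 -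
    60*mu*X3*X4 - 50*mu*X4 + 120*mu*X6 + 45*l*c*Y2^3 + 120*l*c*Y2^2*Y4 + 120*l*X2^2*X4 +
    90*l*X2*Y2^2 + 120*l*X2*Y2*Y4 - 75*l*X2*X3 - 120*l*X2*X5 - 24*l*X2 - 150*l*Y2*Y3 - 60*l*X3*X4
    - 60*l*Y3*Y4 + 100*l*X4 - 240*X2*Y2*X4 - 75*X2*Y3 + 75*Y2*X3 + 120*Y2*X5 + 24*Y2 + 60*Y3*X4 =
    0
  r5_10100 :
    90*a*X2^2*Y2 - 480*a*X2*Y2*X4 - 75*a*X2*Y3 + 90*a*Y2^3 + 240*a*Y2^2*Y4 - 75*a*Y2*X3 +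
    360*a*Y2*X5 + 12*a*Y2 + 60*a*Y3*X4 - 60*mu*c*Y2^3 - 60*mu*c*Y2^2*Y4 - 15*mu*X2^3 +
    180*mu*X2^2*X4 - 135*mu*X2*Y2^2 - 240*mu*X2*Y2*Y4 - 240*mu*X2*X5 - 18*mu*X2 - 420*mu*Y2^2*X4
    + 75*mu*Y2*Y3 - 120*mu*X3*X4 + 60*mu*Y3*Y4 + 50*mu*X4 + 120*mu*X6 + 45*l*c*X2^2*Y2 -
    120*l*c*X2*Y2*X4 + 90*l*c*Y2^3 + 180*l*c*Y2^2*Y4 - 75*l*c*Y2*X3 + 120*l*c*Y2*X5 - 6*l*c*Y2 +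
    45*l*X2^3 + 180*l*X2^2*X4 + 135*l*X2*Y2^2 + 120*l*X2*Y2*Y4 - 150*l*X2*X3 - 120*l*X2*X5 +
    6*l*X2 - 60*l*Y2^2*X4 - 150*l*Y2*Y3 - 120*l*X3*X4 - 60*l*Y3*Y4 + 50*l*X4 - 45*c*X2*Y2^2 +
    60*c*Y2^2*X4 - 90*X2^2*Y2 - 60*X2^2*Y4 - 480*X2*Y2*X4 + 60*Y2^2*Y4 + 75*Y2*X3 + 240*Y2*X5 -
    12*Y2 + 60*X3*Y4 + 120*Y3*X4 + 50*Y4 = 0
  r5_00200 :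
    120*a*c*Y2^3 + 30*a*X2^3 - 240*a*X2^2*X4 + 270*a*X2*Y2^2 + 480*a*X2*Y2*Y4 - 75*a*X2*X3 +
    360*a*X2*X5 + 12*a*X2 + 720*a*Y2^2*X4 - 225*a*Y2*Y3 + 180*a*X3*X4 - 120*a*Y3*Y4 - 240*a*X6 -
    45*mu*c^2*Y2^3 + 15*mu*c^2*Y2^2*Y4 - 180*mu*c*X2*Y2^2 - 120*mu*c*X2*Y2*Y4 + 75*mu*c*Y2*Y3 +
    60*mu*c*Y3*Y4 - 135*mu*X2^2*Y2 - 120*mu*X2^2*Y4 - 840*mu*X2*Y2*X4 + 75*mu*X2*Y3 + 45*mu*Y2^3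
    - 255*mu*Y2^2*Y4 + 480*mu*Y2*X5 - 54*mu*Y2 + 120*mu*X3*Y4 + 180*mu*Y3*X4 + 100*mu*Y4 +
    105*l*c^2*Y2^3 - 15*l*c^2*Y2^2*Y4 + 15*l*c*X2^3 - 60*l*c*X2^2*X4 + 270*l*c*X2*Y2^2 +
    360*l*c*X2*Y2*Y4 - 75*l*c*X2*X3 + 120*l*c*X2*X5 - 6*l*c*X2 + 360*l*c*Y2^2*X4 - 225*l*c*Y2*Y3
    + 60*l*c*X3*X4 - 120*l*c*Y3*Y4 + 50*l*c*X4 - 120*l*c*X6 + 135*l*X2^2*Y2 + 60*l*X2^2*Y4 -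
    120*l*X2*Y2*X4 - 150*l*X2*Y3 + 45*l*Y2^3 - 75*l*Y2^2*Y4 + 120*l*Y2*X5 + 54*l*Y2 - 60*l*X3*Y4
    - 50*l*Y4 - 45*c*X2^2*Y2 + 120*c*X2*Y2*X4 - 30*c*Y2^3 + 90*c*Y2^2*Y4 + 75*c*Y2*X3 -
    120*c*Y2*X5 + 6*c*Y2 - 30*X2^3 - 240*X2^2*X4 + 120*X2*Y2*Y4 + 75*X2*X3 + 240*X2*X5 - 12*X2 +
    360*Y2^2*X4 + 15*Y2^2*Y4*z5 + 180*X3*X4 - 120*X6 = 0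
  r5_00001 :
    10*a*q*X2 - 8*a*q*X4 + 5*mu*c*q*X2 - 4*mu*c*q*X4 - 5*mu*q*Y2 + 4*mu*q*Y4 + 5*l*c*q*X2 -
    4*l*c*q*X4 + 5*q*X2 - 4*q*X4 = 0
  r6_10000 :
    90*a*q + 135*a*X2^2*X3 + 90*a*X2^2*X5 - 162*a*X2^2 + 90*a*X2*Y2*Y3 + 45*a*Y2^2*X3 -
    270*a*Y2^2*X5 - 54*a*Y2^2 - 90*a*X3^2 - 90*a*X3*X5 + 42*a*X3 - 150*a*X5 + 320*a + 45*mu*c*q -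
    45*mu*X2^2*Y3 + 360*mu*X2*Y2*X5 + 162*mu*X2*Y2 - 45*mu*Y2^2*Y3 - 150*mu*Y2*X4 - 180*mu*Y2*X6
    + 90*mu*X3*Y3 - 90*mu*Y3*X5 + 42*mu*Y3 + 45*l*c*q + 45*l*c*Y2^2*X3 - 90*l*c*Y2^2*X5 +
    27*l*c*Y2^2 + 180*l*X2*Y2*X3 + 180*l*X2*Y2*X5 - 54*l*X2*Y2 + 150*l*X2*Y4 + 90*l*Y2^2*Y3 -
    150*l*Y2*X4 - 90*l*X3*Y3 - 90*l*Y3*X5 - 168*l*Y3 + 45*q - 45*X2^2*X3 + 180*X2^2*X5 + 216*X2^2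
    - 300*X2*X4 - 180*X2*X6 - 45*Y2^2*X3 - 180*Y2^2*X5 + 54*Y2^2 - 150*Y2*Y4 + 45*X3^2 - 90*X3*X5
    + 42*X3 - 45*Y3^2 + 300*X5 - 640 = 0
  r6_00100 :
    45*a*X2^2*Y3 + 90*a*X2*Y2*X3 - 540*a*X2*Y2*X5 - 108*a*X2*Y2 + 135*a*Y2^2*Y3 + 360*a*Y2*X6 -
    90*a*X3*Y3 + 90*a*Y3*X5 - 42*a*Y3 - 45*mu*c*Y2^2*Y3 - 45*mu*q + 180*mu*X2^2*X5 + 81*mu*X2^2 -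
    90*mu*X2*Y2*Y3 - 150*mu*X2*X4 - 180*mu*X2*X6 - 360*mu*Y2^2*X5 + 243*mu*Y2^2 - 300*mu*Y2*Y4 -
    45*mu*X3^2 - 90*mu*X3*X5 - 168*mu*X3 + 45*mu*Y3^2 + 300*mu*X5 + 160*mu + 90*l*c*X2*Y2*X3 -
    180*l*c*X2*Y2*X5 + 54*l*c*X2*Y2 + 135*l*c*Y2^2*Y3 - 150*l*c*Y2*X4 + 180*l*c*Y2*X6 +
    90*l*X2^2*X3 + 90*l*X2^2*X5 - 27*l*X2^2 + 180*l*X2*Y2*Y3 - 150*l*X2*X4 - 90*l*Y2^2*X5 -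
    243*l*Y2^2 + 150*l*Y2*Y4 - 90*l*X3*X5 + 252*l*X3 - 90*l*Y3^2 - 150*l*X5 - 480*l -
    45*c*Y2^2*X3 + 90*c*Y2^2*X5 - 27*c*Y2^2 - 90*X2*Y2*X3 - 360*X2*Y2*X5 + 108*X2*Y2 - 150*X2*Y4
    + 180*Y2*X6 + 90*X3*Y3 + 90*Y3*X5 + 168*Y3 = 0
  r7_00000 :
    126*a*X2^3 + 126*a*X2*Y2^2 - 147*a*X2*X3 + 360*a*X2*X5 - 92*a*X2 - 288*a*Y2^2*X6 +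
    147*a*Y2*Y3 - 120*a*X3*X4 - 776*a*X4 - 189*mu*X2^2*Y2 + 240*mu*X2*Y2*X4 + 288*mu*X2*Y2*X6 -
    147*mu*X2*Y3 - 189*mu*Y2^3 + 240*mu*Y2^2*Y4 + 588*mu*Y2*X3 - 720*mu*Y2*X5 - 46*mu*Y2 +
    120*mu*Y3*X4 - 144*mu*Y3*X6 - 63*l*c*X2*Y2^2 + 120*l*c*Y2^2*X4 - 144*l*c*Y2^2*X6 +
    63*l*X2^2*Y2 - 120*l*X2^2*Y4 + 240*l*X2*Y2*X4 + 588*l*X2*Y3 + 189*l*Y2^3 - 120*l*Y2^2*Y4 -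
    882*l*Y2*X3 + 360*l*Y2*X5 + 138*l*Y2 + 120*l*X3*Y4 - 240*l*Y3*X4 + 194*l*Y4 + 21*c*Y2^3 -
    168*X2^3 + 240*X2^2*X4 + 144*X2^2*X6 - 126*X2*Y2^2 + 240*X2*Y2*Y4 - 147*X2*X3 - 720*X2*X5 +
    184*X2 - 144*Y2^2*X6 - 588*Y2*Y3 + 120*X3*X4 - 144*X3*X6 + 1940*X4 - 384*X6 = 0

end Vale.Agent.P280Z.M2
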