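import Vale.Agent.P280Z.M2.N52d
import Vale.Agent.P280Z.Ma.Nx
import Vale.Agent.P280Z.Hr.Tdx

/-!
# P280Z, block M2: dimension five and degree four do not occur
-/

open PowerSeries

noncomputable section

namespace Vale.Agent.P280Z.N52

open Al Qs

theorem gram {R : Type} [CommRing R] [Algebra ℝ R] {A e s r t u : R} {q1 q2 q3 : ℝ}
    (h : Rl A e s r q1) (k : Rl A e t u q3) (l : Rl A e (s + t) (r + u) (q1 + 2 * q2 + q3)) :
    (3 * (q2 ^ 2 - q1 * q3)) • (A ^ 2 * e ^ 2) - (2 * (q2 ^ 2 - q1 * q3)) • e ^ 3 = 0 := by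
  have d1 : r * t + u * s - A * s * t - q2 • (A ^ 3 - 2 * A * e) = 0 := by
    linear_combination (norm := algebra) (1 / 2 : ℝ) • (l.c1 - h.c1 - k.c1)
  linear_combination (norm := algebra) A * s * t * d1 + s * t ^ 2 * h.a1 - s ^ 2 * t * k.a1 -
    A * t ^ 2 * h.c1 - q2 • (A ^ 3 * d1) + q2 • (A ^ 2 * t * h.a1) + q2 • (A ^ 2 * s * k.a1) +
    q1 • (A ^ 3 * k.c1) - (2 * q1) • (A ^ 2 * t * k.a1) + (2 * q1 * q3 - 2 * q2 ^ 2) • h.h2 +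
    (q1 * q3 - q2 ^ 2) • (A * h.h1)

variable {A B : Type} [CommRing A] [Algebra ℝ A] [CommRing B] [Algebra ℝ B] {S : NS A B}

/-- primitive classes of degree two -/
def Pr (S : NS A B) (p : A) : Prop := S.GX.Dg 2 p ∧ S.η ^ 2 * p = 0

theorem rl (h : S.OK0 5 2) {p : A} {q : ℝ} (hp : S.η ^ 2 * p = 0) (hq : p * p = q • S.η ^ 4) :
    Rl S.aa S.ee (S.T (S.es p)) (S.T (S.es (S.η * p))) q := by
  have L := lei S _ _ h
  have k5 := Hz h (le_refl 5)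
  have k6 := Hz h (by norm_num : 5 ≤ 6)
  have t : S.T S.hh = 1 := h.Tη
  have e1 : S.hh * (S.hh * S.es p) = 0 := by
    rw [NS.hh, ← map_mul, ← map_mul, ← mul_assoc, ← sq, hp, map_zero]
  have e2 := congrArg S.T e1
  have e3 : S.es p * S.es p = q • S.hh ^ 4 := by rw [← map_mul, hq, map_smul, map_pow, NS.hh]
  have e4 := congrArg S.T e3
  have e5 := L.mul S.hh (S.es p)
  rw [L.mul, t, map_zero] at e2
  rw [L.mul, map_smul, L.pow 3] at e4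
  rw [t] at e5
  rw [map_mul S.es, ← NS.hh]
  simp only [NS.H, Hn, NS.aa, NS.ee, NS.hc] at *
  refine ⟨?_, ?_, ?_, ?_, by linear_combination k5, ?_⟩
  · linear_combination e2 + S.hh * e5
  · linear_combination S.hh * e2 - e1
  · linear_combination (norm := algebra) e4 + 2 * S.T (S.es p) * e5
  · linear_combination (norm := algebra) e3 + (S.hh - S.τ) * e4 +
      (S.T (S.hh * S.es p) + S.es p + (S.hh - S.τ) * S.T (S.es p)) * e5
  · linear_combination (S.hh + (S.hh - S.τ)) * k5 - k6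

theorem nrm (h : S.OK0 5 2) : 0 < J S (S.aa ^ 2 * S.ee ^ 2) - J S (S.ee ^ 3) := by
  obtain ⟨D, D0, hD⟩ := h.D
  have L := lei S _ _ h
  have e : S.H 2 = (-S.τ) ^ 2 + (3 : ℝ) • (S.hc * S.es S.η) := by
    simp only [NS.H, Hn, NS.aa, NS.ee, NS.hc, NS.hh]
    algebra
  have e2 := int_el h (S.H 2) (S.η ^ 5)
  rw [L.ker _ _ (by rw [← L.pow]; exact L.TT _), Tη h] at e2
  have e3 : S.H 2 * S.H 4 = S.aa ^ 2 * S.ee ^ 2 - S.ee ^ 3 := by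
    have k5 := Hz h (le_refl 5)
    simp only [NS.H, Hn] at k5 ⊢
    linear_combination S.aa * k5
  rw [e3, map_sub, e, map_add, hD, map_smul, h.proj, lo h one_lt_two (dc h), zero_mul, smul_zero,
    add_zero, ← Algebra.smul_def, map_smul] at e2
  rw [← e2]
  exact mul_pos D0 h.vol

theorem dη (h : S.OK 5 2) (k : ℕ) : S.GX.Dg k (S.η ^ k) := Elr.dg_pow h.gx h.dη k

theorem split (h : S.OK 5 2) {c : A} (hc : S.GX.Dg 2 c) :
    ∃ (x : ℝ) (p : A), Pr S p ∧ c = x • S.η ^ 2 + p := by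
  obtain ⟨x, hx⟩ := top1 (n := 3) h (h.gx.dg_mul 2 2 _ _ (dη h 2) hc)
  refine ⟨x, c - x • S.η ^ 2, ⟨dg_sub hc (dη h 2) x, ?_⟩, by ring⟩
  rw [mul_sub, hx, mul_smul_comm, ← pow_add, sub_self]

theorem prd (h : S.OK 5 2) {p p' : A} (hp : Pr S p) (hp' : Pr S p') : ∃ q : ℝ, p * p' = q • S.η ^ 4 :=
  top1 (n := 3) h (h.gx.dg_mul 2 2 _ _ hp.1 hp'.1)

/-- the normalised integral -/
structure Nm (S : NS A B) (I : B →ₗ[ℝ] ℝ) (b : ℝ) : Prop where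
  n1 : I (S.aa ^ 2 * S.ee ^ 2) = b + 1
  n2 : I (S.ee ^ 3) = b
  n3 : b + 3 ≠ 0

theorem tb' {I : B →ₗ[ℝ] ℝ} {b q : ℝ} {s r : B} (n1 : I (S.aa ^ 2 * S.ee ^ 2) = b + 1)
    (n2 : I (S.ee ^ 3) = b) (k : Rl S.aa S.ee s r q) :
    ∃ ζ m, Tb (fun i j k l => I (Mn S.aa S.ee s r i j k l)) q b ζ m :=
  ⟨_, _, tb k (by simpa [Mn] using n1) (by simpa [Mn] using n2) rfl rfl⟩

theorem nm (h : S.OK0 5 2) (x : S.Ex 5 6) : ∃ I b, Nm S I b := by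
  have p := nrm h
  obtain ⟨N, hN⟩ : ∃ N, N = J S (S.aa ^ 2 * S.ee ^ 2) - J S (S.ee ^ 3) := ⟨_, rfl⟩
  rw [← hN] at p
  have n1 : (N⁻¹ • J S) (S.aa ^ 2 * S.ee ^ 2) = (N⁻¹ • J S) (S.ee ^ 3) + 1 := by
    rw [LinearMap.smul_apply, LinearMap.smul_apply, smul_eq_mul, smul_eq_mul,
      ← inv_mul_cancel₀ p.ne', ← mul_add, hN]
    ring
  refine ⟨N⁻¹ • J S, _, n1, rfl, fun e => ?_⟩
  obtain ⟨_, _, t⟩ := tb' n1 rfl (rl h (q := 0) (mul_zero _) (by simp))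
  have v : (N⁻¹ • J S) (Mn _ _ _ _ 6 0 0 0) = _ := t.v6000
  have w : 0 < (N⁻¹ • J S) (S.aa ^ 6) := mul_pos (inv_pos.2 p) x.vol
  simp only [Mn, pow_zero, mul_one] at v
  linarith

section
variable {I : B →ₗ[ℝ] ℝ} {b : ℝ}

theorem gr (h : S.OK 5 2) (n : Nm S I b) {p p' : A} {q1 q2 q3 : ℝ} (hp : Pr S p) (hp' : Pr S p')
    (e1 : p * p = q1 • S.η ^ 4) (e2 : p * p' = q2 • S.η ^ 4) (e3 : p' * p' = q3 • S.η ^ 4) :
    q2 ^ 2 = q1 * q3 := by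
  have l := rl h.toOK0 (p := p + p') (q := q1 + 2 * q2 + q3) (by rw [mul_add, hp.2, hp'.2, add_zero])
    (by linear_combination (norm := algebra) e1 + 2 * e2 + e3)
  rw [mul_add, map_add, map_add, map_add, map_add] at l
  have := congrArg I (gram (rl h.toOK0 hp.2 e1) (rl h.toOK0 hp'.2 e3) l)
  rw [map_sub, map_smul, map_smul, n.n1, n.n2, map_zero, smul_eq_mul, smul_eq_mul] at this
  exact mul_right_cancel₀ n.n3 (by linear_combination this)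

theorem zr (h : S.OK 5 2) (n : Nm S I b) {p : A} (hp : Pr S p) (e : p * p = 0) : p = 0 := by
  refine pd_dg (k := 3) h.gx hp.1 rfl fun c hc => ?_
  obtain ⟨a, ha, rfl⟩ := (h.hl 2 1 rfl).2 c hc
  obtain ⟨x, p', hp', rfl⟩ := split h ha
  obtain ⟨q2, e2⟩ := prd h hp hp'
  obtain ⟨q3, e3⟩ := prd h hp' hp'
  have k := gr h n hp hp' (q1 := 0) (by rw [e, zero_smul]) e2 e3
  rw [zero_mul, pow_eq_zero_iff two_ne_zero] at k
  rw [k, zero_smul] at e2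
  rw [show p * (S.η ^ 1 * (x • S.η ^ 2 + p')) = 0 by
    linear_combination (norm := algebra) x • (S.η * hp.2) + S.η * e2, map_zero]

theorem line (h : S.OK 5 2) (n : Nm S I b) {w : A} (hw : Pr S w) (w0 : w ≠ 0) :
    ∃ (ω : A) (y : ℝ), Pr S ω ∧ ω * ω = (1 : ℝ) • S.η ^ 4 ∧ y ≠ 0 ∧ w = y • ω ∧
      ∀ p, Pr S p → ∃ c : ℝ, p = c • ω := by
  obtain ⟨q1, e1⟩ := prd h hw hw
  have q0 : q1 ≠ 0 := fun e => w0 (zr h n hw (by rw [e1, e, zero_smul]))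
  have k : ∀ p, Pr S p → ∃ c : ℝ, p = c • w := fun p hp => by
    obtain ⟨q2, e2⟩ := prd h hw hp
    obtain ⟨q3, e3⟩ := prd h hp hp
    obtain ⟨c, rfl⟩ : ∃ c, q2 = c * q1 := ⟨q2 / q1, (div_mul_cancel₀ _ q0).symm⟩
    obtain rfl : q3 = c ^ 2 * q1 :=
      mul_left_cancel₀ q0 (by linear_combination -gr h n hw hp e1 e2 e3)
    refine ⟨c, sub_eq_zero.1 (zr h n ⟨dg_sub hp.1 hw.1 c, ?_⟩ ?_)⟩
    · rw [mul_sub, mul_smul_comm, hp.2, hw.2, smul_zero, sub_zero]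
    · linear_combination (norm := algebra) e3 - (2 * c) • e2 + c ^ 2 • e1
  have p := h.hr 2 1 rfl w hw.1 hw.2 (fun p a b => k p ⟨a, b⟩) w0
  rw [e1, smul_mul_assoc, ← pow_add, map_smul, neg_one_sq, one_mul] at p
  have q : 0 < q1 := (mul_pos_iff_of_pos_right h.vol).1 p
  obtain ⟨y, y0, rfl⟩ : ∃ y : ℝ, y ≠ 0 ∧ q1 = y * y :=
    ⟨√q1, (Real.sqrt_pos.2 q).ne', (Real.mul_self_sqrt q.le).symm⟩
  obtain ⟨ω, rfl⟩ : ∃ ω, w = y • ω := ⟨y⁻¹ • w, (smul_inv_smul₀ y0 _).symm⟩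
  refine ⟨ω, y, ⟨?_, ?_⟩, ?_, y0, rfl, fun p hp => ?_⟩
  · exact smul_right_injective A y0 ((map_smul _ y ω).symm.trans hw.1)
  · exact (smul_eq_zero.1 ((mul_smul_comm _ _ _).symm.trans hw.2)).resolve_left y0
  · exact smul_right_injective A q0 (by
      show (y * y) • _ = (y * y) • _
      linear_combination (norm := algebra) e1)
  · obtain ⟨c, rfl⟩ := k p hp
    exact ⟨c * y, smul_smul _ _ _⟩

theorem eqv (h : S.OK 5 2) (x : S.Ex 5 6) (n : Nm S I b) {ω : A} {q x2 x3 x4 x5 y2 y3 : ℝ}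
    (hω : Pr S ω) (e : ω * ω = q • S.η ^ 4) (p2 : S.pX 2 = x2 • S.η ^ 2 + y2 • ω)
    (p3 : S.pX 3 = x3 • S.η ^ 3 + y3 • (S.η * ω)) (p4 : S.pX 4 = x4 • S.η ^ 4)
    (p5 : S.pX 5 = x5 • S.η ^ 5) : ∃ ζ m, E q b ζ m x2 x3 x4 x5 y2 y3 := by
  have h' := h.toOK0
  have L := lei S _ _ h'
  have k := rl h' hω.2 e
  obtain ⟨ζ, m, t⟩ := tb' n.n1 n.n2 k
  obtain ⟨f, hf, nw⟩ := nw2 h'
  have c := ch h'
  rw [Nat.cast_ofNat] at c
  have ds := L.dT 1 _ (L.de _ _ hω.1)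
  have m1 := fun {u v : B} (hu : S.GU.Dg 1 u) (hv : S.GU.Dg 1 v) => h.gu.dg_mul 1 1 _ _ hu hv
  refine ⟨ζ, m, eqs k t ⟨uu_eq S, ?_, ?_, ?_, ?_, ?_, ?_⟩ c hf nw fun c1 c2 c3 c4 c5 =>
    (x.hlK 2 2 rfl).1 _ ?_ ?_⟩
  · simp only [p2, map_add, map_smul, Tη h' 1, NS.H, Hn]
  · simp only [p3, map_add, map_smul, Tη h' 2, NS.H, Hn]
    algebra
  · simp only [p4, map_smul, Tη h' 3, NS.H, Hn]
    algebra
  · simp only [p5, map_smul, Tη h' 4, NS.H, Hn]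
    algebra
  · simp only [dg_hi h.gx (h.dX 6) (by norm_num), map_zero]
  · simp only [dg_hi h.gx (h.dX 7) (by norm_num), map_zero]
  · simp only [map_add, map_smul, sq, L.ker _ _ L.aa, L.ker _ _ (L.TT _), L.aa, L.ee, L.TT, mul_zero,
      smul_zero, add_zero]
  · rw [GA.Dg, map_add, map_add, map_add, map_add, map_smul, map_smul, map_smul, map_smul, map_smul,
      sq, sq, m1 (da h') (da h'), m1 (da h') ds, m1 ds ds, NS.ee, m1 (dh h') (dc h'),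
      L.dT 2 _ (L.de _ _ (h.gx.dg_mul 1 2 _ _ h.dη hω.1))]

end

theorem tdv (h : S.OK 5 2) (td : S.GX.int (coeff 5 (Ex (C 0 + TL S.pX))) = 1) {m : ℤ}
    (hm : S.GX.int (S.pX 1 ^ 5) = m) {ω : A} {q x2 x4 y2 : ℝ} (hω : Pr S ω)
    (e : ω * ω = q • S.η ^ 4) (p2 : S.pX 2 = x2 • S.η ^ 2 + y2 • ω) (p4 : S.pX 4 = x4 • S.η ^ 4) :
    (4 / 15 - x2 / 18 + (x2 ^ 2 + y2 ^ 2 * q) / 576 + x4 / 1440) * m = 1024 := by
  have c := h.c1
  rw [Nat.cast_ofNat] at c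
  rw [Hr.coeff_td _ _ (by norm_num), Hr.tdx, c, p2, p4] at td
  rw [c, smul_pow, map_smul, smul_eq_mul] at hm
  have k := hω.2
  have t : ∀ z, z = (4 / 15 - x2 / 18 + (x2 ^ 2 + y2 ^ 2 * q) / 576 + x4 / 1440 : ℝ) • S.η ^ 5 →
      S.GX.int z = 1 → _ * S.GX.int (S.η ^ 5) = 1 := fun z hz k => by
    rwa [hz, map_smul, smul_eq_mul] at k
  have := t _ (by
    linear_combination (norm := algebra) (y2 ^ 2 / 576) • (S.η * e) +
      (x2 * y2 / 288) • (S.η * k) - (y2 / 18) • (S.η * k)) td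
  linear_combination 1024 * this -
    (4 / 15 - x2 / 18 + (x2 ^ 2 + y2 ^ 2 * q) / 576 + x4 / 1440) * hm

/-- dimension five and degree four do not occur -/
theorem n52 (h : S.OK 5 2) (x : S.Ex 5 6) (td : S.GX.int (coeff 5 (Ex (C 0 + TL S.pX))) = 1)
    (hm : ∃ m : ℤ, S.GX.int (S.pX 1 ^ 5) = m) : False := by
  obtain ⟨m, hm⟩ := hm
  obtain ⟨I, b, n⟩ := nm h.toOK0 x
  obtain ⟨x2, w, hw, p2⟩ := split h (h.dX 2)
  obtain ⟨a, ha, p3⟩ := (h.hl 2 1 rfl).2 _ (h.dX 3)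
  obtain ⟨x3, w', hw', rfl⟩ := split h ha
  obtain ⟨x4, p4⟩ := top1 (n := 3) h (h.dX 4)
  obtain ⟨x5, p5⟩ := top0 h.toOK0 (h.dX 5)
  have two : ∀ {y : ℝ}, y ^ 2 = 4 → y = 2 ∨ y = -2 := fun e =>
    sq_eq_sq_iff_eq_or_eq_neg.1 (e.trans (by norm_num))
  by_cases w0 : w = 0
  · obtain ⟨q, e⟩ := prd h hw' hw'
    have p2' : S.pX 2 = x2 • S.η ^ 2 + (0 : ℝ) • w' := by rw [p2, w0, zero_smul]
    obtain ⟨ζ, m', k⟩ := eqv h x n hw' e p2' (x3 := x3) (y3 := 1) (by rw [← p3]; algebra) p4 p5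
    obtain ⟨k2, rfl⟩ := caseZ k
    have t := tdv h td hm hw' e p2' p4
    rcases two k2 with rfl | rfl
    · have : (7 * m : ℤ) = 46080 := by exact_mod_cast (by linarith : (7 * m : ℝ) = 46080)
      omega
    · have : (47 * m : ℤ) = 122880 := by exact_mod_cast (by linarith : (47 * m : ℝ) = 122880)
      omega
  obtain ⟨ω, y, hω, e, y0, rfl, l⟩ := line h n hw w0
  obtain ⟨c, rfl⟩ := l w' hw'
  obtain ⟨ζ, m', k⟩ := eqv h x n hω e p2 (x3 := x3) (y3 := c) (by rw [← p3]; algebra) p4 p5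
  obtain ⟨rfl, k2, k4⟩ := caseW k y0
  have t := tdv h td hm hω e p2 p4
  rw [k2] at t
  rcases two k4 with rfl | rfl
  · have : (11 * m : ℤ) = 40960 := by exact_mod_cast (by linarith : (11 * m : ℝ) = 40960)
    omega
  · have : (49 * m : ℤ) = 184320 := by exact_mod_cast (by linarith : (49 * m : ℝ) = 184320)
    omega

end Vale.Agent.P280Z.N52
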