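import Vale.Agent.P280Z.En.Cq
import Vale.Agent.P280Z.Ma.Ex
import Vale.Agent.P280Z.M2.N52e

/-!
# P280Z, block M2: the case of dimension five and degree four
-/

namespace Vale.Agent.P280Z.N52

open En

theorem c52 : Cv.CS 5 2 := fun _ t _ _ _ _ k _ _ _ _ F E h _ _ => by
  have f := (fs_of h).fa h.ok
  obtain rfl : k = 6 := by have := h.dim; omega
  exact (n52 h.ns (Ma.ex_of h.ok F h.hyp E h.cU h.ns.toOK0) ((Gm.rt _ h.ok t.hrr).1 _ h.fano.1 f)
    (kint h.ok t.hrr (by norm_num) f)).elim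

end Vale.Agent.P280Z.N52
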