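import Vale.Agent.P280Z.M2.C62e

/-!
# P280Z, block M2: a class of degree two in the kernel of the pairing

The class is `x = t ^ 2 + k1 A t + k2 A ^ 2 + k3 r + k4 e`; the field `bijmnp` is the test
`J (x A ^ i e ^ j t ^ m) = 0` in the normalisation of `E62`.
-/

namespace Vale.Agent.P280Z.M2

/-- the seven tests -/
structure B62 (a mu l c k1 k2 k3 k4 : ℝ) : Prop where
  b30200 :
    -a*k4 - 6*a*k2 + 30*a - 4*mu*c - 17*mu*k1 - 7*mu*k3 - l*c*k2 + 18*l*c + l*k1 + 2*l*k3 + c*k1 -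
    3*k4 - 10*k2 + 12 = 0
  b40100 :
    -6*a*k1 - a*k3 + mu*k4 + 5*mu*k2 - 17*mu - l*c*k1 + 3*l*k4 + 9*l*k2 + l + c - 10*k1 - 4*k3 = 0
  b50000 :
    5*a*k4 + 14*a*k2 - 6*a + 5*mu*k1 + mu*k3 - l*c + 9*l*k1 + 4*l*k3 - k4 - 10 = 0
  b21100 :
    -a*k1 + mu*k2 - 5*mu + l*k4 + 3*l*k2 + l - 3*k1 - k3 = 0
  b31000 :
    2*a*k4 + 5*a*k2 - a + mu*k1 + 3*l*k1 + l*k3 - k4 - k2 - 3 = 0
  b02100 :
    -2*mu + l*k2 + l - k1 = 0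
  b12000 :
    a*k4 + 2*a*k2 + l*k1 - k4 - k2 - 1 = 0

/-- the class exists -/
def CA : Prop := ∀ a mu l c X2 Y2 X3 Y3 X4 Y4 X5 X6 z5 z6 : ℝ,
  E62 a mu l c 0 X2 Y2 X3 Y3 X4 Y4 X5 X6 z5 z6 → Y2 ≠ 0 →
    ∃ k1 k2 k3 k4, B62 a mu l c k1 k2 k3 k4

/-- the numbers, given the class -/
def CB : Prop := ∀ a mu l c X2 Y2 X3 Y3 X4 Y4 X5 X6 z5 z6 k1 k2 k3 k4 : ℝ,
  E62 a mu l c 0 X2 Y2 X3 Y3 X4 Y4 X5 X6 z5 z6 → 0 ≤ a → Y2 ≠ 0 → B62 a mu l c k1 k2 k3 k4 →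
    a = 2 ∧ l ^ 2 = 1 ∧ mu = 3 * l

theorem c1_of (hA : CA) (hB : CB) : C1 := fun a mu l c X2 Y2 X3 Y3 X4 Y4 X5 X6 z5 z6 h ha hY => by
  obtain ⟨k1, k2, k3, k4, b⟩ := hA a mu l c X2 Y2 X3 Y3 X4 Y4 X5 X6 z5 z6 h hY
  exact hB a mu l c X2 Y2 X3 Y3 X4 Y4 X5 X6 z5 z6 k1 k2 k3 k4 h ha hY b

/-- the two solutions -/
theorem b62_11 : B62 2 3 1 11 (-1) 4 5 (-10) := by constructor <;> norm_num

theorem b62_14 : B62 2 3 1 (-14) 4 9 (-10) (-30) := by constructor <;> norm_num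

end Vale.Agent.P280Z.M2
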