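import Vale.Agent.P280Z.M2.C62a
import Vale.Agent.P280Z.Qs.Gen
import Vale.Agent.P280Z.Hr.Tdx

/-!
# P280Z, block M2: dimension six and degree four, the first case (the ring of the space of curves)
-/

noncomputable section

namespace Vale.Agent.P280Z.C62

open Al

set_option linter.unusedSimpArgs false

variable {R : Type} [CommRing R] [Algebra ℝ R] {J : R →ₗ[ℝ] ℝ} {A e s U : R} {b q ζ : ℝ}

/-- the table of the numbers -/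
structure Tb (J : R →ₗ[ℝ] ℝ) (A e s : R) (b q ζ : ℝ) : Prop where
  es : e * s = 0
  v0 : J (A ^ 7) = 14 * b + 14
  v1 : J (A ^ 5 * e) = 5 * b + 4
  v2 : J (A ^ 3 * e ^ 2) = 2 * b + 1
  v3 : J (A * e ^ 3) = b
  v4 : J (A ^ 5 * s) = ζ
  v5 : J (A ^ 3 * s ^ 2) = q
  v6 : J (A * s ^ 3) = q * ζ

theorem tb (es : e * s = 0) (ss : A * s ^ 2 = q • Hn A e 5) (h6 : Hn A e 6 = 0)
    (h7 : Hn A e 7 = 0) (n : J (A ^ 2 * Hn A e 5) = 1) :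
    Tb J A e s (J (A * e ^ 3)) q (J (A ^ 5 * s)) := by
  simp only [Hn] at ss h6 h7 n
  have k : ∀ (α β γ : ℝ) {x : R}, x = α • (A ^ 3 * e ^ 2) + β • (A * e ^ 3) + γ • (A ^ 5 * s) →
      J x = α * J (A ^ 3 * e ^ 2) + β * J (A * e ^ 3) + γ * J (A ^ 5 * s) := fun α β γ x hx => by
    rw [hx, map_add, map_add, map_smul, map_smul, map_smul]; rfl
  rw [k 1 (-2) 0 (by linear_combination (norm := algebra) 2 * A * h6 - h7)] at n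
  refine ⟨es, ?_, ?_, by linarith, rfl, rfl, ?_, ?_⟩
  · rw [k 14 (-14) 0 (by linear_combination (norm := algebra) 6 * A * h6 - 5 * h7)]
    linarith
  · rw [k 4 (-3) 0 (by linear_combination (norm := algebra) A * h6 - h7)]
    linarith
  · rw [k q (-2 * q) 0 (by
      linear_combination (norm := algebra) A ^ 2 * ss + q • (2 * A * h6 - h7))]
    linear_combination q * n
  · rw [k 0 0 q (by
      linear_combination (norm := algebra) s * ss + q • ((3 * A * e - 4 * A ^ 3) * es))]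
    ring

theorem ev (T : Tb J A e s b q ζ) {x : R} (c0 c1 c2 c3 c4 c5 c6 : ℝ) (y : R)
    (h : x = c0 • A ^ 7 + c1 • (A ^ 5 * e) + c2 • (A ^ 3 * e ^ 2) + c3 • (A * e ^ 3) +
      c4 • (A ^ 5 * s) + c5 • (A ^ 3 * s ^ 2) + c6 • (A * s ^ 3) + e * s * y) :
    J x = c0 * (14 * b + 14) + c1 * (5 * b + 4) + c2 * (2 * b + 1) + c3 * b + c4 * ζ + c5 * q +
      c6 * (q * ζ) := by
  simp only [h, T.es, zero_mul, add_zero, map_add, map_smul, smul_eq_mul, T.v0, T.v1, T.v2, T.v3,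
    T.v4, T.v5, T.v6]

/-- the classes `T (ps (T_X) k)` -/
structure Pk (A e s U : R) (t : ℕ → R) (x2 x3 x4 x5 x6 : ℝ) : Prop where
  u : U = (1 / 4 : ℝ) • (A ^ 2 - 4 * e)
  p2 : t 2 = x2 • A
  p3 : t 3 = x3 • Hn A e 2 + s
  p4 : t 4 = x4 • Hn A e 3
  p5 : t 5 = x5 • Hn A e 4
  p6 : t 6 = x6 • Hn A e 5
  p7 : t 7 = 0

variable {f : R} {t Q : ℕ → R} {x2 x3 x4 x5 x6 : ℝ}

/-- the normal forms -/
structure Nq (A e s : R) (Q : ℕ → R) (x2 x3 x4 x5 x6 : ℝ) : Prop where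
  q1 : Q 1 =
    ((1/2)*x2 : ℝ) • A
  q2 : Q 2 =
    ((1/3)*x3 - (5/6) : ℝ) • A ^ 2 + (-(1/3)*x3 + (10/3) : ℝ) • e + ((1/3) : ℝ) • s
  q3 : Q 3 =
    (-(1/8)*x2 + (1/4)*x4 : ℝ) • A ^ 3 + ((1/2)*x2 - (1/2)*x4 : ℝ) • (A * e)
  q4 : Q 4 =
    (-(1/6)*x3 + (1/5)*x5 - (1/120) : ℝ) • A ^ 4 + ((5/6)*x3 - (3/5)*x5 + (1/15) : ℝ) • (A ^ 2 *
    e) + (-(1/6) : ℝ) • (A ^ 2 * s) + (-(2/3)*x3 + (1/5)*x5 - (2/15) : ℝ) • e ^ 2 + ((2/3) : ℝ) •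
    (e * s)
  q5 : Q 5 =
    ((7/96)*x2 - (5/24)*x4 + (1/6)*x6 : ℝ) • A ^ 5 + (-(7/12)*x2 + (5/4)*x4 - (2/3)*x6 : ℝ) • (A
    ^ 3 * e) + ((7/6)*x2 - (5/3)*x4 + (1/2)*x6 : ℝ) • (A * e ^ 2)
  q6 : Q 6 =
    ((7/48)*x3 - (1/4)*x5 - (83/672) : ℝ) • A ^ 6 + (-(21/16)*x3 + (7/4)*x5 + (83/56) : ℝ) • (A ^
    4 * e) + ((7/48) : ℝ) • (A ^ 4 * s) + ((7/2)*x3 - (13/4)*x5 - (83/14) : ℝ) • (A ^ 2 * e ^ 2)
    + (-(7/6) : ℝ) • (A ^ 2 * e * s) + (-(7/3)*x3 + x5 + (166/21) : ℝ) • e ^ 3 + ((7/3) : ℝ) • (e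
    ^ 2 * s)

theorem nq (k : Pk A e s U t x2 x3 x4 x5 x6) (c : Qs.Ch 2 t Q U) : Nq A e s Q x2 x3 x4 x5 x6 := by
  constructor
  all_goals
    simp only [c.q6, c.q5, c.q4, c.q3, c.q2, c.q1, k.u, k.p2, k.p3, k.p4, k.p5, k.p6, k.p7, Hn]
    algebra

theorem eqs (T : Tb J A e s b q ζ) (k : Nq A e s Q x2 x3 x4 x5 x6)
    (hf : f = (1 / 2 : ℝ) • (Q 1 ^ 2 - Q 2)) (n : ∀ k, Q (k + 3) = Q 1 * Q (k + 2) - f * Q (k + 1)) :
    E x2 x3 x4 x5 x6 b q ζ := by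
  have n3 :
      0 = (x2^3 - 4*x2*x3 + 8*x2 + 4*x4 : ℝ) • A ^ 3 + (4*x2*x3 - 32*x2 - 8*x4 : ℝ) • (A * e) +
      (-4*x2 : ℝ) • (A * s) := by
    have := n 0
    simp only [Nat.reduceAdd, Nat.zero_add, hf, k.q1, k.q2, k.q3, k.q4, k.q5, k.q6] at this
    linear_combination (norm := algebra) (-16 : ℝ) • this
  have n4 :
      0 = (15*x2^2*x3 - 15*x2^2 - 45*x2*x4 - 20*x3^2 + 40*x3 + 72*x5 - 128 : ℝ) • A ^ 4 +
      (-15*x2^2*x3 + 60*x2^2 + 90*x2*x4 + 40*x3^2 - 200*x3 - 216*x5 + 1024 : ℝ) • (A ^ 2 * e) +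
      (15*x2^2 - 40*x3 + 40 : ℝ) • (A ^ 2 * s) + (-20*x3^2 + 160*x3 + 72*x5 - 2048 : ℝ) • e ^ 2 +
      (40*x3 - 160 : ℝ) • (e * s) + (-20 : ℝ) • s ^ 2 := by
    have := n 1
    simp only [Nat.reduceAdd, Nat.zero_add, hf, k.q1, k.q2, k.q3, k.q4, k.q5, k.q6] at this
    linear_combination (norm := algebra) (-360 : ℝ) • this
  have n5 :
      0 = (-15*x2^3 + 30*x2^2*x4 + 100*x2*x3 - 96*x2*x5 + 24*x2 - 40*x3*x4 - 100*x4 + 160*x6 : ℝ)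
      • A ^ 5 + (60*x2^3 - 60*x2^2*x4 - 500*x2*x3 + 288*x2*x5 - 192*x2 + 120*x3*x4 + 600*x4 -
      640*x6 : ℝ) • (A ^ 3 * e) + (100*x2 - 40*x4 : ℝ) • (A ^ 3 * s) + (400*x2*x3 - 96*x2*x5 +
      384*x2 - 80*x3*x4 - 800*x4 + 480*x6 : ℝ) • (A * e ^ 2) + (-400*x2 + 80*x4 : ℝ) • (A * e *
      s) := by
    have := n 2
    simp only [Nat.reduceAdd, Nat.zero_add, hf, k.q1, k.q2, k.q3, k.q4, k.q5, k.q6] at this
    linear_combination (norm := algebra) (-960 : ℝ) • this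
  have n6 :
      0 = (-105*x2^2*x3 + 126*x2^2*x5 - 189*x2^2 + 525*x2*x4 - 420*x2*x6 + 140*x3^2 - 168*x3*x5 +
      392*x3 - 840*x5 - 640 : ℝ) • A ^ 6 + (525*x2^2*x3 - 378*x2^2*x5 + 1512*x2^2 - 3150*x2*x4 +
      1680*x2*x6 - 840*x3^2 + 672*x3*x5 - 3528*x3 + 5880*x5 + 7680 : ℝ) • (A ^ 4 * e) +
      (-105*x2^2 + 280*x3 - 168*x5 + 392 : ℝ) • (A ^ 4 * s) + (-420*x2^2*x3 + 126*x2^2*x5 -
      3024*x2^2 + 4200*x2*x4 - 1260*x2*x6 + 1260*x3^2 - 672*x3*x5 + 9408*x3 - 10920*x5 - 30720 :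
      ℝ) • (A ^ 2 * e ^ 2) + (420*x2^2 - 1400*x3 + 504*x5 - 3136 : ℝ) • (A ^ 2 * e * s) + (140 :
      ℝ) • (A ^ 2 * s ^ 2) + (-560*x3^2 + 168*x3*x5 - 6272*x3 + 3360*x5 + 40960 : ℝ) • e ^ 3 +
      (1120*x3 - 168*x5 + 6272 : ℝ) • (e ^ 2 * s) + (-560 : ℝ) • (e * s ^ 2) := by
    have := n 3
    simp only [Nat.reduceAdd, Nat.zero_add, hf, k.q1, k.q2, k.q3, k.q4, k.q5, k.q6] at this
    linear_combination (norm := algebra) (-5040 : ℝ) • this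
  constructor
  · have := ev T (x := 0)
      (x2^3 - 4*x2*x3 + 8*x2 + 4*x4) (4*x2*x3 - 32*x2 - 8*x4) (0) (0) (-4*x2) (0) (0) (0)
      (by linear_combination (norm := algebra) A ^ 4 * n3)
    rw [map_zero] at this
    linear_combination (-1 / 2) * this
  · have := ev T (x := 0)
      (0) (0) (0) (0) (x2^3 - 4*x2*x3 + 8*x2 + 4*x4) (-4*x2) (0) ((4*x2*x3 - 32*x2 - 8*x4 : ℝ) •
      A ^ 3)
      (by linear_combination (norm := algebra) A ^ 2 * s * n3)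
    rw [map_zero] at this
    linear_combination (-1) * this
  · have := ev T (x := 0)
      (0) (x2^3 - 4*x2*x3 + 8*x2 + 4*x4) (4*x2*x3 - 32*x2 - 8*x4) (0) (0) (0) (0) ((-4*x2 : ℝ) •
      A ^ 3)
      (by linear_combination (norm := algebra) A ^ 2 * e * n3)
    rw [map_zero] at this
    linear_combination (-1) * this
  · have := ev T (x := 0)
      (0) (0) (x2^3 - 4*x2*x3 + 8*x2 + 4*x4) (4*x2*x3 - 32*x2 - 8*x4) (0) (0) (0) ((-4*x2 : ℝ) •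
      (A * e))
      (by linear_combination (norm := algebra) e ^ 2 * n3)
    rw [map_zero] at this
    linear_combination (-1) * this
  · have := ev T (x := 0)
      (15*x2^2*x3 - 15*x2^2 - 45*x2*x4 - 20*x3^2 + 40*x3 + 72*x5 - 128) (-15*x2^2*x3 + 60*x2^2 +
      90*x2*x4 + 40*x3^2 - 200*x3 - 216*x5 + 1024) (-20*x3^2 + 160*x3 + 72*x5 - 2048) (0)
      (15*x2^2 - 40*x3 + 40) (-20) (0) ((40*x3 - 160 : ℝ) • A ^ 3)
      (by linear_combination (norm := algebra) A ^ 3 * n4)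
    rw [map_zero] at this
    linear_combination (-1) * this
  · have := ev T (x := 0)
      (0) (0) (0) (0) (15*x2^2*x3 - 15*x2^2 - 45*x2*x4 - 20*x3^2 + 40*x3 + 72*x5 - 128) (15*x2^2
      - 40*x3 + 40) (-20) ((-15*x2^2*x3 + 60*x2^2 + 90*x2*x4 + 40*x3^2 - 200*x3 - 216*x5 + 1024 :
      ℝ) • A ^ 3 + (-20*x3^2 + 160*x3 + 72*x5 - 2048 : ℝ) • (A * e) + (40*x3 - 160 : ℝ) • (A *
      s))
      (by linear_combination (norm := algebra) A * s * n4)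
    rw [map_zero] at this
    linear_combination (-1) * this
  · have := ev T (x := 0)
      (0) (15*x2^2*x3 - 15*x2^2 - 45*x2*x4 - 20*x3^2 + 40*x3 + 72*x5 - 128) (-15*x2^2*x3 +
      60*x2^2 + 90*x2*x4 + 40*x3^2 - 200*x3 - 216*x5 + 1024) (-20*x3^2 + 160*x3 + 72*x5 - 2048)
      (0) (0) (0) ((15*x2^2 - 40*x3 + 40 : ℝ) • A ^ 3 + (40*x3 - 160 : ℝ) • (A * e) + (-20 : ℝ) •
      (A * s))
      (by linear_combination (norm := algebra) A * e * n4)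
    rw [map_zero] at this
    linear_combination (-1) * this
  · have := ev T (x := 0)
      (-15*x2^3 + 30*x2^2*x4 + 100*x2*x3 - 96*x2*x5 + 24*x2 - 40*x3*x4 - 100*x4 + 160*x6)
      (60*x2^3 - 60*x2^2*x4 - 500*x2*x3 + 288*x2*x5 - 192*x2 + 120*x3*x4 + 600*x4 - 640*x6)
      (400*x2*x3 - 96*x2*x5 + 384*x2 - 80*x3*x4 - 800*x4 + 480*x6) (0) (100*x2 - 40*x4) (0) (0)
      ((-400*x2 + 80*x4 : ℝ) • A ^ 3)
      (by linear_combination (norm := algebra) A ^ 2 * n5)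
    rw [map_zero] at this
    linear_combination (-1 / 2) * this
  · have := ev T (x := 0)
      (0) (-15*x2^3 + 30*x2^2*x4 + 100*x2*x3 - 96*x2*x5 + 24*x2 - 40*x3*x4 - 100*x4 + 160*x6)
      (60*x2^3 - 60*x2^2*x4 - 500*x2*x3 + 288*x2*x5 - 192*x2 + 120*x3*x4 + 600*x4 - 640*x6)
      (400*x2*x3 - 96*x2*x5 + 384*x2 - 80*x3*x4 - 800*x4 + 480*x6) (0) (0) (0) ((100*x2 - 40*x4 :
      ℝ) • A ^ 3 + (-400*x2 + 80*x4 : ℝ) • (A * e))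
      (by linear_combination (norm := algebra) e * n5)
    rw [map_zero] at this
    linear_combination (-1) * this
  · have := ev T (x := 0)
      (-105*x2^2*x3 + 126*x2^2*x5 - 189*x2^2 + 525*x2*x4 - 420*x2*x6 + 140*x3^2 - 168*x3*x5 +
      392*x3 - 840*x5 - 640) (525*x2^2*x3 - 378*x2^2*x5 + 1512*x2^2 - 3150*x2*x4 + 1680*x2*x6 -
      840*x3^2 + 672*x3*x5 - 3528*x3 + 5880*x5 + 7680) (-420*x2^2*x3 + 126*x2^2*x5 - 3024*x2^2 +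
      4200*x2*x4 - 1260*x2*x6 + 1260*x3^2 - 672*x3*x5 + 9408*x3 - 10920*x5 - 30720) (-560*x3^2 +
      168*x3*x5 - 6272*x3 + 3360*x5 + 40960) (-105*x2^2 + 280*x3 - 168*x5 + 392) (140) (0)
      ((420*x2^2 - 1400*x3 + 504*x5 - 3136 : ℝ) • A ^ 3 + (1120*x3 - 168*x5 + 6272 : ℝ) • (A * e)
      + (-560 : ℝ) • (A * s))
      (by linear_combination (norm := algebra) A * n6)
    rw [map_zero] at this
    linear_combination (-1 / 7) * this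

theorem tk (T : Tb J A e s b q ζ) (u : U = (1 / 4 : ℝ) • (A ^ 2 - 4 * e)) {P z α β γ δ : R}
    (hP : P = (1 / 3 : ℝ) • (x3 • (A ^ 2 - e) + s) - (10 / 3 : ℝ) • U) (hz : z = A)
    (hα : α = -(1 / 24 : ℝ) • (P - 2 * U))
    (hβ : β = (1 / 2880 : ℝ) • (-14 * U ^ 2 + 6 * U * P + (1 / 2 : ℝ) • P ^ 2))
    (hγ : γ = -(1 / 181440 : ℝ) •
      (-62 * U ^ 3 + 15 * U ^ 2 * P + (15 / 2 : ℝ) • (U * P ^ 2) + (1 / 4 : ℝ) • P ^ 3))
    (h : 810 * J (Hr.tdx z α β γ δ 7) = 10 - x3 - ζ) :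
    -20*x3^3*b - 25*x3^3 + 696*x3^2*b - 15*x3^2*ζ + 852*x3^2 - 4572*x3*b - 15*x3*q + 312*x3*ζ +
    1944*x3 + 6272*b - 5*q*ζ + 156*q + 6516*ζ - 70784 = 0 := by
  rw [ev T
      (-(1/1306368)*x3^3 + (13/544320)*x3^2 - (43/181440)*x3 + (83/102060)) ((1/435456)*x3^3 -
      (1/15120)*x3^2 + (1/1344)*x3 - (26/8505)) (-(1/435456)*x3^3 + (11/181440)*x3^2 -
      (1/1680)*x3 + (4/1701)) ((1/1306368)*x3^3 - (1/54432)*x3^2 + (1/11340)*x3 + (4/25515))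
      (-(1/435456)*x3^2 + (13/272160)*x3 - (43/181440)) (-(1/435456)*x3 + (13/544320))
      (-(1/1306368)) (((1/217728)*x3^2 - (23/272160)*x3 + (23/45360) : ℝ) • A ^ 3 +
      (-(1/435456)*x3^2 + (1/27216)*x3 - (1/11340) : ℝ) • (A * e) + ((1/435456)*x3 - (1/54432) :
      ℝ) • (A * s))
    (by simp only [Hr.tdx, hz, hα, hβ, hγ, hP, u]; algebra)] at h
  linear_combination (8064) * h

end Vale.Agent.P280Z.C62
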