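import Vale.Agent.P280Z.M2.X62
import Vale.Agent.P280Z.M2.C62c
import Vale.Agent.P280Z.R1.Sk

/-!
# P280Z, block M2: dimension six and degree four, the second case (exclusion of special points)
-/

open Finset

noncomputable section

namespace Vale.Agent.P280Z.C62

open Al M2.X62

variable {A B : Type} [CommRing A] [Algebra ℝ A] [CommRing B] [Algebra ℝ B] {S : NS A B}
  {D a : ℝ} {u : A}

/-- `T u` is not a multiple of `T (η ^ 2)` -/
theorem kill (h : S.OK0 6 2) (hN : S.Num2 D a) (hu : S.U62 u) {m : ℝ}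
    (ht : S.T (S.es u) = m • S.aa) : False := by
  have L := lei S _ _ h
  have k0 : S.T (S.es (u - m • S.η ^ 2)) = 0 := by
    rw [map_sub, map_sub, map_smul, map_smul, ht, Qs.Tη h 1]
    exact sub_self _
  have k : ∀ b, S.Sg ((u - m • S.η ^ 2) * b) = S.Sg b * (u - m • S.η ^ 2) := fun b => by
    rw [NS.Sg, map_mul, L.ker _ _ k0, mul_comm, h.proj, NS.Sg]
  have k2 := k (S.η ^ 2)
  have k3 := k (S.η ^ 3)
  rw [Sg0 h one_lt_two (dp h 2), zero_mul, sub_mul, NS.Sg, map_sub, map_sub, map_sub, ← NS.Sg,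
    ← NS.Sg, smul_mul_assoc, ← pow_add, Sg_smul, hN.s4, sub_eq_zero] at k2
  rw [hN.s3, show (u - m • S.η ^ 2) * S.η ^ 3 = (-m) • S.η ^ 5 by
    linear_combination (norm := algebra) hu.prim, Sg_smul] at k3
  have k4 := swp h (u * S.η ^ 2) (S.η ^ 5)
  rw [k2, show S.η ^ 5 * m • (a * D) • S.η = (m * (a * D)) • S.η ^ 6 by algebra, map_smul] at k4
  have k5 := congrArg (fun z => S.GX.int (u * S.η ^ 2 * z)) k3
  rw [mul_smul_comm, map_smul, k4, show u * S.η ^ 2 * (algebraMap ℝ A D * (u - m • S.η ^ 2)) =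
    D • (u * u * S.η ^ 2) by linear_combination (norm := algebra) (-(D * m)) • (S.η * hu.prim),
    map_smul] at k5
  simp only [smul_eq_mul] at k5
  have := mul_pos hN.pos hu.pos
  have := mul_nonneg (mul_self_nonneg m) (mul_nonneg (mul_nonneg hN.nn hN.pos.le) h.vol.le)
  linarith

/-- the use of the descent -/
theorem dk (o : S.OK 6 2) (hN : S.Num2 D a) (hu : S.U62 u) (d : S.Desc) {X Y mu l c : ℝ}
    (p2 : S.pX 2 = (2 * X) • S.η ^ 2 + (2 * Y) • u) (hY : Y ≠ 0)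
    (h1 : S.Sg (S.η * u) = algebraMap ℝ A (mu * D)) (h2 : S.Sg (S.η ^ 2 * u) = (l * D) • S.η)
    (h3 : u ^ 2 = S.η ^ 4 + c • (S.η ^ 2 * u)) (n : ℤ) (n0 : 0 < n) (e1 : X + 1 + Y * mu = n)
    (e2 : mu ^ 2 + 2 * a + 1 + l * c = 0) : False := by
  have h := o.toOK0
  have L := lei S _ _ h
  have dt := dT h (k := 1) hu.dg
  have dh := Qs.dh h
  have pr : ∀ z, S.GU.Dg 1 z → S.el (z * S.hh) = 0 := fun z hz => by
    rw [NS.hh, h.proj, lo h one_lt_two hz, zero_mul]
  have t0 : S.T S.hh = 1 := h.Tη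
  have e0 : S.el (S.es u) = 0 := by
    rw [← one_mul (S.es u), h.proj, lo h zero_lt_two h.gu.dg_one, zero_mul]
  have tt : S.el (S.T (S.es u) * S.T (S.es u)) = algebraMap ℝ A (mu ^ 2 * D) := by
    obtain ⟨x, t, k1, k2, k3, -⟩ := two o hN ⟨hu.dg, hu.prim⟩ ⟨hu.dg, hu.prim⟩
    rw [← sq, h3] at k1 k2
    rw [NS.Sg, map_add, map_add, map_add, ← NS.Sg, ← NS.Sg, Sg_smul, hN.s4, h2, smul_smul,
      ← add_smul] at k2
    have k4 := congrArg (fun z => S.GX.int (S.η ^ 5 * z)) k2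
    have k5 := congrArg (fun z => S.GX.int (z * S.η)) k1
    rw [show (S.η ^ 4 + c • (S.η ^ 2 * u)) * S.η * S.η = S.η ^ 6 by
      linear_combination (norm := algebra) c • (S.η * hu.prim)] at k5
    simp only [mul_smul_comm, smul_mul_assoc, ← pow_succ, map_smul, smul_eq_mul] at k4 k5
    obtain rfl : 1 = x := mul_right_cancel₀ h.vol.ne' (by linear_combination k5)
    rw [← mul_right_cancel₀ h.vol.ne' k4] at k3
    exact k3.trans (congrArg _ (by linear_combination (-D) * e2))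
  have tτ : S.el (S.T (S.es u) * S.τ) = algebraMap ℝ A (-(mu * D)) := by
    rw [NS.Sg, map_mul, ← NS.hh, L.mul, t0, one_mul, mul_one, map_sub, map_add, e0, mul_comm,
      pr _ dt, mul_comm] at h1
    rw [map_neg, ← h1]
    ring
  have q1 : S.Q 1 = X • S.aa + Y • S.T (S.es u) := by
    rw [(Qs.ch h).q1, p2, map_add, map_add, map_smul, map_smul, map_smul, map_smul, Qs.Tη h 1]
    simp only [NS.H, Hn]
    algebra
  have pe : S.pE 1 = S.Q 1 - S.τ := by
    simp only [Qs.hE S 1, Cn.bt, sum_range_succ, sum_range_zero, Nat.choose, Nat.reduceSub,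
      Qs.q0 h]
    push_cast
    algebra
  generalize ht : S.T (S.es u) = t at *
  have z : ((n : ℤ) : ℝ) • S.τ + ((1 : ℤ) : ℝ) • S.pE 1 =
      (Y * mu) • S.τ + Y • t + (2 * X) • S.hh := by
    rw [pe, q1, ← e1, NS.aa, NS.hc]
    push_cast
    algebra
  obtain ⟨y, hy⟩ := d n 1 n0 one_pos (by
    rw [z, show ((Y * mu) • S.τ + Y • t + (2 * X) • S.hh) * S.τ =
      (Y * mu) • S.τ ^ 2 + Y • (t * S.τ) + (2 * X) • (S.τ * S.hh) by algebra, map_add, map_add,
      map_smul, map_smul, map_smul, hN.el2, tτ, pr _ h.dτ]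
    algebra) (by
    rw [z, show ((Y * mu) • S.τ + Y • t + (2 * X) • S.hh) ^ 2 =
      (Y * mu) ^ 2 • S.τ ^ 2 + (2 * Y ^ 2 * mu) • (t * S.τ) + Y ^ 2 • (t * t) +
      (4 * X * Y * mu) • (S.τ * S.hh) + (4 * X * Y) • (t * S.hh) + (4 * X ^ 2) • (S.hh * S.hh) by
        algebra]
    simp only [map_add, map_smul, hN.el2, tτ, tt, pr _ h.dτ, pr _ dt, pr _ dh]
    algebra)
  rw [z] at hy
  have hT := congrArg S.T hy
  rw [map_add, map_add, map_smul, map_smul, map_smul, map_smul, h.Tτ, t0, ← ht, L.TT] at hT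
  refine kill h hN hu (m := mu) (smul_right_injective B hY ?_)
  rw [ht, NS.aa, NS.hc]
  linear_combination (norm := algebra) hy - S.hh * hT

end Vale.Agent.P280Z.C62
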