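import Vale.Agent.P280Z.M2.B62

/-!
# P280Z, block M2: five classes of degree three are independent
-/

namespace Vale.Agent.P280Z.M2.Cb

variable {a mu l c k1 k2 k3 k4 : ℝ}

set_option maxHeartbeats 4000000 in
set_option maxRecDepth 20000 in
theorem ind0 (b : B62 a mu l c k1 k2 k3 k4) {u1 u2 : ℝ}
    (he2 : a*u2 + l^2*u1 + u1 - u2 = 0)
    (hH4 : a^2*l^2*u1 - 2*a*mu*l*u1 - a*l^2*u1 - a*l^2*u2 + a*u1 + mu^2*u1 + 2*mu*l*u2 - l^3*c*u1 + u2 = 0)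
    (heH2 : -a*l^2*u1 + a*u1 + a*u2 + 2*mu*l*u1 + l^2*u2 = 0)
    (hm7 : -2*a^2*mu*l*u1 + a^2*l^2*u1 + 2*a*mu^2*u1 - 2*a*mu*l*u1 + 2*a*mu*l*u2 + 2*a*l^2*u1 - a*l^2*u2 - a*u2 + 3*mu^2*u1 - 2*mu^2*u2 + 2*mu*l^2*c*u1 - 4*mu*l*u1 + 4*mu*l*u2 - l^3*c*u1 + 2*l^2*u1 - 3*l^2*u2 + u2 = 0)
    : u1 * (5 * mu ^ 2 + 8 * c ^ 2 + 37) = 0 := by
  refine mul_left_cancel₀ (a := (768 : ℝ)) (by norm_num) ?_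
  linear_combination ((-440070)+(-942672)*a+(169080)*k4+(167574)*k2+(3840)*mu*l+(20976)*mu^2+(-316224)*a^2+
      (-40632)*c*l+(-969540)*c*mu+(-4248)*c^2+(382956)*k3*mu+(-138612)*k3*c+(-75372)*k3^2+
      (556704)*k1*mu+(-507210)*k1*c+(-16968)*k1*k3+(-19326)*k1^2+(-455286)*k4*a+(108426)*k4^2+
      (-771840)*k2*a+(489960)*k2*k4+(712086)*k2^2+(1920)*a*l^2+(2880)*a*mu*l+(-13440)*a*mu^2+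
      (5232)*a^3+(113184)*c*a*l+(-372144)*c*a*mu+(-3072)*c^2*a+(182400)*k3*a*l+(191568)*k3*a*mu+
      (54528)*k3*c*a+(-36804)*k3^2*a+(163824)*k1*a*l+(23616)*k1*a*mu+(-277644)*k1*c*a+
      (-169392)*k1*k3*a+(-124272)*k1^2*a+(51888)*k4*mu^2+(51504)*k4*a^2+(-68112)*k4*c*l+
      (118980)*k4*c*mu+(6144)*k4*c^2+(80532)*k4*k3*mu+(-8292)*k4*k3*c+(-4914)*k4*k3^2+
      (183072)*k4*k1*mu+(21162)*k4*k1*c+(8424)*k4*k1*k3+(-11388)*k4*k1^2+(-32388)*k4^2*a+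
      (918)*k4^3+(73584)*k2*mu^2+(192192)*k2*a^2+(-10392)*k2*c*l+(318996)*k2*c*mu+(6144)*k2*c^2+
      (434604)*k2*k3*mu+(-26208)*k2*k3*c+(-34248)*k2*k3^2+(598680)*k2*k1*mu+(57132)*k2*k1*c+
      (-44748)*k2*k1*k3+(-26310)*k2*k1^2+(-97668)*k2*k4*a+(6726)*k2*k4^2+(-12336)*k2^2*a+
      (11280)*k2^2*k4+(-23862)*k2^3+(3840)*c*l^3+(5760)*c*mu*l^2+(-3840)*c*mu^2*l+
      (6672)*c*a^2*l+(-47808)*c^2*l^2+(2832)*c^2*mu*l+(7152)*k3*a^2*l+(-7152)*k3*a^2*mu+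
      (-142656)*k3*c*l^2+(83616)*k3*c*mu*l+(-2832)*k3*c*mu^2+(3072)*k3*c^2*l+(-4296)*k3^2*c*l+
      (7152)*k1*a^2*l+(32016)*k1*c*mu^2+(45984)*k1*c*a^2+(6096)*k1*c^2*l+(3072)*k1*c^2*mu+
      (-47664)*k1*k3*a^2+(1416)*k1^2*mu^2+(-100488)*k1^2*a^2+(-306)*k1^3*c+(-3840)*k4*a*mu*l+
      (480)*k4*a*mu^2+(-80760)*k4*c*a*l+(6744)*k4*c*a*mu+(33768)*k4*k3*a*l+(-1416)*k4*k3*a*mu+
      (-1230)*k4*k3*c*a+(-1614)*k4*k1*c*a+(1224)*k4*k1*k3*a+(-1554)*k4*k1^2*a+(1416)*k4^2*mu^2+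
      (306)*k4^2*k1*c+(-306)*k4^3*a+(8112)*k2*a^3+(2832)*k2*c*a*mu+(3072)*k2*c^2*a+
      (-21264)*k2*k3*a*mu+(-6756)*k2*k3*c*a+(-21252)*k2*k1*c*a+(-22584)*k2*k1*k3*a+
      (-28752)*k2*k1^2*a+(-15072)*k2*k4*mu^2+(-6864)*k2*k4*c*mu+(1224)*k2*k4*k1*c+
      (-1224)*k2*k4^2*a+(918)*k2^2*k1*c+(-918)*k2^2*k4*a) * he2 +
    ((-543962)*u1+(-813052)*u2+(-1318976)*u1*a+(-169144)*u1*k4+(-843324)*u1*k2+(-1355848)*u2*a+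
      (430267)*u2*k4+(1501796)*u2*k2+(-3232896)*u1*mu*l+(369056)*u1*mu^2+(-76240)*u1*a^2+
      (-351240)*u1*c*l+(140888)*u1*c*mu+(12288)*u1*c^2+(-485184)*u1*k3*l+(-237096)*u1*k3*mu+
      (-8832)*u1*k3*c+(-612)*u1*k3^2+(-1162608)*u1*k1*l+(-255648)*u1*k1*mu+(-37134)*u1*k1*c+
      (-33768)*u1*k1*k3+(-84354)*u1*k1^2+(1632)*u1*k4^2+(-1776)*u1*k2*k4+(65622)*u1*k2^2+
      (-506032)*u2*l^2+(-510896)*u2*mu*l+(17088)*u2*mu^2+(-321264)*u2*a^2+(104320)*u2*c*l+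
      (-60888)*u2*c*mu+(-9216)*u2*c^2+(784768)*u2*k3*l+(293048)*u2*k3*mu+(16998)*u2*k3*c+
      (-45150)*u2*k3^2+(770196)*u2*k1*l+(1039596)*u2*k1*mu+(60420)*u2*k1*c+(-172596)*u2*k1*k3+
      (3408)*u2*k1^2+(-20295)*u2*k4*a+(-1071)*u2*k4^2+(6168)*u2*k2*a+(-82383)*u2*k2*k4+
      (-196104)*u2*k2^2+(359376)*u1*a*mu*l+(-19824)*u1*a*mu^2+(10968)*u1*c*a*l+(1080)*u1*k3*a*l+
      (2832)*u1*k3*a*mu+(-7080)*u1*k1*a*mu+(3060)*u1*k1*c*a+(-37224)*u1*k4*mu*l+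
      (-2832)*u1*k4*mu^2+(-4668)*u1*k4*c*l+(1224)*u1*k4*c*mu+(-9216)*u1*k4*k3*l+
      (-42108)*u1*k4*k1*l+(612)*u1*k4*k1*c+(1530)*u1*k2*k1*c+(45840)*u2*a*l^2+(-1600)*u2*a*mu*l+
      (320)*u2*a*mu^2+(36240)*u2*a^3+(-263688)*u2*c*a*l+(72408)*u2*c*a*mu+(6144)*u2*c^2*a+
      (-181560)*u2*k3*a*l+(-130776)*u2*k3*a*mu+(-7362)*u2*k3*c*a+(-97800)*u2*k1*a*l+
      (-309744)*u2*k1*a*mu+(-13002)*u2*k1*c*a+(-51288)*u2*k1*k3*a+(-123300)*u2*k1^2*a+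
      (-20736)*u2*k4*mu*l+(-1416)*u2*k4*mu^2+(-5640)*u2*k4*c*l+(49911)*u2*k4*k3*l+
      (124395)*u2*k4*k1*l+(-153)*u2*k4*k1*mu+(-306)*u2*k4*k1*c+(-1224)*u2*k2*k1*c+
      (459)*u2*k2*k4*a+(-5664)*u1*c*mu^2*l+(-2832)*u1*k3*a^2*l+(-1416)*u1*k1*mu^2*l+
      (306)*u1*k1^2*c*l+(-960)*u2*c*l^3+(-480)*u2*c*mu*l^2) * b.b12000 +
    ((1126416)*u1+(433302)*u2+(1851960)*u1*a+(381642)*u1*k4+(1545996)*u1*k2+(2711760)*u2*a+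
      (-732069)*u2*k4+(-2208384)*u2*k2+(5898648)*u1*mu*l+(-1075536)*u1*mu^2+(111696)*u1*a^2+
      (395772)*u1*c*l+(-145260)*u1*c*mu+(-6144)*u1*c^2+(639852)*u1*k3*l+(105252)*u1*k3*mu+
      (5952)*u1*k3*c+(2001300)*u1*k1*l+(-77784)*u1*k1*mu+(10608)*u1*k1*c+(10440)*u1*k1*k3+
      (5964)*u1*k1^2+(-306)*u1*k4^2+(24558)*u1*k2*k4+(-48564)*u1*k2^2+(1502448)*u2*l^2+
      (-107760)*u2*mu*l+(-20784)*u2*mu^2+(530256)*u2*a^2+(-163452)*u2*c*l+(16440)*u2*c*mu+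
      (3072)*u2*c^2+(-1084056)*u2*k3*l+(-57612)*u2*k3*mu+(-2454)*u2*k3*c+(25032)*u2*k3^2+
      (-1326528)*u2*k1*l+(-1164636)*u2*k1*mu+(-37716)*u2*k1*c+(219150)*u2*k1*k3+(61458)*u2*k1^2+
      (26418)*u2*k4*a+(153)*u2*k4^2+(101199)*u2*k2*k4+(199506)*u2*k2^2+(-381984)*u1*a*mu*l+
      (8496)*u1*a*mu^2+(-13164)*u1*c*a*l+(-1956)*u1*k3*a*l+(-1416)*u1*k3*a*mu+(2832)*u1*k1*a*mu+
      (-1224)*u1*k1*c*a+(26400)*u1*k4*mu*l+(1416)*u1*k4*mu^2+(-5652)*u1*k4*c*l+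
      (-612)*u1*k4*c*mu+(4914)*u1*k4*k3*l+(39918)*u1*k4*k1*l+(-306)*u1*k4*k1*c+
      (-612)*u1*k2*k1*c+(-50160)*u2*a*l^2+(13440)*u2*a*mu*l+(-2880)*u2*a*mu^2+(-34800)*u2*a^3+
      (268752)*u2*c*a*l+(-46656)*u2*c*a*mu+(-3072)*u2*c^2*a+(262968)*u2*k3*a*l+
      (66096)*u2*k3*a*mu+(4296)*u2*k3*c*a+(264384)*u2*k1*a*l+(329064)*u2*k1*a*mu+
      (21480)*u2*k1*c*a+(25032)*u2*k1*k3*a+(125160)*u2*k1^2*a+(1416)*u2*k4*mu*l+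
      (-612)*u2*k4*c*l+(-25032)*u2*k4*k3*l+(-125007)*u2*k4*k1*l+(153)*u2*k4^2*a+
      (306)*u2*k2*k1*c+(2832)*u1*c*mu^2*l+(1416)*u1*k3*a^2*l) * b.b31000 +
    ((-331210)*u1+(13384)*u2+(-487372)*u1*a+(-105416)*u1*k4+(-422874)*u1*k2+(-701120)*u2*a+
      (186908)*u2*k4+(517180)*u2*k2+(-1676592)*u1*mu*l+(344020)*u1*mu^2+(-29300)*u1*a^2+
      (-70296)*u1*c*l+(24976)*u1*c*mu+(-149580)*u1*k3*l+(4296)*u1*k3*mu+(-537906)*u1*k1*l+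
      (77904)*u1*k1*mu+(1848)*u1*k1*c+(10308)*u1*k1^2+(-102)*u1*k4^2+(-9612)*u1*k2*k4+
      (6216)*u1*k2^2+(-459728)*u2*l^2+(128288)*u2*mu*l+(-7416)*u2*mu^2+(-156528)*u2*a^2+
      (77618)*u2*c*l+(-9012)*u2*c*mu+(283292)*u2*k3*l+(-52976)*u2*k3*mu+(373188)*u2*k1*l+
      (219156)*u2*k1*mu+(1224)*u2*k1*c+(-50064)*u2*k1*k3+(-17670)*u2*k1^2+(-24930)*u2*k2*k4+
      (-40656)*u2*k2^2+(83184)*u1*a*mu*l+(3072)*u1*c*a*l+(-2832)*u1*k4*mu*l+(3072)*u1*k4*c*l+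
      (-7362)*u1*k4*k1*l+(10512)*u2*a*l^2+(-4160)*u2*a*mu*l+(1120)*u2*a*mu^2+(6672)*u2*a^3+
      (-47808)*u2*c*a*l+(2832)*u2*c*a*mu+(-66096)*u2*k3*a*l+(-66096)*u2*k1*a*l+
      (-66096)*u2*k1*a*mu+(-4296)*u2*k1*c*a+(-25032)*u2*k1^2*a+(25032)*u2*k4*k1*l) * b.b50000 +
    ((134766)*u1*l+(1544532)*u1*mu+(-43294)*u1*c+(456624)*u1*k3+(737400)*u1*k1+(-254328)*u2*l+
      (-357432)*u2*mu+(169432)*u2*c+(-161712)*u2*k3+(-200664)*u2*k1+(-691032)*u1*a*l+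
      (136296)*u1*a*mu+(-584800)*u1*c*a+(105948)*u1*k3*a+(353004)*u1*k1*a+(-171744)*u1*k4*l+
      (172668)*u1*k4*mu+(65584)*u1*k4*c+(57570)*u1*k4*k3+(101550)*u1*k4*k1+(-735948)*u1*k2*l+
      (72396)*u1*k2*mu+(155442)*u1*k2*c+(129120)*u1*k2*k3+(208320)*u1*k2*k1+(622104)*u2*a*l+
      (21408)*u2*a*mu+(-55928)*u2*c*a+(257136)*u2*k3*a+(-229548)*u2*k1*a+(1422)*u2*k4*l+
      (-252)*u2*k4*mu+(-24280)*u2*k4*c+(-105654)*u2*k4*k3+(-113964)*u2*k4*k1+(12336)*u2*k2*l+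
      (-114038)*u2*k2*c+(-202236)*u2*k2*k3+(-154224)*u2*k2*k1+(112752)*u1*mu^2*l+(9408)*u1*mu^3+
      (-231624)*u1*a^2*l+(20352)*u1*a^2*mu+(-455256)*u1*c*mu*l+(-26936)*u1*c*mu^2+
      (1528)*u1*c*a^2+(2112)*u1*c^2*l+(-2048)*u1*c^2*mu+(54816)*u1*k3*mu*l+(163140)*u1*k3*mu^2+
      (1956)*u1*k3*a^2+(21036)*u1*k3*c*l+(9024)*u1*k3*c*mu+(34248)*u1*k3^2*l+
      (198144)*u1*k1*mu^2+(-34932)*u1*k1*c*l+(21072)*u1*k1*c*mu+(118008)*u1*k1*k3*l+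
      (20748)*u1*k1*k3*mu+(-612)*u1*k1*k3*c+(26310)*u1*k1^2*l+(57504)*u1*k1^2*mu+
      (-2142)*u1*k1^2*c+(-13656)*u1*k4*a*mu+(-7248)*u1*k4*c*a+(-6138)*u1*k4*k3*a+
      (-12306)*u1*k4*k1*a+(-3972)*u1*k4^2*l+(2142)*u1*k4^2*mu+(-102)*u1*k4^2*c+
      (-11280)*u1*k2*k4*l+(1836)*u1*k2*k4*mu+(-2250)*u1*k2*k4*c+(23862)*u1*k2^2*l+
      (-4092)*u1*k2^2*c+(-12480)*u2*mu*l^2+(-3840)*u2*mu^2*l+(6192)*u2*a^2*l+(-7680)*u2*a^2*mu+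
      (-268904)*u2*c*l^2+(-42160)*u2*c*mu*l+(2928)*u2*c*mu^2+(-285024)*u2*c*a^2+
      (-1018)*u2*c^2*l+(101304)*u2*k3*l^2+(38016)*u2*k3*mu*l+(1416)*u2*k3*mu^2+
      (116616)*u2*k3*a^2+(638)*u2*k3*c*l+(-2258)*u2*k3*c*mu+(-75096)*u2*k3^2*l+
      (-25032)*u2*k3^2*mu+(-49464)*u2*k1*mu*l+(-16488)*u2*k1*mu^2+(100488)*u2*k1*a^2+
      (-90822)*u2*k1*c*l+(-32514)*u2*k1*c*mu+(-148356)*u2*k1*k3*l+(-48840)*u2*k1*k3*mu+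
      (306)*u2*k1*k3*c+(-51924)*u2*k1^2*l+(-26892)*u2*k1^2*mu+(1224)*u2*k1^2*c+
      (-19320)*u2*k4*a*mu+(-6252)*u2*k4*c*a+(25338)*u2*k4*k3*a+(24420)*u2*k4*k1*a+
      (306)*u2*k4^2*l+(-306)*u2*k4^2*mu+(918)*u2*k2*k4*l+(102)*u2*k2*k4*c+(2046)*u2*k2^2*c+
      (-8112)*u1*a^3*l+(5664)*u1*c*a*mu*l+(17016)*u1*k3*a*mu*l+(-1416)*u1*k3*a*mu^2+
      (-1416)*u1*k3*a^3+(1416)*u1*k3*c*a*l+(2832)*u1*k1*a*mu^2+(14532)*u1*k1*c*a*l+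
      (24420)*u1*k1*k3*a*l+(-612)*u1*k1^2*c*a+(19320)*u1*k4*mu^2*l+(1416)*u1*k4*mu^3+
      (6864)*u1*k4*c*mu*l+(-2142)*u1*k4*k1*c*l+(-306)*u1*k4*k1*c*mu+(-918)*u1*k2*k1*c*l+
      (-960)*u2*c*a*l^2+(-1760)*u2*c*a*mu*l+(-320)*u2*c*a*mu^2) * b.b02100 +
    ((-257616)+(-448176)*a+(234810)*k4+(382296)*k2+(-1920)*l^2+(-2880)*mu*l+(-9600)*mu^2+
      (-88896)*a^2+(247008)*c*l+(-425760)*c*mu+(-6144)*c^2+(325056)*k3*l+(91440)*k3*mu+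
      (51996)*k3*c+(-34464)*k3^2+(163824)*k1*l+(-127668)*k1*c+(-149760)*k1*k3+(-124272)*k1^2+
      (-32388)*k4^2+(-97668)*k2*k4+(-12336)*k2^2+(3840)*a*l^2+(5760)*a*mu*l+(-3840)*a*mu^2+
      (-41136)*c*a*l+(2832)*c*a*mu+(-135504)*k3*a*l+(76464)*k3*a*mu+(3072)*k3*c*a+
      (-2880)*k3^2*a+(7152)*k1*a*l+(54912)*k1*c*a+(-46248)*k1*k3*a+(-100488)*k1^2*a+
      (-3840)*k4*mu*l+(480)*k4*mu^2+(-80760)*k4*c*l+(3912)*k4*c*mu+(33768)*k4*k3*l+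
      (-1230)*k4*k3*c+(-1614)*k4*k1*c+(1224)*k4*k1*k3+(-1554)*k4*k1^2+(-306)*k4^3+(3072)*k2*c^2+
      (-5340)*k2*k3*c+(-6720)*k2*k1*c+(1836)*k2*k1*k3+(-28752)*k2*k1^2+(-1224)*k2*k4^2+
      (-918)*k2^2*k4) * heH2 +
    ((-30192)*u1*l+(-1056216)*u1*mu+(-154956)*u1*c+(-113448)*u1*k3+(-449088)*u1*k1+
      (910704)*u2*l+(249864)*u2*mu+(138372)*u2*c+(83802)*u2*k3+(169116)*u2*k1+(1049232)*u1*a*l+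
      (-235632)*u1*a*mu+(82812)*u1*c*a+(-68052)*u1*k3*a+(-163248)*u1*k1*a+(-172044)*u1*k4*l+
      (10068)*u1*k4*mu+(-6024)*u1*k4*c+(-1854)*u1*k4*k3+(-19032)*u1*k4*k1+(-24552)*u1*k2*c+
      (-28740)*u1*k2*k3+(-52080)*u1*k2*k1+(-727152)*u2*a*l+(-200400)*u2*a*mu+(-161268)*u2*c*a+
      (-119316)*u2*k3*a+(69984)*u2*k1*a+(36600)*u2*k4*l+(-13428)*u2*k4*mu+(-6252)*u2*k4*c+
      (25032)*u2*k4*k3+(28092)*u2*k4*k1+(12276)*u2*k2*c+(51918)*u2*k2*k3+(38556)*u2*k2*k1+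
      (-166656)*u1*mu^2*l+(-14160)*u1*mu^3+(25104)*u1*a^2*l+(-16992)*u1*a^2*mu+
      (23628)*u1*c*mu*l+(-3072)*u1*c^2*l+(-163140)*u1*k3*mu*l+(1416)*u1*k3*a^2+(1656)*u1*k3*c*l+
      (-199560)*u1*k1*mu*l+(-9468)*u1*k1*c*l+(-24420)*u1*k1*k3*l+(612)*u1*k1^2*c+
      (-1416)*u1*k4*a*mu+(612)*u1*k4*c*a+(-2754)*u1*k4^2*l+(2880)*u2*l^3+(6240)*u2*mu*l^2+
      (4800)*u2*a^2*l+(1440)*u2*a^2*mu+(79800)*u2*c*l^2+(-4392)*u2*c*mu*l+(45984)*u2*c*a^2+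
      (-33768)*u2*k3*l^2+(-1416)*u2*k3*mu*l+(-47664)*u2*k3*a^2+(1842)*u2*k3*c*l+
      (25032)*u2*k3^2*l+(16488)*u2*k1*mu*l+(-100488)*u2*k1*a^2+(32514)*u2*k1*c*l+
      (48840)*u2*k1*k3*l+(26892)*u2*k1^2*l+(-306)*u2*k1^2*c+(17904)*u2*k4*a*mu+(6864)*u2*k4*c*a+
      (306)*u2*k4*k1*a+(306)*u2*k4^2*l+(-2832)*u1*c*a*mu*l+(1416)*u1*k3*a*mu*l+
      (-1416)*u1*k4*mu^2*l+(306)*u1*k4*k1*c*l+(960)*u2*c*a*l^2+(480)*u2*c*a*mu*l) * b.b21100 +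
    ((-694)*u1+(18118)*u2+(-8524)*u1*a+(142)*u1*k4+(-2178)*u1*k2+(-23600)*u2*a+(2360)*u2*k4+
      (2320)*u2*k2+(-58512)*u1*mu*l+(14884)*u1*mu^2+(652)*u1*a^2+(-960)*u1*c*l+(1024)*u1*c*mu+
      (-204)*u1*k3*l+(-7122)*u1*k1*l+(-102)*u1*k4^2+(-2250)*u1*k2*k4+(-4092)*u1*k2^2+
      (-28544)*u2*l^2+(24944)*u2*mu*l+(-1464)*u2*mu^2+(2054)*u2*c*l+(824)*u2*k3*l+
      (-416)*u2*k3*mu+(102)*u2*k2*k4+(2046)*u2*k2^2+(-320)*u2*a*mu*l+(160)*u2*a*mu^2) * b.b30200 +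
    ((-174264)+(-94128)*a+(-68112)*k4+(3840)*l^2+(5760)*mu*l+(-3840)*mu^2+(-47808)*c*l+
      (2832)*c*mu+(-142656)*k3*l+(83616)*k3*mu+(3072)*k3*c+(-4296)*k3^2+(6096)*k1*c) * hH4 +
    ((60552)*u1*l+(120192)*u1*mu+(4248)*u1*c+(9672)*u1*k3+(55392)*u1*k1+(-243624)*u2*l+
      (-43080)*u2*mu+(-4248)*u2*c+(-10668)*u2*k3+(-29844)*u2*k1+(-142416)*u1*a*l+
      (31536)*u1*a*mu+(3072)*u1*c*a+(-4296)*u1*k3*a+(-6288)*u1*k1*a+(23244)*u1*k4*l+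
      (1452)*u1*k4*mu+(-612)*u1*k4*k3+(1224)*u1*k4*k1+(-1224)*u1*k2*k3+(145488)*u2*a*l+
      (58128)*u2*a*mu+(7320)*u2*c*a+(7980)*u2*k3*a+(5292)*u2*k1*a+(-1608)*u2*k4*l+
      (-612)*u2*k4*mu+(-612)*u2*k4*k1+(612)*u2*k2*k3+(34848)*u1*mu^2*l+(2832)*u1*mu^3+
      (-2832)*u1*a^2*l+(2832)*u1*a^2*mu+(3072)*u1*c*mu*l+(612)*u1*k4^2*l+(-960)*u2*l^3+
      (-480)*u2*mu*l^2+(-960)*u2*a^2*l+(-480)*u2*a^2*mu) * b.b40100 +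
    ((137472)+(8112)*a+(-10392)*k2) * hm7

theorem ind (b : B62 a mu l c k1 k2 k3 k4) {u1 u2 u3 u4 u5 : ℝ}
    (he2 : a*u2 + l*u5 + u1 - u2 = 0)
    (hH4 : a*u1 + mu*u4 + mu*u5 + l*u3 + l*u5 + u2 = 0)
    (heH2 : a*u1 + a*u2 + mu*u5 + l*u4 + l*u5 = 0)
    (her : l*u1 - u5 = 0)
    (heAt : -a*u5 + mu*u1 + l*u1 + l*u2 - u4 - 2*u5 = 0)
    (htH3 : -a*u4 - 3*a*u5 + mu*u1 + mu*u2 - l*c*u5 + l*u1 + l*u2 - u3 - u4 - 3*u5 = 0)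
    (hm7 : -a*u2 - 2*mu*u3 + 3*mu*u4 - l*c*u1 + l*u3 - 3*l*u4 + c*u5 + u2 = 0)
    : u1 = 0 ∧ u2 = 0 ∧ u3 = 0 ∧ u4 = 0 ∧ u5 = 0 := by
  obtain rfl : u5 = l * u1 := by linear_combination -her
  obtain rfl : u4 = -a*l*u1 + mu*u1 - l*u1 + l*u2 := by linear_combination -heAt
  obtain rfl : u3 = a^2*l*u1 - a*mu*u1 - a*l*u1 - a*l*u2 + mu*u2 - l^2*c*u1 - l*u1 := by linear_combination -htH3
  have k := ind0 b (u1 := u1) (u2 := u2) (by linear_combination he2) (by linear_combination hH4)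
    (by linear_combination heH2) (by linear_combination hm7)
  obtain rfl : u1 = 0 := (mul_eq_zero.1 k).resolve_right (by positivity)
  have k' : u2 * (1 + l ^ 2) = 0 := by linear_combination heH2 - he2
  obtain rfl : u2 = 0 := (mul_eq_zero.1 k').resolve_right (by positivity)
  simp

end Vale.Agent.P280Z.M2.Cb
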