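import Vale.Agent.P280Z.M2.B62
import Mathlib.LinearAlgebra.Matrix.Rank
import Mathlib.LinearAlgebra.Matrix.ToLinearEquiv

/-!
# P280Z, block M2: the chart `Y2 = 1`, the pairing matrix and the relations in degree five

`Q = Y2 ^ 2`, `C = c Y2`, `m = mu Y2`, `b = l Y2`, `Y3 = y3 Y2`, `Y4 = y4 Y2`.
-/

open Matrix

noncomputable section

namespace Vale.Agent.P280Z.M2

/-- the equations in the chart -/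
structure F62 (a m b Q C X2 X3 y3 X4 y4 X5 X6 z5 z6 : ℝ) : Prop where
  r3_02000 :
    2*a*X2^3 - 3*a*X2*X3 - 4*a*X2 - 2*m*Q + b*Q + 3*b*X2^2 - 3*b*X3 + 2*b - 3*Q*X2 - X2^3 + 6*X2 +
    2*X4 = 0
  r3_21000 :
    -3*a*Q*X2 + 5*a*X2^3 - 9*a*X2*X3 - 6*a*X2 + 2*a*X4 - 5*m*Q + 3*m*X2^2 - 3*m*X3 + 2*m + b*Q +
    9*b*X2^2 - 3*b*X2*y3 - 6*b*X3 - 2*b - 9*Q*X2 + 3*Q*y3 - X2^3 + 6*X2 + 2*X4 = 0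
  r3_40000 :
    -18*a*Q*X2 + 3*a*Q*y3 + 14*a*X2^3 - 27*a*X2*X3 - 12*a*X2 + 8*a*X4 - 17*m*Q + 15*m*X2^2 -
    3*m*X2*y3 - 12*m*X3 + 2*m + b*Q - 3*b*C*X2 + 27*b*X2^2 - 12*b*X2*y3 - 18*b*X3 + 2*b*y4 - 6*b +
    Q*C - 30*Q*X2 + 12*Q*y3 - 3*X2*X3 + 8*X2 + 4*X4 = 0
  r3_11100 :
    9*a*Q^2 - 3*a*Q*X2^2 + 3*a*Q*X3 - 2*a*Q - 2*m*Q*C - 15*m*Q*X2 + 6*m*Q*y3 + m*X2^3 - 3*m*X2*X3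
    + 2*m*X2 + 2*m*X4 + 6*b*Q*C + 3*b*Q*X2 - 3*b*Q*y3 + 3*b*X2^3 - 6*b*X2*X3 - 2*b*X2 + 2*b*X4 +
    3*Q^2 - 9*Q*X2^2 + 3*Q*X2*y3 + 6*Q*X3 + 2*Q = 0
  r3_20010 :
    13*a*Q^2 - 3*a*Q*X2^2 + 3*a*Q*X3 - 2*a*Q - 3*m*Q*C - 21*m*Q*X2 + 9*m*Q*y3 + m*X2^3 - 3*m*X2*X3
    + 2*m*X2 + 2*m*X4 + 9*b*Q*C + 6*b*Q*X2 - 6*b*Q*y3 + 4*b*X2^3 - 9*b*X2*X3 + 4*b*X4 + 4*Q^2 -
    12*Q*X2^2 + 3*Q*X2*y3 + 9*Q*X3 = 0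
  r3_30100 :
    30*a*Q^2 - 18*a*Q*X2^2 + 3*a*Q*X2*y3 + 15*a*Q*X3 - 4*a*Q - 4*m*Q*C - 51*m*Q*X2 + 21*m*Q*y3 +
    5*m*X2^3 - 12*m*X2*X3 + 2*m*X2 + 6*m*X4 + 18*b*Q*C + 3*b*Q*X2 - 6*b*Q*y3 - 3*b*C*X2^2 +
    3*b*C*X3 - 2*b*C + 9*b*X2^3 - 18*b*X2*X3 - 6*b*X2 + 6*b*X4 + 12*Q^2 + 3*Q*C*X2 - 30*Q*X2^2 +
    12*Q*X2*y3 + 21*Q*X3 - 2*Q*y4 + 4*Q = 0
  r3_01200 :
    8*a*Q^2*C + 108*a*Q^2*X2 - 48*a*Q^2*y3 - 4*a*Q*X2^3 + 12*a*Q*X2*X3 - 8*a*Q*X2 - 8*a*Q*X4 +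
    3*m*Q^2 - 3*m*Q*C^2 - 24*m*Q*C*X2 + 12*m*Q*C*y3 - 60*m*Q*X2^2 + 24*m*Q*X2*y3 + 36*m*Q*X3 +
    24*m*Q + 3*b*Q^2 + 7*b*Q*C^2 + 72*b*Q*C*X2 - 36*b*Q*C*y3 + 12*b*Q*X2^2 - 12*b*Q*X2*y3 - 24*b*Q
    - 2*Q^2*C + 36*Q^2*X2 - 12*Q^2*y3 - 12*Q*X2^3 + 24*Q*X2*X3 + 8*Q*X2 - 8*Q*X4 + z5 = 0
  r3_20200 :
    90*a*Q^2*X2 - 39*a*Q^2*y3 - 6*a*Q*X2^3 + 15*a*Q*X2*X3 - 4*a*Q*X2 - 8*a*Q*X4 - 12*m*Q*C*X2 +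
    9*m*Q*C*y3 - 51*m*Q*X2^2 + 21*m*Q*X2*y3 + 36*m*Q*X3 - 4*m*Q*y4 + 6*m*Q + 54*b*Q*C*X2 -
    27*b*Q*C*y3 + 3*b*Q*X2^2 - 6*b*Q*X2*y3 + 2*b*Q*y4 - 6*b*Q - b*C*X2^3 + 3*b*C*X2*X3 - 2*b*C*X2
    - 2*b*C*X4 + 36*Q^2*X2 - 12*Q^2*y3 + 3*Q*C*X2^2 - 3*Q*C*X3 + 2*Q*C - 10*Q*X2^3 + 21*Q*X2*X3 +
    4*Q*X2 - 8*Q*X4 + z5 = 0
  r3_10300 :
    -12*a*Q^2*C*y3 + 180*a*Q^2*X2^2 - 78*a*Q^2*X2*y3 - 126*a*Q^2*X3 + 16*a*Q^2*y4 - 24*a*Q^2 +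
    21*m*Q^2*y3 + 3*m*Q*C^2*y3 - 24*m*Q*C*X2^2 + 18*m*Q*C*X2*y3 + 12*m*Q*C*X3 - 4*m*Q*C*y4 +
    16*m*Q*C - 34*m*Q*X2^3 + 72*m*Q*X2*X3 + 12*m*Q*X2 - 28*m*Q*X4 + 3*b*Q^2*y3 - 9*b*Q*C^2*y3 +
    108*b*Q*C*X2^2 - 54*b*Q*C*X2*y3 - 72*b*Q*C*X3 + 12*b*Q*C*y4 - 24*b*Q*C + 2*b*Q*X2^3 -
    12*b*Q*X2 - 4*b*Q*X4 - 6*Q^2*C*y3 + 72*Q^2*X2^2 - 24*Q^2*X2*y3 - 54*Q^2*X3 + 4*Q^2*y4 +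
    2*Q*C*X2^3 - 6*Q*C*X2*X3 + 4*Q*C*X2 + 4*Q*C*X4 + 6*X2*z5 - 3*y3*z5 + 2*z6 = 0
  r4_11000 :
    -45*a*Q*X3 + 15*a*Q + 135*a*X2^2*X3 + 45*a*X2^2 - 90*a*X2*X4 - 90*a*X3^2 - 30*a*X3 - 160*a -
    90*m*Q*y3 + 90*m*X2*X3 - 30*m*X2 - 90*m*X4 + 45*b*Q*y3 + 45*b*X2^2*y3 + 180*b*X2*X3 + 30*b*X2
    - 90*b*X3*y3 + 30*b*y3 - 90*b*X4 - 90*Q*X2*y3 - 90*Q*X3 - 15*Q - 45*X2^2 - 90*X2*X4 + 90*X5 +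
    288 = 0
  r4_30000 :
    -90*a*Q*X2*y3 - 225*a*Q*X3 + 30*a*Q + 405*a*X2^2*X3 + 90*a*X2^2 - 360*a*X2*X4 - 270*a*X3^2 -
    90*a*X3 + 90*a*X5 - 192*a - 315*m*Q*y3 + 45*m*X2^2*y3 + 360*m*X2*X3 - 30*m*X2 - 90*m*X3*y3 +
    30*m*y3 - 270*m*X4 + 90*b*Q*y3 - 45*b*C*X3 + 15*b*C + 180*b*X2^2*y3 + 540*b*X2*X3 - 90*b*X2*y4
    + 90*b*X2 - 270*b*X3*y3 - 270*b*X4 - 360*Q*X2*y3 - 315*Q*X3 + 45*Q*y3^2 + 90*Q*y4 - 30*Q +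
    45*X2^2*X3 - 60*X2^2 - 180*X2*X4 - 45*X3^2 + 30*X3 + 180*X5 + 256 = 0
  r4_01100 :
    180*a*Q^2*y3 - 90*a*Q*X2*X3 + 30*a*Q*X2 + 90*a*Q*X4 - 45*m*Q*C*y3 - 180*m*Q*X2*y3 - 135*m*Q*X3
    + 45*m*Q*y3^2 - 45*m*Q + 45*m*X2^2*X3 - 15*m*X2^2 - 90*m*X2*X4 - 45*m*X3^2 + 30*m*X3 + 90*m*X5
    - 32*m + 135*b*Q*C*y3 + 90*b*Q*X2*y3 - 45*b*Q*y3^2 + 45*b*Q + 90*b*X2^2*X3 + 15*b*X2^2 -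
    90*b*X2*X4 - 45*b*X3^2 - 60*b*X3 + 160*b + 45*Q^2*y3 - 45*Q*X2^2*y3 - 180*Q*X2*X3 - 30*Q*X2 +
    90*Q*X3*y3 - 30*Q*y3 + 90*Q*X4 = 0
  r4_10010 :
    270*a*Q^2*y3 - 90*a*Q*X2*X3 + 30*a*Q*X2 + 90*a*Q*X4 - 90*m*Q*C*y3 - 270*m*Q*X2*y3 - 225*m*Q*X3
    + 45*m*Q*y3^2 + 90*m*Q*y4 - 15*m*Q + 45*m*X2^2*X3 - 15*m*X2^2 - 90*m*X2*X4 - 45*m*X3^2 +
    30*m*X3 + 90*m*X5 - 32*m + 225*b*Q*C*y3 + 180*b*Q*X2*y3 + 45*b*Q*X3 - 90*b*Q*y3^2 - 90*b*Q*y4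
    + 30*b*Q + 135*b*X2^2*X3 - 180*b*X2*X4 - 90*b*X3^2 - 30*b*X3 + 90*b*X5 + 128*b + 45*Q^2*y3 -
    45*Q*X2^2*y3 - 270*Q*X2*X3 + 90*Q*X3*y3 - 30*Q*y3 + 180*Q*X4 = 0
  r4_20100 :
    585*a*Q^2*y3 - 45*a*Q*X2^2*y3 - 450*a*Q*X2*X3 + 60*a*Q*X2 + 90*a*Q*X3*y3 - 30*a*Q*y3 +
    360*a*Q*X4 - 135*m*Q*C*y3 - 630*m*Q*X2*y3 - 540*m*Q*X3 + 135*m*Q*y3^2 + 180*m*Q*y4 - 45*m*Q +
    180*m*X2^2*X3 - 15*m*X2^2 - 270*m*X2*X4 - 135*m*X3^2 + 180*m*X5 + 96*m + 405*b*Q*C*y3 +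
    180*b*Q*X2*y3 - 90*b*Q*y3^2 - 90*b*Q*y4 + 45*b*Q - 90*b*C*X2*X3 + 30*b*C*X2 + 90*b*C*X4 +
    270*b*X2^2*X3 + 45*b*X2^2 - 270*b*X2*X4 - 180*b*X3^2 - 60*b*X3 + 90*b*X5 - 32*b + 180*Q^2*y3 +
    45*Q*C*X3 - 15*Q*C - 180*Q*X2^2*y3 - 630*Q*X2*X3 + 90*Q*X2*y4 - 60*Q*X2 + 270*Q*X3*y3 +
    360*Q*X4 = 0
  r4_10200 :
    180*a*Q^2*C*y3 + 2340*a*Q^2*X2*y3 + 1890*a*Q^2*X3 - 540*a*Q^2*y3^2 - 720*a*Q^2*y4 + 180*a*Q^2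
    - 450*a*Q*X2^2*X3 + 60*a*Q*X2^2 + 720*a*Q*X2*X4 + 360*a*Q*X3^2 - 60*a*Q*X3 - 540*a*Q*X5 -
    128*a*Q - 315*m*Q^2*y3 - 45*m*Q*C^2*y3 - 540*m*Q*C*X2*y3 - 180*m*Q*C*X3 + 180*m*Q*C*y3^2 +
    180*m*Q*C*y4 - 120*m*Q*C - 630*m*Q*X2^2*y3 - 2160*m*Q*X2*X3 + 360*m*Q*X2*y4 - 180*m*Q*X2 +
    900*m*Q*X3*y3 + 60*m*Q*y3 + 1260*m*Q*X4 - 45*b*Q^2*y3 + 135*b*Q*C^2*y3 + 1620*b*Q*C*X2*y3 +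
    1080*b*Q*C*X3 - 450*b*Q*C*y3^2 - 540*b*Q*C*y4 + 180*b*Q*C + 180*b*Q*X2^2*y3 - 180*b*Q*X2*y4 +
    180*b*Q*X2 - 180*b*Q*X3*y3 - 120*b*Q*y3 + 180*b*Q*X4 - 90*b*C*X2^2*X3 + 30*b*C*X2^2 +
    180*b*C*X2*X4 + 90*b*C*X3^2 - 60*b*C*X3 - 180*b*C*X5 + 64*b*C + 90*Q^2*C*y3 + 720*Q^2*X2*y3 +
    810*Q^2*X3 - 90*Q^2*y3^2 - 180*Q^2*y4 + 180*Q*C*X2*X3 - 60*Q*C*X2 - 180*Q*C*X4 - 630*Q*X2^2*X3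
    - 60*Q*X2^2 + 720*Q*X2*X4 + 450*Q*X3^2 + 60*Q*X3 - 360*Q*X5 + 128*Q + 45*y3*z5 = 0
  r5_01000 :
    45*a*Q*X2 - 60*a*Q*X4 + 45*a*X2^3 + 60*a*X2^2*X4 - 75*a*X2*X3 + 30*a*X2 - 60*a*X3*X4 - 50*a*X4
    - 45*m*Q - 45*m*X2^2 + 120*m*X2*X4 + 75*m*X3 - 120*m*X5 + 6*m + 45*b*Q + 45*b*X2^2 +
    75*b*X2*y3 + 120*b*X2*X4 - 150*b*X3 - 60*b*y3*X4 - 30*b - 45*Q*X2 - 75*Q*y3 - 60*Q*X4 -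
    45*X2^3 + 60*X2^2*X4 - 120*X2*X5 - 54*X2 + 150*X4 = 0
  r5_20000 :
    90*a*Q*X2 - 75*a*Q*y3 - 240*a*Q*X4 + 90*a*X2^3 + 240*a*X2^2*X4 - 225*a*X2*X3 - 120*a*X2*X5 +
    36*a*X2 - 180*a*X3*X4 - 120*m*Q*y4 - 45*m*Q - 45*m*X2^2 + 75*m*X2*y3 + 360*m*X2*X4 -
    60*m*y3*X4 - 240*m*X5 - 18*m + 60*b*Q*y4 + 45*b*Q + 45*b*C*X2 - 60*b*C*X4 + 60*b*X2^2*y4 +
    135*b*X2^2 + 360*b*X2*X4 - 60*b*X3*y4 - 150*b*X3 - 120*b*y3*X4 - 50*b*y4 - 120*b*X5 + 6*b -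
    15*Q*C - 120*Q*X2*y4 - 90*Q*X2 - 240*Q*X4 - 60*X2^3 + 120*X2^2*X4 + 75*X2*X3 - 240*X2*X5 -
    48*X2 - 60*X3*X4 + 100*X4 + 120*X6 = 0
  r5_00010 :
    120*a*Q^2*y4 + 45*a*Q^2 + 45*a*Q*X2^2 - 120*a*Q*X2*X4 - 75*a*Q*X3 + 120*a*Q*X5 - 6*a*Q -
    60*m*Q*C*y4 - 15*m*Q*C - 120*m*Q*X2*y4 - 45*m*Q*X2 + 75*m*Q*y3 - 180*m*Q*X4 - 15*m*X2^3 +
    60*m*X2^2*X4 + 75*m*X2*X3 - 120*m*X2*X5 + 6*m*X2 - 60*m*X3*X4 - 50*m*X4 + 120*m*X6 +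
    120*b*Q*C*y4 + 45*b*Q*C + 120*b*Q*X2*y4 + 90*b*Q*X2 - 60*b*Q*y3*y4 - 150*b*Q*y3 +
    120*b*X2^2*X4 - 75*b*X2*X3 - 120*b*X2*X5 - 24*b*X2 - 60*b*X3*X4 + 100*b*X4 - 75*Q*X2*y3 -
    240*Q*X2*X4 + 75*Q*X3 + 60*Q*y3*X4 + 120*Q*X5 + 24*Q = 0
  r5_10100 :
    240*a*Q^2*y4 + 90*a*Q^2 + 90*a*Q*X2^2 - 75*a*Q*X2*y3 - 480*a*Q*X2*X4 - 75*a*Q*X3 +
    60*a*Q*y3*X4 + 360*a*Q*X5 + 12*a*Q - 60*m*Q*C*y4 - 60*m*Q*C - 240*m*Q*X2*y4 - 135*m*Q*X2 +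
    60*m*Q*y3*y4 + 75*m*Q*y3 - 420*m*Q*X4 - 15*m*X2^3 + 180*m*X2^2*X4 - 240*m*X2*X5 - 18*m*X2 -
    120*m*X3*X4 + 50*m*X4 + 120*m*X6 + 180*b*Q*C*y4 + 90*b*Q*C + 120*b*Q*X2*y4 + 135*b*Q*X2 -
    60*b*Q*y3*y4 - 150*b*Q*y3 - 60*b*Q*X4 + 45*b*C*X2^2 - 120*b*C*X2*X4 - 75*b*C*X3 + 120*b*C*X5 -
    6*b*C + 45*b*X2^3 + 180*b*X2^2*X4 - 150*b*X2*X3 - 120*b*X2*X5 + 6*b*X2 - 120*b*X3*X4 + 50*b*X4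
    + 60*Q^2*y4 - 45*Q*C*X2 + 60*Q*C*X4 - 60*Q*X2^2*y4 - 90*Q*X2^2 - 480*Q*X2*X4 + 60*Q*X3*y4 +
    75*Q*X3 + 120*Q*y3*X4 + 50*Q*y4 + 240*Q*X5 - 12*Q = 0
  r5_00200 :
    120*a*Q^2*C + 480*a*Q^2*X2*y4 + 270*a*Q^2*X2 - 120*a*Q^2*y3*y4 - 225*a*Q^2*y3 + 720*a*Q^2*X4 +
    30*a*Q*X2^3 - 240*a*Q*X2^2*X4 - 75*a*Q*X2*X3 + 360*a*Q*X2*X5 + 12*a*Q*X2 + 180*a*Q*X3*X4 -
    240*a*Q*X6 - 255*m*Q^2*y4 + 45*m*Q^2 + 15*m*Q*C^2*y4 - 45*m*Q*C^2 - 120*m*Q*C*X2*y4 -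
    180*m*Q*C*X2 + 60*m*Q*C*y3*y4 + 75*m*Q*C*y3 - 120*m*Q*X2^2*y4 - 135*m*Q*X2^2 + 75*m*Q*X2*y3 -
    840*m*Q*X2*X4 + 120*m*Q*X3*y4 + 180*m*Q*y3*X4 + 100*m*Q*y4 + 480*m*Q*X5 - 54*m*Q - 75*b*Q^2*y4
    + 45*b*Q^2 - 15*b*Q*C^2*y4 + 105*b*Q*C^2 + 360*b*Q*C*X2*y4 + 270*b*Q*C*X2 - 120*b*Q*C*y3*y4 -
    225*b*Q*C*y3 + 360*b*Q*C*X4 + 60*b*Q*X2^2*y4 + 135*b*Q*X2^2 - 150*b*Q*X2*y3 - 120*b*Q*X2*X4 -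
    60*b*Q*X3*y4 - 50*b*Q*y4 + 120*b*Q*X5 + 54*b*Q + 15*b*C*X2^3 - 60*b*C*X2^2*X4 - 75*b*C*X2*X3 +
    120*b*C*X2*X5 - 6*b*C*X2 + 60*b*C*X3*X4 + 50*b*C*X4 - 120*b*C*X6 + 90*Q^2*C*y4 - 30*Q^2*C +
    120*Q^2*X2*y4 + 360*Q^2*X4 - 45*Q*C*X2^2 + 120*Q*C*X2*X4 + 75*Q*C*X3 - 120*Q*C*X5 + 6*Q*C -
    30*Q*X2^3 - 240*Q*X2^2*X4 + 75*Q*X2*X3 + 240*Q*X2*X5 - 12*Q*X2 + 180*Q*X3*X4 - 120*Q*X6 +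
    15*y4*z5 = 0
  r6_10000 :
    90*a*Q*X2*y3 + 45*a*Q*X3 - 270*a*Q*X5 - 54*a*Q + 135*a*X2^2*X3 + 90*a*X2^2*X5 - 162*a*X2^2 -
    90*a*X3^2 - 90*a*X3*X5 + 42*a*X3 - 150*a*X5 + 320*a - 45*m*Q*y3 - 45*m*X2^2*y3 + 360*m*X2*X5 +
    162*m*X2 + 90*m*X3*y3 - 90*m*y3*X5 + 42*m*y3 - 150*m*X4 - 180*m*X6 + 90*b*Q*y3 + 45*b*C*X3 -
    90*b*C*X5 + 27*b*C + 180*b*X2*X3 + 150*b*X2*y4 + 180*b*X2*X5 - 54*b*X2 - 90*b*X3*y3 -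
    90*b*y3*X5 - 168*b*y3 - 150*b*X4 - 45*Q*X3 - 45*Q*y3^2 - 150*Q*y4 - 180*Q*X5 + 54*Q -
    45*X2^2*X3 + 180*X2^2*X5 + 216*X2^2 - 300*X2*X4 - 180*X2*X6 + 45*X3^2 - 90*X3*X5 + 42*X3 +
    300*X5 - 640 = 0
  r6_00100 :
    135*a*Q^2*y3 + 45*a*Q*X2^2*y3 + 90*a*Q*X2*X3 - 540*a*Q*X2*X5 - 108*a*Q*X2 - 90*a*Q*X3*y3 +
    90*a*Q*y3*X5 - 42*a*Q*y3 + 360*a*Q*X6 - 45*m*Q*C*y3 - 90*m*Q*X2*y3 + 45*m*Q*y3^2 - 300*m*Q*y4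
    - 360*m*Q*X5 + 243*m*Q + 180*m*X2^2*X5 + 81*m*X2^2 - 150*m*X2*X4 - 180*m*X2*X6 - 45*m*X3^2 -
    90*m*X3*X5 - 168*m*X3 + 300*m*X5 + 160*m + 135*b*Q*C*y3 + 180*b*Q*X2*y3 - 90*b*Q*y3^2 +
    150*b*Q*y4 - 90*b*Q*X5 - 243*b*Q + 90*b*C*X2*X3 - 180*b*C*X2*X5 + 54*b*C*X2 - 150*b*C*X4 +
    180*b*C*X6 + 90*b*X2^2*X3 + 90*b*X2^2*X5 - 27*b*X2^2 - 150*b*X2*X4 - 90*b*X3*X5 + 252*b*X3 -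
    150*b*X5 - 480*b - 45*Q*C*X3 + 90*Q*C*X5 - 27*Q*C - 90*Q*X2*X3 - 150*Q*X2*y4 - 360*Q*X2*X5 +
    108*Q*X2 + 90*Q*X3*y3 + 90*Q*y3*X5 + 168*Q*y3 + 180*Q*X6 = 0
  r7_00000 :
    126*a*Q*X2 + 147*a*Q*y3 - 288*a*Q*X6 + 126*a*X2^3 - 147*a*X2*X3 + 360*a*X2*X5 - 92*a*X2 -
    120*a*X3*X4 - 776*a*X4 + 240*m*Q*y4 - 189*m*Q - 189*m*X2^2 - 147*m*X2*y3 + 240*m*X2*X4 +
    288*m*X2*X6 + 588*m*X3 + 120*m*y3*X4 - 144*m*y3*X6 - 720*m*X5 - 46*m - 120*b*Q*y4 + 189*b*Q -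
    63*b*C*X2 + 120*b*C*X4 - 144*b*C*X6 - 120*b*X2^2*y4 + 63*b*X2^2 + 588*b*X2*y3 + 240*b*X2*X4 +
    120*b*X3*y4 - 882*b*X3 - 240*b*y3*X4 + 194*b*y4 + 360*b*X5 + 138*b + 21*Q*C + 240*Q*X2*y4 -
    126*Q*X2 - 588*Q*y3 - 144*Q*X6 - 168*X2^3 + 240*X2^2*X4 + 144*X2^2*X6 - 147*X2*X3 - 720*X2*X5
    + 184*X2 + 120*X3*X4 - 144*X3*X6 + 1940*X4 - 384*X6 = 0

theorem f62 {a mu l c X2 Y2 X3 y3 X4 y4 X5 X6 z5 z6 : ℝ}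
    (h : E62 a mu l c 0 X2 Y2 X3 (y3 * Y2) X4 (y4 * Y2) X5 X6 z5 z6) :
    F62 a (mu * Y2) (l * Y2) (Y2 ^ 2) (c * Y2) X2 X3 y3 X4 y4 X5 X6 (z5 * Y2 ^ 5) (z6 * Y2 ^ 6) :=
  ⟨by linear_combination Y2 ^ 0 * h.r3_02000,
    by linear_combination Y2 ^ 0 * h.r3_21000,
    by linear_combination Y2 ^ 0 * h.r3_40000,
    by linear_combination Y2 ^ 1 * h.r3_11100,
    by linear_combination Y2 ^ 1 * h.r3_20010,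
    by linear_combination Y2 ^ 1 * h.r3_30100,
    by linear_combination Y2 ^ 2 * h.r3_01200,
    by linear_combination Y2 ^ 2 * h.r3_20200,
    by linear_combination Y2 ^ 3 * h.r3_10300,
    by linear_combination Y2 ^ 0 * h.r4_11000,
    by linear_combination Y2 ^ 0 * h.r4_30000,
    by linear_combination Y2 ^ 1 * h.r4_01100,
    by linear_combination Y2 ^ 1 * h.r4_10010,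
    by linear_combination Y2 ^ 1 * h.r4_20100,
    by linear_combination Y2 ^ 2 * h.r4_10200,
    by linear_combination Y2 ^ 0 * h.r5_01000,
    by linear_combination Y2 ^ 0 * h.r5_20000,
    by linear_combination Y2 ^ 1 * h.r5_00010,
    by linear_combination Y2 ^ 1 * h.r5_10100,
    by linear_combination Y2 ^ 2 * h.r5_00200,
    by linear_combination Y2 ^ 0 * h.r6_10000,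
    by linear_combination Y2 ^ 1 * h.r6_00100,
    by linear_combination Y2 ^ 0 * h.r7_00000⟩

/-- the pairing of `A ^ 2, A t, e, r, t ^ 2` with `A3t2 A4t A5 A2et A3e e2t Ae2` -/
def Pm (a m b Q C : ℝ) : Matrix (Fin 5) (Fin 7) ℝ :=
  !![-6*a*Q - b*C - 10*Q, 5*m + 9*b, 14*a, m + 3*b, 5*a - 1, b, 2*a - 1;
    -17*m*Q + b*Q + Q*C, -6*a*Q - b*C - 10*Q, 5*m + 9*b, -a*Q - 3*Q, m + 3*b, -Q, b;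
    -a*Q - 3*Q, m + 3*b, 5*a - 1, b, 2*a - 1, 0, a - 1;
    -7*m*Q + 2*b*Q, -a*Q - 4*Q, m + 4*b, -Q, b, 0, 0;
    30*a*Q^2 - 4*m*Q*C + 18*b*Q*C + 12*Q^2, -17*m*Q + b*Q + Q*C, -6*a*Q - b*C - 10*Q, -5*m*Q +
    b*Q, -a*Q - 3*Q, -2*m*Q + b*Q, -Q]

/-- the relation number 0 in degree five -/
def Vc0 (Q C X2 X3 y3 X4 y4 X5 X6 : ℝ) : Fin 7 → ℝ :=
  ![C + 2*X2 - y3,
    -6*Q - 6*X2^2 + 6*X3 - 4,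
    5*Q*C + 8*Q*X2 - Q*y3 - 2*X2^3 + 6*X2*X3 - 4*X2 - 4*X4,
    24*Q + 24*X2^2 + 6*X2*y3 - 30*X3 + 32,
    -16*Q*C - 24*Q*X2 - 6*Q*y3 + 8*X2^3 - 30*X2*X3 + 32*X2 + 24*X4,
    -12*Q + C^2 + 8*C*X2 - C*y3 - 18*X2*y3 + 24*X3 - 4*y4 - 64,
    8*Q*C + 16*Q*X2 + 16*Q*y3 + 24*X2*X3 - 64*X2 - 32*X4]

/-- the relation number 1 in degree five -/
def Vc1 (Q C X2 X3 y3 X4 y4 X5 X6 : ℝ) : Fin 7 → ℝ :=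
  ![8*Q - C^2 - 6*C*X2 - 3*C*y3 - 12*X2*y3 + 8*y4,
    30*Q*C + 72*Q*X2 - 18*C*X2^2 + 18*C*X3 - 12*C - 24*X2^3 + 72*X2*X3 - 48*X2 - 48*X4,
    -16*Q^2 - 13*Q*C^2 + 12*Q*C*X2 - 75*Q*C*y3 + 72*Q*X2^2 - 156*Q*X2*y3 - 72*Q*X3 + 104*Q*y4 +
    48*Q - 6*C*X2^3 + 18*C*X2*X3 - 12*C*X2 - 12*C*X4,
    -96*Q*C - 144*Q*X2 - 72*Q*y3 + 18*C*X2*y3 - 18*C*X3 + 48*C + 48*X2^3 - 216*X2*X3 + 288*X2 +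
    192*X4,
    48*Q^2 + 48*Q*C^2 + 270*Q*C*y3 - 144*Q*X2^2 + 504*Q*X2*y3 + 216*Q*X3 - 384*Q*y4 - 288*Q -
    18*C*X2*X3 + 48*C*X2 + 24*C*X4,
    20*Q*C + 72*Q*y3 - C^3 + 12*C^2*X2 - 3*C^2*y3 + 72*C*X2^2 + 6*C*X2*y3 - 72*C*X3 - 4*C*y4 +
    48*C + 48*X2^3 - 288*X2 - 96*X4,
    -32*Q^2 - 32*Q*C^2 - 48*Q*C*X2 - 168*Q*C*y3 - 240*Q*X2*y3 - 144*Q*X3 + 256*Q*y4 + 384*Q]

/-- the relation number 2 in degree five -/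
def Vc2 (Q C X2 X3 y3 X4 y4 X5 X6 : ℝ) : Fin 7 → ℝ :=
  ![15*C*y3 - 90*X2*y3 + 120*X3 + 75*y3^2 - 60*y4 + 20,
    90*Q*y3 - 270*X2^2*y3 + 360*X2*X3 - 120*X2 + 270*X3*y3 - 180*y3 - 360*X4,
    15*Q*C*y3 + 180*Q*X2*y3 - 60*Q*X3 - 105*Q*y3^2 - 60*Q*y4 + 80*Q - 90*X2^3*y3 + 180*X2^2*X3 -
    60*X2^2 + 270*X2*X3*y3 - 180*X2*y3 - 360*X2*X4 - 180*X3^2 + 120*X3 - 180*y3*X4 + 360*X5 - 128,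
    -180*Q*y3 + 180*X2^2*y3 - 360*X2*X3 + 270*X2*y3^2 + 480*X2 - 630*X3*y3 + 840*y3 + 720*X4,
    -360*Q*X2*y3 + 180*Q*X3 + 450*Q*y3^2 - 240*Q - 180*X2^2*X3 + 240*X2^2 - 270*X2*X3*y3 +
    720*X2*y3 + 720*X2*X4 + 360*X3^2 - 600*X3 + 360*y3*X4 - 1080*X5 + 1024,
    15*C^2*y3 + 180*C*X2*y3 - 60*C*X3 + 75*C*y3^2 - 60*C*y4 + 80*C + 180*X2^2*y3 + 270*X2*y3^2 -
    360*X2*y4 - 180*y3*y4 - 360*y3,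
    -60*Q*C*y3 - 120*Q*X3 - 300*Q*y3^2 + 240*Q*y4 + 160*Q - 180*X3^2 + 480*X3 + 360*X5 - 2048]

/-- the relation number 3 in degree five -/
def Vc3 (Q C X2 X3 y3 X4 y4 X5 X6 : ℝ) : Fin 7 → ℝ :=
  ![120*Q*y3 - 15*C^2*y3 - 150*C*X2*y3 - 90*C*X3 + 135*C*y3^2 + 60*C*y4 + 120*C + 360*X2^2*y3 -
    660*X2*X3 - 1080*X2*y3^2 + 840*X2*y4 + 160*X2 + 1050*X3*y3 + 540*y3^3 - 660*y3*y4 + 160*y3 -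
    480*X4,
    450*Q*C*y3 + 720*Q*X2*y3 + 540*Q*X3 + 360*Q*y3^2 - 1800*Q*y4 - 720*Q - 270*C*X2^2*y3 +
    270*C*X3*y3 - 180*C*y3 + 720*X2^3*y3 - 900*X2^2*X3 - 1080*X2^2*y3^2 + 1080*X2^2*y4 - 240*X2^2
    - 1440*X2*X4 + 900*X3^2 + 1080*X3*y3^2 - 1080*X3*y4 - 600*X3 - 720*y3^2 - 720*y3*X4 + 720*y4 +
    1440*X5 - 512,
    -240*Q^2*y3 - 195*Q*C^2*y3 + 120*Q*C*X2*y3 - 450*Q*C*X3 - 225*Q*C*y3^2 + 780*Q*C*y4 + 600*Q*C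
    + 360*Q*X2^2*y3 - 480*Q*X2*X3 - 240*Q*X2*y4 + 640*Q*X2 - 30*Q*X3*y3 + 540*Q*y3^3 - 660*Q*y3*y4
    + 880*Q*y3 + 960*Q*X4 - 90*C*X2^3*y3 + 270*C*X2*X3*y3 - 180*C*X2*y3 - 180*C*y3*X4 +
    360*X2^4*y3 - 540*X2^3*X3 - 360*X2^3*y3^2 + 360*X2^3*y4 - 1080*X2^2*X3*y3 + 720*X2^2*y3 +
    1620*X2*X3^2 + 1080*X2*X3*y3^2 - 1080*X2*X3*y4 - 1080*X2*X3 - 720*X2*y3^2 + 720*X2*y3*X4 +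
    720*X2*y4 - 1080*X3*X4 - 720*y3^2*X4 + 720*X4*y4,
    -1440*Q*C*y3 - 1440*Q*X2*y3 - 2160*Q*X3 - 1080*Q*y3^2 + 5760*Q*y4 + 2880*Q + 270*C*X2*y3^2 -
    270*C*X3*y3 + 720*C*y3 - 720*X2^2*X3 - 1080*X2^2*y3^2 + 960*X2^2 + 1620*X2*X3*y3 +
    1080*X2*y3^3 - 1080*X2*y3*y4 + 2880*X2*X4 - 180*X3^2 - 1080*X3*y3^2 + 1080*X3*y4 + 1920*X3 +
    2880*y3^2 + 1440*y3*X4 - 2880*y4 - 4320*X5 + 4096,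
    720*Q^2*y3 + 720*Q*C^2*y3 + 1440*Q*C*X3 + 1170*Q*C*y3^2 - 2880*Q*C*y4 - 1920*Q*C -
    720*Q*X2^2*y3 + 1440*Q*X2*X3 - 1920*Q*X2 + 900*Q*X3*y3 - 1080*Q*y3^3 + 1080*Q*y3*y4 -
    3360*Q*y3 - 2880*Q*X4 - 270*C*X2*X3*y3 + 720*C*X2*y3 + 360*C*y3*X4 + 1080*X2^2*X3*y3 -
    2880*X2^2*y3 - 1620*X2*X3^2 - 1080*X2*X3*y3^2 + 1080*X2*X3*y4 + 4320*X2*X3 + 2880*X2*y3^2 -
    1440*X2*y3*X4 - 2880*X2*y4 + 2160*X3*X4 + 1440*y3^2*X4 - 1440*X4*y4,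
    300*Q*C*y3 + 1080*Q*X3 + 360*Q*y3^2 - 2160*Q*y4 - 1440*Q - 15*C^3*y3 + 120*C^2*X2*y3 -
    90*C^2*X3 + 135*C^2*y3^2 + 60*C^2*y4 + 120*C^2 + 360*C*X2^2*y3 - 480*C*X2*X3 + 270*C*X2*y3^2 -
    240*C*X2*y4 + 640*C*X2 - 30*C*X3*y3 + 540*C*y3^3 - 840*C*y3*y4 + 880*C*y3 + 960*C*X4 -
    1080*X2^2*y3^2 + 1620*X2*X3*y3 + 1080*X2*y3^3 - 360*X2*y3*y4 - 720*X3^2 - 1080*X3*y4 + 1920*X3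
    - 720*y3^2*y4 + 720*y4^2 + 1440*X5 - 8192,
    -480*Q^2*y3 - 480*Q*C^2*y3 - 480*Q*C*X2*y3 - 720*Q*C*X3 - 1080*Q*C*y3^2 + 1920*Q*C*y4 +
    960*Q*C - 960*Q*X2*X3 + 960*Q*X2*y4 + 1280*Q*X2 - 1680*Q*X3*y3 + 480*Q*y3*y4 + 3200*Q*y3 +
    1920*Q*X4]

/-- the relation number 4 in degree five -/
def Vc4 (Q C X2 X3 y3 X4 y4 X5 X6 : ℝ) : Fin 7 → ℝ :=
  ![-5*C*y4 + 15*C - 50*X2*y4 + 30*X2 + 25*y3*y4 - 25*y3 + 40*X4,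
    150*Q*y4 - 90*Q - 90*X2^2*y4 - 90*X2^2 + 240*X2*X4 + 90*X3*y4 + 150*X3 - 60*y4 - 240*X5 + 12,
    -65*Q*C*y4 + 75*Q*C + 40*Q*X2*y4 + 120*Q*X2 - 95*Q*y3*y4 - 25*Q*y3 - 80*Q*X4 - 30*X2^3*y4 -
    30*X2^3 + 120*X2^2*X4 + 90*X2*X3*y4 + 150*X2*X3 - 60*X2*y4 - 240*X2*X5 + 12*X2 - 120*X3*X4 -
    60*X4*y4 - 100*X4 + 240*X6,
    -480*Q*y4 + 360*Q + 360*X2^2 + 90*X2*y3*y4 + 150*X2*y3 - 480*X2*X4 - 90*X3*y4 - 750*X3 -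
    120*y3*X4 + 240*y4 + 720*X5 - 96,
    240*Q*C*y4 - 240*Q*C - 360*Q*X2 + 390*Q*y3*y4 - 150*Q*y3 + 240*Q*X4 + 120*X2^3 - 240*X2^2*X4 -
    90*X2*X3*y4 - 750*X2*X3 + 240*X2*y4 + 720*X2*X5 - 96*X2 + 360*X3*X4 + 120*X4*y4 + 600*X4 -
    960*X6,
    180*Q*y4 - 180*Q - 5*C^2*y4 + 15*C^2 + 40*C*X2*y4 + 120*C*X2 + 25*C*y3*y4 - 25*C*y3 - 80*C*X4
    + 120*X2^2*y4 + 90*X2*y3*y4 - 450*X2*y3 - 120*X3*y4 + 600*X3 + 120*y3*X4 - 60*y4^2 - 100*y4 -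
    240*X5 + 192,
    -160*Q*C*y4 + 120*Q*C - 160*Q*X2*y4 + 240*Q*X2 - 280*Q*y3*y4 + 400*Q*y3 - 160*Q*X4 + 600*X2*X3
    - 240*X2*X5 + 192*X2 - 240*X3*X4 - 800*X4 + 720*X6]

variable {a m b Q C X2 X3 y3 X4 y4 X5 X6 z5 z6 : ℝ}

theorem pv0 (h : F62 a m b Q C X2 X3 y3 X4 y4 X5 X6 z5 z6) :
    Pm a m b Q C *ᵥ Vc0 Q C X2 X3 y3 X4 y4 X5 X6 = 0 := by
  funext i
  fin_cases i <;>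
    simp only [Pm, Vc0, mulVec, dotProduct, Fin.sum_univ_succ, Fin.sum_univ_zero, of_apply,
      cons_val', cons_val_zero, cons_val_succ, Fin.zero_eta, Fin.mk_one, Fin.reduceFinMk,
      cons_val_one, cons_val, Pi.zero_apply, cons_val_fin_one]
  · linear_combination
      (8) * h.r3_21000 + (-2) * h.r3_40000
  · linear_combination
      (8) * h.r3_11100 + (-2) * h.r3_30100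
  · linear_combination
      (8) * h.r3_02000 + (-2) * h.r3_21000
  · linear_combination
      (6) * h.r3_20010 + (-8) * h.r3_11100
  · linear_combination
      (2) * h.r3_01200 + (-2) * h.r3_20200

theorem pv1 (h : F62 a m b Q C X2 X3 y3 X4 y4 X5 X6 z5 z6) :
    Pm a m b Q C *ᵥ Vc1 Q C X2 X3 y3 X4 y4 X5 X6 = 0 := by
  funext i
  fin_cases i <;>
    simp only [Pm, Vc1, mulVec, dotProduct, Fin.sum_univ_succ, Fin.sum_univ_zero, of_apply,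
      cons_val', cons_val_zero, cons_val_succ, Fin.zero_eta, Fin.mk_one, Fin.reduceFinMk,
      cons_val_one, cons_val, Pi.zero_apply, cons_val_fin_one]
  · linear_combination
      (48) * h.r3_20010 + (-24) * h.r3_30100 + (-6*C) * h.r3_40000
  · linear_combination
      (24*Q) * h.r3_40000 + (-48*Q) * h.r3_21000 + (24*C) * h.r3_20010 + (-24*C) * h.r3_11100 +
      (-6*C) * h.r3_30100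
  · linear_combination
      (48) * h.r3_20010 + (-72) * h.r3_11100 + (-6*C) * h.r3_21000
  · linear_combination
      (12) * h.r3_01200 + (36*Q) * h.r3_40000 + (-120*Q) * h.r3_21000 + (48*Q) * h.r3_02000 +
      (-18*C) * h.r3_20010 + (-12) * h.r3_20200 + (12*C) * h.r3_11100
  · linear_combination
      (24*Q) * h.r3_30100 + (-48*Q - 12*C^2) * h.r3_11100 + (-6*C) * h.r3_01200 + (6*C) *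
      h.r3_20200 + (12*Q*C) * h.r3_40000 + (-24*Q*C) * h.r3_21000 + (12*C^2) * h.r3_20010

theorem pv2 (h : F62 a m b Q C X2 X3 y3 X4 y4 X5 X6 z5 z6) :
    Pm a m b Q C *ᵥ Vc2 Q C X2 X3 y3 X4 y4 X5 X6 = 0 := by
  funext i
  fin_cases i <;>
    simp only [Pm, Vc2, mulVec, dotProduct, Fin.sum_univ_succ, Fin.sum_univ_zero, of_apply,
      cons_val', cons_val_zero, cons_val_succ, Fin.zero_eta, Fin.mk_one, Fin.reduceFinMk,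
      cons_val_one, cons_val, Pi.zero_apply, cons_val_fin_one]
  · linear_combination
      (4) * h.r4_30000 + (-90*y3) * h.r3_40000
  · linear_combination
      (4) * h.r4_20100 + (-90*y3) * h.r3_30100
  · linear_combination
      (4) * h.r4_11000 + (-90*y3) * h.r3_21000
  · linear_combination
      (4) * h.r4_10010 + (-90*y3) * h.r3_20010
  · linear_combination
      (2) * h.r4_10200 + (-90*y3) * h.r3_20200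

theorem pv3 (h : F62 a m b Q C X2 X3 y3 X4 y4 X5 X6 z5 z6) :
    Pm a m b Q C *ᵥ Vc3 Q C X2 X3 y3 X4 y4 X5 X6 = 0 := by
  funext i
  fin_cases i <;>
    simp only [Pm, Vc3, mulVec, dotProduct, Fin.sum_univ_succ, Fin.sum_univ_zero, of_apply,
      cons_val', cons_val_zero, cons_val_succ, Fin.zero_eta, Fin.mk_one, Fin.reduceFinMk,
      cons_val_one, cons_val, Pi.zero_apply, cons_val_fin_one]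
  · linear_combination
      (16) * h.r4_20100 + (-360*y3) * h.r3_30100 + (-90*C*y3 + 360*X2*y3 - 540*X3 - 360*y3^2 +
      360*y4) * h.r3_40000
  · linear_combination
      (8) * h.r4_10200 + (-360*y3) * h.r3_20200 + (-90*C*y3 + 360*X2*y3 - 540*X3 - 360*y3^2 +
      360*y4) * h.r3_30100
  · linear_combination
      (16) * h.r4_01100 + (-360*y3) * h.r3_11100 + (-90*C*y3 + 360*X2*y3 - 540*X3 - 360*y3^2 +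
      360*y4) * h.r3_21000
  · linear_combination
      (4) * h.r4_10200 + (8*Q) * h.r4_30000 + (-16*Q) * h.r4_11000 + (8*C) * h.r4_10010 + (-8*C) *
      h.r4_01100 + (-270*C*y3 + 360*X2*y3 - 540*X3 - 360*y3^2 + 360*y4) * h.r3_20010 + (-180*y3) *
      h.r3_20200 + (-180*Q*y3) * h.r3_40000 + (360*Q*y3) * h.r3_21000 + (180*C*y3) * h.r3_11100
  · linear_combination
      (180*Q*C*y3 + 720*Q*X2*y3 - 720*Q*y3^2 - 720*Q*y4 + 720*X2^2*X3 - 240*X2^2 - 1440*X2*X4 -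
      720*X3^2 + 480*X3 + 1440*X5 - 512) * h.r3_40000 + (-360*Q*C*y3 - 1440*Q*X2*y3 + 2160*Q*y3^2
      + 1440*Q*y4 - 720*X2^2*X3 + 960*X2^2 + 2880*X2*X4 + 1440*X3^2 - 2400*X3 - 4320*X5 + 4096) *
      h.r3_21000 + (-720*Q*y3^2 - 720*X3^2 + 1920*X3 + 1440*X5 - 8192) * h.r3_02000 + (180*C^2*y3
      + 720*C*X2*y3 - 720*C*y4 + 720*X2^2*y3 - 1440*X2*y4 - 1440*y3) * h.r3_20010 + (-720*Q*y3 -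
      180*C^2*y3 - 720*C*X2*y3 + 720*C*y4 - 1440*X2*X3 + 1440*X2*y4 + 1920*X2 - 1440*X3*y3 +
      1920*y3 + 2880*X4) * h.r3_11100 + (360*Q*y3 + 1440*X2*X3 - 480*X2 - 1440*X4) * h.r3_30100 +
      (-90*C*y3 - 180*X3 - 180*y3^2 + 360*y4 + 240) * h.r3_01200 + (90*C*y3 + 1080*X2*y3 + 180*X3
      - 360*y3^2 - 360*y4 - 240) * h.r3_20200 + (24*Q*y3 - 16*X2^3 + 48*X2*X3 - 32*X2 - 32*X4) *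
      h.r4_30000 + (-48*Q*y3 - 48*X2*X3 + 128*X2 + 64*X4) * h.r4_11000 + (24*C*y3 + 48*X2*y3 -
      32*y4) * h.r4_10010 + (-24*C*y3 - 48*X3 + 32*y4 + 128) * h.r4_01100 + (-48*X2^2 + 48*X3 -
      32) * h.r4_20100 + (-24*X2 + 12*y3) * h.r4_10200

theorem pv4 (h : F62 a m b Q C X2 X3 y3 X4 y4 X5 X6 z5 z6) :
    Pm a m b Q C *ᵥ Vc4 Q C X2 X3 y3 X4 y4 X5 X6 = 0 := by
  funext i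
  fin_cases i <;>
    simp only [Pm, Vc4, mulVec, dotProduct, Fin.sum_univ_succ, Fin.sum_univ_zero, of_apply,
      cons_val', cons_val_zero, cons_val_succ, Fin.zero_eta, Fin.mk_one, Fin.reduceFinMk,
      cons_val_one, cons_val, Pi.zero_apply, cons_val_fin_one]
  · linear_combination
      (2) * h.r5_20000 + (-30*y4) * h.r3_40000
  · linear_combination
      (2) * h.r5_10100 + (-30*y4) * h.r3_30100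
  · linear_combination
      (2) * h.r5_01000 + (-30*y4) * h.r3_21000
  · linear_combination
      (2) * h.r5_00010 + (-30*y4) * h.r3_20010
  · linear_combination
      (2) * h.r5_00200 + (-30*y4) * h.r3_20200

end Vale.Agent.P280Z.M2
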