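import Vale.Agent.P280Z.M2.F62

/-!
# P280Z, block M2: either the class of degree two exists, or the relations have rank two
-/

open Matrix

noncomputable section

namespace Vale.Agent.P280Z.M2

/-- a minor of size three -/
def D3 (u v w : Fin 7 → ℝ) (i j k : Fin 7) : ℝ :=
  u i * (v j * w k - v k * w j) - u j * (v i * w k - v k * w i) + u k * (v i * w j - v j * w i)

theorem rk2 (P : Matrix (Fin 5) (Fin 7) ℝ) (hP : ∀ k, k ᵥ* P = 0 → k = 0) {u v w : Fin 7 → ℝ}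
    (hu : P *ᵥ u = 0) (hv : P *ᵥ v = 0) (hw : P *ᵥ w = 0) (i j k : Fin 7) : D3 u v w i j k = 0 := by
  have h1 : P.rank = 5 := by
    rw [← rank_transpose, rank, LinearMap.finrank_range_of_inj, Module.finrank_fin_fun]
    exact LinearMap.ker_eq_bot.1 (LinearMap.ker_eq_bot'.2 fun k hk =>
      hP k (by simpa [mulVec_transpose] using hk))
  have h2 := LinearMap.finrank_range_add_finrank_ker P.mulVecLin
  rw [Module.finrank_fin_fun, ← rank, h1] at h2
  have h3 : ¬ LinearIndependent ℝ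
      (![⟨u, hu⟩, ⟨v, hv⟩, ⟨w, hw⟩] : Fin 3 → LinearMap.ker P.mulVecLin) := fun h => by
    have := h.fintype_card_le_finrank
    rw [Fintype.card_fin] at this
    omega
  obtain ⟨g, hg, n, hn⟩ := Fintype.not_linearIndependent_iff.1 h3
  have e : ∀ i, g 0 * u i + g 1 * v i + g 2 * w i = 0 := fun i => by
    simpa [Fin.sum_univ_three] using congrFun (congrArg Subtype.val hg) i
  refine (mul_eq_zero.1 ?_).resolve_left hn
  unfold D3
  fin_cases n
  · change g 0 * _ = 0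
    linear_combination (v j * w k - v k * w j) * e i - (v i * w k - v k * w i) * e j +
      (v i * w j - v j * w i) * e k
  · change g 1 * _ = 0
    linear_combination -(u j * w k - u k * w j) * e i + (u i * w k - u k * w i) * e j -
      (u i * w j - u j * w i) * e k
  · change g 2 * _ = 0
    linear_combination (u j * v k - u k * v j) * e i - (u i * v k - u k * v i) * e j +
      (u i * v j - u j * v i) * e k

/-- the five relations -/
def Vc (Q C X2 X3 y3 X4 y4 X5 X6 : ℝ) : Fin 5 → Fin 7 → ℝ :=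
  ![Vc0 Q C X2 X3 y3 X4 y4 X5 X6, Vc1 Q C X2 X3 y3 X4 y4 X5 X6, Vc2 Q C X2 X3 y3 X4 y4 X5 X6,
    Vc3 Q C X2 X3 y3 X4 y4 X5 X6, Vc4 Q C X2 X3 y3 X4 y4 X5 X6]

/-- the relations do not have rank two -/
def CA2 : Prop := ∀ a m b Q C X2 X3 y3 X4 y4 X5 X6 z5 z6 : ℝ,
  F62 a m b Q C X2 X3 y3 X4 y4 X5 X6 z5 z6 → 0 < Q →
    (∀ u v w i j k, D3 (Vc Q C X2 X3 y3 X4 y4 X5 X6 u) (Vc Q C X2 X3 y3 X4 y4 X5 X6 v)
      (Vc Q C X2 X3 y3 X4 y4 X5 X6 w) i j k = 0) → False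

theorem four {a m b Q C k0 k1 k2 k3 : ℝ} (hQ : 0 < Q)
    (h0 : k0 * (-6*a*Q - b*C - 10*Q) + k1 * (-17*m*Q + b*Q + Q*C) + k2 * (-a*Q - 3*Q) +
      k3 * (-7*m*Q + 2*b*Q) = 0)
    (h2 : k0 * (14*a) + k1 * (5*m + 9*b) + k2 * (5*a - 1) + k3 * (m + 4*b) = 0)
    (h3 : k0 * (m + 3*b) + k1 * (-a*Q - 3*Q) + k2 * b - k3 * Q = 0)
    (h4 : k0 * (5*a - 1) + k1 * (m + 3*b) + k2 * (2*a - 1) + k3 * b = 0)
    (h5 : k0 * b - k1 * Q = 0) (h6 : k0 * (2*a - 1) + k1 * b + k2 * (a - 1) = 0) :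
    k0 = 0 ∧ k1 = 0 ∧ k2 = 0 ∧ k3 = 0 := by
  have p : Q + m ^ 2 ≠ 0 := by positivity
  have c1 : k0 + (k1 + k3) * m = 0 := by linear_combination h2 - 4 * h4 + 3 * h6
  have c3 : k0 * (a + 1) + k1 * (m + b) + k2 + k3 * b = 0 := by linear_combination h4 - 2 * h6
  have s0 : (k1 + k3) * b = 0 := mul_left_cancel₀ p (by
    linear_combination (1 / 6) * h0 + (Q / 6) * h2 - (Q / 2) * h4 + (C / 6) * h5 + (Q / 3) * h6 +
      (Q / 2) * c3 + Q * c1 - m * h5 + m * b * c1)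
  obtain rfl : k1 = 0 := mul_left_cancel₀ hQ.ne' (by linear_combination -h5 + b * c1 - m * s0)
  obtain rfl : k3 = 0 := mul_left_cancel₀ p (by
    linear_combination -h3 + m * c1 + (2 - a) * (b * c1 - m * s0) + b * c3 - b * s0)
  obtain rfl : k0 = 0 := by linear_combination c1
  exact ⟨rfl, rfl, by linear_combination c3, rfl⟩

theorem cA_of (H : CA2) : CA := fun a mu l c X2 Y2 X3 Y3 X4 Y4 X5 X6 z5 z6 h hY => by
  obtain ⟨y3, rfl⟩ : ∃ y, Y3 = y * Y2 := ⟨Y3 / Y2, (div_mul_cancel₀ _ hY).symm⟩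
  obtain ⟨y4, rfl⟩ : ∃ y, Y4 = y * Y2 := ⟨Y4 / Y2, (div_mul_cancel₀ _ hY).symm⟩
  have f := f62 h
  have hQ : 0 < Y2 ^ 2 := by positivity
  by_contra hB
  refine H _ _ _ _ _ _ _ _ _ _ _ _ _ _ f hQ fun u v w i j k => ?_
  have z : ∀ u, Pm a (mu * Y2) (l * Y2) (Y2 ^ 2) (c * Y2) *ᵥ
      Vc (Y2 ^ 2) (c * Y2) X2 X3 y3 X4 y4 X5 X6 u = 0 := fun u => by
    fin_cases u
    exacts [pv0 f, pv1 f, pv2 f, pv3 f, pv4 f]
  refine rk2 _ (fun k hk => ?_) (z u) (z v) (z w) i j k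
  have e := congrFun hk
  have e0 := e 0
  have e1 := e 1
  have e2 := e 2
  have e3 := e 3
  have e4 := e 4
  have e5 := e 5
  have e6 := e 6
  simp only [Pm, vecMul, dotProduct, Fin.sum_univ_five, of_apply, cons_val', cons_val_zero,
    cons_val_one, cons_val, cons_val_fin_one, Pi.zero_apply] at e0 e1 e2 e3 e4 e5 e6
  by_cases h4 : k 4 = 0
  · rw [h4] at e0 e2 e3 e4 e5 e6
    obtain ⟨a0, a1, a2, a3⟩ := four (a := a) (m := mu * Y2) (b := l * Y2) (C := c * Y2)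
      (k0 := k 0) (k1 := k 1) (k2 := k 2) (k3 := k 3) hQ (by linear_combination e0)
      (by linear_combination e2) (by linear_combination e3) (by linear_combination e4)
      (by linear_combination e5) (by linear_combination e6)
    funext i
    fin_cases i <;> assumption
  · have n : ∀ d : ℕ, k 4 * Y2 ^ d ≠ 0 := fun d => mul_ne_zero h4 (pow_ne_zero _ hY)
    obtain ⟨k1, q1⟩ : ∃ y, k 1 = y * (k 4 * Y2 ^ 1) := ⟨_, (div_mul_cancel₀ _ (n 1)).symm⟩
    obtain ⟨k2, q0⟩ : ∃ y, k 0 = y * (k 4 * Y2 ^ 2) := ⟨_, (div_mul_cancel₀ _ (n 2)).symm⟩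
    obtain ⟨k3, q3⟩ : ∃ y, k 3 = y * (k 4 * Y2 ^ 1) := ⟨_, (div_mul_cancel₀ _ (n 1)).symm⟩
    obtain ⟨k4, q2⟩ : ∃ y, k 2 = y * (k 4 * Y2 ^ 2) := ⟨_, (div_mul_cancel₀ _ (n 2)).symm⟩
    rw [q0, q1, q2, q3] at e0 e1 e2 e3 e4 e5 e6
    exact absurd ⟨k1, k2, k3, k4,
      mul_left_cancel₀ (n 4) (by linear_combination e0),
      mul_left_cancel₀ (n 3) (by linear_combination e1),
      mul_left_cancel₀ (n 2) (by linear_combination e2),
      mul_left_cancel₀ (n 3) (by linear_combination e3),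
      mul_left_cancel₀ (n 2) (by linear_combination e4),
      mul_left_cancel₀ (n 3) (by linear_combination e5),
      mul_left_cancel₀ (n 2) (by linear_combination e6)⟩ hB

end Vale.Agent.P280Z.M2
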