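import Vale.Agent.P280Z.M2.E62

/-!
# P280Z, block M2: the equations for `a = 2`, `mu = 3 l`, divided by powers of `Y2`

Chart: `l = L Y2`, `C = c Y2`, `Q = Y2 ^ 2`, `Y3 = y3 Y2`, `Y4 = y4 Y2`.
-/

namespace Vale.Agent.P280Z.M2.K2

/-- the equations in the chart -/
structure G62 (L C Q X2 X3 y3 X4 y4 X5 X6 : ℝ) : Prop where
  g3_02000 :
    2*X4 - 6*X3*X2 - 3*L*X3*Q + 3*X2^3 + 3*L*X2^2*Q - 3*X2*Q - 2*X2 - 5*L*Q^2 + 2*L*Q = 0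
  g3_21000 :
    6*X4 - 18*X3*X2 - 15*L*X3*Q - 3*L*y3*X2*Q + 3*y3*Q + 9*X2^3 + 18*L*X2^2*Q - 15*X2*Q - 6*X2 -
    14*L*Q^2 + 4*L*Q = 0
  g3_40000 :
    20*X4 + 2*L*y4*Q - 57*X3*X2 - 54*L*X3*Q - 21*L*y3*X2*Q + 18*y3*Q - 3*L*C*X2*Q + C*Q + 28*X2^3
    + 72*L*X2^2*Q - 66*X2*Q - 16*X2 - 50*L*Q^2 = 0
  g3_11100 :
    8*L*X4 - 15*L*X3*X2 + 12*X3 + 3*y3*X2 + 15*L*y3*Q + 6*L*X2^3 - 15*X2^2 - 42*L*X2*Q + 4*L*X2 +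
    21*Q - 2 = 0
  g3_20010 :
    10*L*X4 - 18*L*X3*X2 + 15*X3 + 3*y3*X2 + 21*L*y3*Q + 7*L*X2^3 - 18*X2^2 - 57*L*X2*Q + 6*L*X2
    + 30*Q - 4 = 0
  g3_30100 :
    24*L*X4 - 2*y4 + 3*L*X3*C - 54*L*X3*X2 + 51*X3 + 18*y3*X2 + 57*L*y3*Q - 3*L*C*X2^2 + 3*C*X2 +
    6*L*C*Q - 2*L*C + 24*L*X2^3 - 66*X2^2 - 150*L*X2*Q + 72*Q - 4 = 0
  g3_01200 :
    2*L*X4*C + 10*L*y4*Q - 3*L*X3*C*X2 + 3*X3*C - 3*X3*X2 + 3*L*y3*X2*Q - 18*y3*Q - 2*L*C^2*Q +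
    L*C*X2^3 - 3*C*X2^2 - 18*L*C*X2*Q + 2*L*C*X2 + 14*C*Q - 2*C + 2*X2^3 - 18*L*X2^2*Q + 36*X2*Q
    - 4*X2 + 12*L*Q^2 + 36*L*Q = 0
  g4_11000 :
    90*X5 - 270*X4*X2 - 360*L*X4*Q - 180*X3^2 - 90*L*X3*y3*Q + 270*X3*X2^2 + 450*L*X3*X2*Q -
    180*X3*Q - 60*X3 + 45*L*y3*X2^2*Q - 90*y3*X2*Q - 225*L*y3*Q^2 + 30*L*y3*Q + 45*X2^2 -
    60*L*X2*Q + 15*Q - 32 = 0
  g4_30000 :
    360*X5 - 900*X4*X2 - 1080*L*X4*Q - 90*L*y4*X2*Q + 90*y4*Q - 585*X3^2 - 540*L*X3*y3*Q -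
    45*L*X3*C*Q + 855*X3*X2^2 + 1620*L*X3*X2*Q - 765*X3*Q - 150*X3 + 45*y3^2*Q + 315*L*y3*X2^2*Q
    - 540*y3*X2*Q - 855*L*y3*Q^2 + 90*L*y3*Q + 15*L*C*Q + 120*X2^2 + 30*Q - 128 = 0
  g4_01100 :
    270*L*X5 - 360*L*X4*X2 + 270*X4 - 180*L*X3^2 + 90*X3*y3 + 225*L*X3*X2^2 - 360*X3*X2 -
    405*L*X3*Q + 30*L*X3 + 90*L*y3^2*Q - 45*y3*X2^2 - 450*L*y3*X2*Q + 405*y3*Q - 30*y3 -
    30*L*X2^2 + 30*X2 - 90*L*Q + 64*L = 0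
  g4_10010 :
    360*L*X5 - 450*L*X4*X2 + 360*X4 + 180*L*y4*Q - 225*L*X3^2 + 90*X3*y3 + 270*L*X3*X2^2 -
    450*X3*X2 - 630*L*X3*Q + 60*L*X3 + 45*L*y3^2*Q - 45*L*y3*C*Q - 45*y3*X2^2 - 630*L*y3*X2*Q +
    585*y3*Q - 30*y3 - 45*L*X2^2 + 60*X2 - 15*L*Q + 32*L = 0
  g4_20100 :
    630*L*X5 + 90*L*X4*C - 1080*L*X4*X2 + 1080*X4 + 90*y4*X2 + 450*L*y4*Q - 585*L*X3^2 +
    450*X3*y3 - 90*L*X3*C*X2 + 45*X3*C + 810*L*X3*X2^2 - 1530*X3*X2 - 1620*L*X3*Q - 60*L*X3 +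
    315*L*y3^2*Q - 270*y3*X2^2 - 1710*L*y3*X2*Q + 1350*y3*Q - 60*y3 + 30*L*C*X2 - 15*C + 60*X2 -
    90*L*Q + 256*L = 0
  g4_10200 :
    -180*L*X5*C - 1440*X5 + 90*L*X4*y3*C + 1080*X4*y3 + 180*L*X4*C*X2 - 180*X4*C + 2160*X4*X2 +
    3960*L*X4*Q + 450*L*y4*y3*Q + 900*L*y4*X2*Q - 1620*y4*Q + 90*L*X3^2*C + 1170*X3^2 -
    135*L*X3*y3*C*X2 + 135*X3*y3*C - 2295*X3*y3*X2 - 2340*L*X3*y3*Q - 90*L*X3*C*X2^2 +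
    180*X3*C*X2 + 540*L*X3*C*Q - 60*L*X3*C - 1530*X3*X2^2 - 6480*L*X3*X2*Q + 4590*X3*Q - 60*X3 +
    90*L*y3^2*C*Q - 2565*L*y3^2*X2*Q + 2880*y3^2*Q + 45*L*y3*C*X2^3 - 135*y3*C*X2^2 -
    810*L*y3*C*X2*Q + 90*L*y3*C*X2 + 450*y3*C*Q - 90*y3*C + 990*y3*X2^3 + 5040*L*y3*X2^2*Q -
    4320*y3*X2*Q + 180*y3*X2 - 990*L*y3*Q^2 - 480*L*y3*Q + 30*L*C*X2^2 - 60*C*X2 - 180*L*C*Q +
    64*L*C + 60*X2^2 - 360*L*X2*Q + 360*Q - 128 = 0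
  g5_01000 :
    -120*X5*X2 - 360*L*X5*Q - 120*X4*X3 - 60*L*X4*y3*Q + 180*X4*X2^2 + 480*L*X4*X2*Q - 180*X4*Q +
    50*X4 - 150*X3*X2 + 75*L*X3*Q + 75*L*y3*X2*Q - 75*y3*Q + 45*X2^3 - 90*L*X2^2*Q + 45*X2*Q +
    6*X2 - 90*L*Q^2 - 12*L*Q = 0
  g5_20000 :
    120*X6 - 480*X5*X2 - 840*L*X5*Q - 420*X4*X3 - 300*L*X4*y3*Q - 60*L*X4*C*Q + 600*X4*X2^2 +
    1440*L*X4*X2*Q - 720*X4*Q + 100*X4 - 60*L*y4*X3*Q + 60*L*y4*X2^2*Q - 120*y4*X2*Q -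
    300*L*y4*Q^2 - 50*L*y4*Q - 375*X3*X2 - 150*L*X3*Q + 225*L*y3*X2*Q - 150*y3*Q + 45*L*C*X2*Q -
    15*C*Q + 120*X2^3 + 90*X2*Q + 24*X2 - 90*L*Q^2 - 48*L*Q = 0
  g5_00010 :
    360*L*X6 - 480*L*X5*X2 + 360*X5 - 240*L*X4*X3 + 60*X4*y3 + 300*L*X4*X2^2 - 480*X4*X2 -
    540*L*X4*Q - 50*L*X4 - 60*L*y4*y3*Q - 60*L*y4*C*Q - 240*L*y4*X2*Q + 240*y4*Q + 150*L*X3*X2 -
    75*X3 - 75*y3*X2 + 75*L*y3*Q - 45*L*X2^3 + 90*X2^2 - 45*L*X2*Q - 6*L*X2 + 90*Q + 12 = 0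
  g5_10100 :
    360*L*X6 + 120*L*X5*C - 840*L*X5*X2 + 960*X5 - 480*L*X4*X3 + 240*X4*y3 - 120*L*X4*C*X2 +
    60*X4*C + 720*L*X4*X2^2 - 1440*X4*X2 - 1320*L*X4*Q + 200*L*X4 + 60*y4*X3 + 120*L*y4*y3*Q -
    60*y4*X2^2 - 600*L*y4*X2*Q + 540*y4*Q + 50*y4 - 75*L*X3*C - 150*L*X3*X2 - 75*X3 - 150*y3*X2 +
    75*L*y3*Q + 45*L*C*X2^2 - 45*C*X2 - 90*L*C*Q - 6*L*C + 90*X2^2 - 270*L*X2*Q - 48*L*X2 + 180*Q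
    + 12 = 0
  g6_10000 :
    -60*X6*X2 - 180*L*X6*Q - 90*X5*X3 - 120*L*X5*y3*Q - 30*L*X5*C*Q + 120*X5*X2^2 + 420*L*X5*X2*Q
    - 240*X5*Q - 100*X4*X2 - 200*L*X4*Q + 50*L*y4*X2*Q - 50*y4*Q - 45*X3^2 + 60*L*X3*y3*Q +
    15*L*X3*C*Q + 75*X3*X2^2 + 60*L*X3*X2*Q + 15*X3*Q + 42*X3 - 15*y3^2*Q - 45*L*y3*X2^2*Q +
    60*y3*X2*Q - 15*L*y3*Q^2 - 14*L*y3*Q + 9*L*C*Q - 36*X2^2 + 144*L*X2*Q - 18*Q = 0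
  g6_00100 :
    60*L*X6*C - 180*L*X6*X2 + 300*X6 - 120*L*X5*X3 + 90*X5*y3 - 60*L*X5*C*X2 + 30*X5*C +
    210*L*X5*X2^2 - 480*X5*X2 - 390*L*X5*Q + 250*L*X5 - 50*L*X4*C - 200*L*X4*X2 - 50*y4*X2 -
    250*L*y4*Q - 45*L*X3^2 - 30*X3*y3 + 30*L*X3*C*X2 - 15*X3*C + 30*L*X3*X2^2 + 30*X3*X2 -
    84*L*X3 + 15*L*y3^2*Q + 30*y3*X2^2 - 30*L*y3*X2*Q + 90*y3*Q + 28*y3 + 18*L*C*X2 - 9*C +
    72*L*X2^2 - 36*X2 + 162*L*Q = 0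

theorem g62 {L c X2 Y2 X3 y3 X4 y4 X5 X6 z5 z6 : ℝ}
    (E : E62 2 (3 * (L * Y2)) (L * Y2) c 0 X2 Y2 X3 (y3 * Y2) X4 (y4 * Y2) X5 X6 z5 z6)
    (hY : Y2 ≠ 0) : G62 L (c * Y2) (Y2 ^ 2) X2 X3 y3 X4 y4 X5 X6 where
  g3_02000 := by linear_combination (1 / 1 : ℝ) * (E.r3_02000)
  g3_21000 := by linear_combination (1 / 1 : ℝ) * (E.r3_21000)
  g3_40000 := by linear_combination (1 / 1 : ℝ) * (E.r3_40000)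
  g3_11100 := mul_left_cancel₀ hY (by linear_combination (1 / 1 : ℝ) * (E.r3_11100))
  g3_20010 := mul_left_cancel₀ hY (by linear_combination (1 / 1 : ℝ) * (E.r3_20010))
  g3_30100 := mul_left_cancel₀ hY (by linear_combination (1 / 1 : ℝ) * (E.r3_30100))
  g3_01200 := by linear_combination (1 / 1 : ℝ) * (E.r3_01200 - E.r3_20200)
  g4_11000 := by linear_combination (1 / 1 : ℝ) * (E.r4_11000)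
  g4_30000 := by linear_combination (1 / 1 : ℝ) * (E.r4_30000)
  g4_01100 := mul_left_cancel₀ hY (by linear_combination (1 / 1 : ℝ) * (E.r4_01100))
  g4_10010 := mul_left_cancel₀ hY (by linear_combination (1 / 1 : ℝ) * (E.r4_10010))
  g4_20100 := mul_left_cancel₀ hY (by linear_combination (1 / 1 : ℝ) * (E.r4_20100))
  g4_10200 := by linear_combination (1 / 1 : ℝ) * (E.r4_10200 - 45 * y3 * E.r3_20200)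
  g5_01000 := by linear_combination (1 / 1 : ℝ) * (E.r5_01000)
  g5_20000 := by linear_combination (1 / 1 : ℝ) * (E.r5_20000)
  g5_00010 := mul_left_cancel₀ hY (by linear_combination (1 / 1 : ℝ) * (E.r5_00010))
  g5_10100 := mul_left_cancel₀ hY (by linear_combination (1 / 1 : ℝ) * (E.r5_10100))
  g6_10000 := by linear_combination (1 / 3 : ℝ) * (E.r6_10000)
  g6_00100 := mul_left_cancel₀ hY (by linear_combination (1 / 3 : ℝ) * (E.r6_00100))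

variable {L C Q X2 X3 y3 X4 y4 X5 X6 : ℝ}

/-- first division -/
theorem s1 (h : G62 L C Q X2 X3 y3 X4 y4 X5 X6) (hQ : Q ≠ 0) :
    6*L*y4 - 3*L*y3*C - 3*L*y3*X2 - 6*y3 - L*C^2 - 3*L*C*X2 + 3*C - 6*L*X2^2 + 12*X2 + 4*L*Q +
    12*L = 0 := by
  refine mul_left_cancel₀ (mul_ne_zero (show (2 : ℝ) ≠ 0 by norm_num) hQ) ?_
  linear_combination
    (2) * h.g3_02000 + (-4) * h.g3_21000 + (1) * h.g3_40000 + (C) * h.g3_11100 + (-C) *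
    h.g3_20010 + (1) * h.g3_01200

/-- second division -/
theorem s2 (h : G62 L C Q X2 X3 y3 X4 y4 X5 X6) (hQ : Q ≠ 0) :
    6*L*X3 + 3*L*y3*X2 - 3*y3 - 9*L*X2^2 + 6*X2 - L*Q + 2*L = 0 := by
  refine mul_left_cancel₀ (mul_ne_zero (show (1 : ℝ) ≠ 0 by norm_num) hQ) ?_
  linear_combination
    (3) * h.g3_02000 + (-1) * h.g3_21000

/-- third division -/
theorem s3 (h : G62 L C Q X2 X3 y3 X4 y4 X5 X6) (hQ : Q ≠ 0) :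
    36*y3^2*C - 144*y3^2*X2 - 648*L*y3^2*Q + 9*L*y3*C^2*X2 + 3*y3*C^2 - 54*y3*C*X2 + 138*L*y3*C*Q
    + 888*y3*X2^2 - 597*L*y3*X2*Q - 816*L*y3*X2 + 921*y3*Q + 36*y3 - 9*L*C^2*X2^2 - 6*C^2*X2 +
    253*L*C^2*Q + 18*L*C^2 - 24*L*C*X2^3 + 126*C*X2^2 + 1812*L*C*X2*Q - 156*L*C*X2 - 1446*C*Q +
    186*C - 46*L*X2^4 - 510*X2^3 + 3721*L*X2^2*Q + 258*L*X2^2 - 3468*X2*Q + 1416*X2 + 1423*L*Q^2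
    - 1696*L*Q - 1024*L = 0 := by
  refine mul_left_cancel₀ (mul_ne_zero (show (5 : ℝ) ≠ 0 by norm_num) hQ) ?_
  linear_combination
    (-3060 + 6600*Q + 5130*X2^2 - 2430*y3*X2 - 2700*X3) * h.g3_02000 + (360 - 840*Q - 540*X2^2 +
    270*y3*X2 + 270*X3) * h.g3_40000 + (-540*X2 + 8650*X2*Q - 630*X2^3 + 690*C*Q - 1560*y3*Q +
    1620*X3*X2 - 900*X4) * h.g3_11100 + (360*X2 - 6470*X2*Q + 540*X2^3 - 570*C*Q + 870*y3*Q -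
    1350*X3*X2 + 720*X4) * h.g3_20010 + (-90*X2*Q + 90*y3*Q) * h.g3_30100 + (-66*Q) * h.g4_01100
    + (46*Q) * h.g4_10010 + (2*Q) * h.g4_20100 + (-100*Q - 1260*Q^2 + 90*X2^2*Q - 60*y3*X2*Q -
    30*X3*Q) * (s1 h hQ) + (2220*Q - 3155*Q^2 - 2630*X2^2*Q + 210*C*X2*Q - 5*C^2*Q + 1830*y3*X2*Q
    - 60*y3*C*Q + 1020*X3*Q - 60*y4*Q) * (s2 h hQ)

end Vale.Agent.P280Z.M2.K2
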