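import Vale.Agent.P280Z.Al.Defs
import Mathlib.Tactic.Algebra.Basic

/-!
# P280Z, block M2: the ring of the space of curves in dimension six, fibres of dimension two
-/

noncomputable section

namespace Vale.Agent.P280Z.M2

open Al

/-- monomials -/
def Mq {R : Type} [CommRing R] (A e t r s : R) (i j k m n : ℕ) : R :=
  A ^ i * e ^ j * t ^ k * r ^ m * s ^ n

theorem Mq_mul {R : Type} [CommRing R] (A e t r s : R) (i j k m n i' j' k' m' n' : ℕ) :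
    Mq A e t r s i j k m n * Mq A e t r s i' j' k' m' n' =
      Mq A e t r s (i + i') (j + j') (k + k') (m + m') (n + n') := by
  simp only [Mq, pow_add]
  ring

/-- the relations in the ring of the space of curves -/
structure R62 {R : Type} [CommRing R] [Algebra ℝ R] (J : R →ₗ[ℝ] ℝ) (A e t r s : R)
    (a mu l c q : ℝ) : Prop where
  g1 : 2 * t * r - A * t ^ 2 = Hn A e 3 + c • (A * r - e * t)
  g2 : r ^ 2 - e * t ^ 2 = Hn A e 4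
  g3 : A * (A * r - e * t) - e * r = 0
  g4 : e * (A * r - e * t) = 0
  g5 : Hn A e 6 = 0
  g6 : e * Hn A e 5 = 0
  g7 : e * s = 0
  g8 : (r - A * t) * s = 0
  g9 : A * s ^ 2 = -(q • Hn A e 5)
  n1 : J (Hn A e 2 * Hn A e 5) = 1
  n2 : J (Hn A e 3 * Hn A e 4) = a
  n3 : J (r * Hn A e 5) = mu
  n4 : J ((A * r - e * t) * Hn A e 4) = l

/-- the linear relations -/
structure L62 (j : ℕ → ℕ → ℕ → ℕ → ℕ → ℝ) (a mu l c q : ℝ) : Prop where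
  r1_10300 :
    (-1) * j 4 0 3 0 0 + (2) * j 2 1 3 0 0 + (-1) * j 2 0 5 0 0 + (-c) * j 2 0 3 1 0 + (c) * j 1
    1 4 0 0 + (2) * j 1 0 4 1 0 = 0
  r1_20200 :
    (-1) * j 5 0 2 0 0 + (2) * j 3 1 2 0 0 + (-1) * j 3 0 4 0 0 + (-c) * j 3 0 2 1 0 + (c) * j 2
    1 3 0 0 + (2) * j 2 0 3 1 0 = 0
  r1_30100 :
    (-1) * j 6 0 1 0 0 + (2) * j 4 1 1 0 0 + (-1) * j 4 0 3 0 0 + (-c) * j 4 0 1 1 0 + (c) * j 3
    1 2 0 0 + (2) * j 3 0 2 1 0 = 0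
  r1_40000 :
    (-1) * j 7 0 0 0 0 + (2) * j 5 1 0 0 0 + (-1) * j 5 0 2 0 0 + (-c) * j 5 0 0 1 0 + (c) * j 4
    1 1 0 0 + (2) * j 4 0 1 1 0 = 0
  r1_00210 :
    (-1) * j 3 0 2 1 0 + (2) * j 1 1 2 1 0 + (-1) * j 1 0 4 1 0 + (-c) * j 1 0 2 2 0 + (c) * j 0
    1 3 1 0 + (2) * j 0 0 3 2 0 = 0
  r1_10110 :
    (-1) * j 4 0 1 1 0 + (2) * j 2 1 1 1 0 + (-1) * j 2 0 3 1 0 + (-c) * j 2 0 1 2 0 + (c) * j 1
    1 2 1 0 + (2) * j 1 0 2 2 0 = 0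
  r1_20010 :
    (-1) * j 5 0 0 1 0 + (2) * j 3 1 0 1 0 + (-1) * j 3 0 2 1 0 + (-c) * j 3 0 0 2 0 + (c) * j 2
    1 1 1 0 + (2) * j 2 0 1 2 0 = 0
  r1_01200 :
    (-1) * j 3 1 2 0 0 + (2) * j 1 2 2 0 0 + (-1) * j 1 1 4 0 0 + (-c) * j 1 1 2 1 0 + (c) * j 0
    2 3 0 0 + (2) * j 0 1 3 1 0 = 0
  r1_11100 :
    (-1) * j 4 1 1 0 0 + (2) * j 2 2 1 0 0 + (-1) * j 2 1 3 0 0 + (-c) * j 2 1 1 1 0 + (c) * j 1
    2 2 0 0 + (2) * j 1 1 2 1 0 = 0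
  r1_21000 :
    (-1) * j 5 1 0 0 0 + (2) * j 3 2 0 0 0 + (-1) * j 3 1 2 0 0 + (-c) * j 3 1 0 1 0 + (c) * j 2
    2 1 0 0 + (2) * j 2 1 1 1 0 = 0
  r1_01010 :
    (-1) * j 3 1 0 1 0 + (2) * j 1 2 0 1 0 + (-1) * j 1 1 2 1 0 + (-c) * j 1 1 0 2 0 + (c) * j 0
    2 1 1 0 + (2) * j 0 1 1 2 0 = 0
  r1_02000 :
    (-1) * j 3 2 0 0 0 + (2) * j 1 3 0 0 0 + (-1) * j 1 2 2 0 0 + (-c) * j 1 2 0 1 0 + (c) * j 0
    3 1 0 0 + (2) * j 0 2 1 1 0 = 0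
  r1_00201 :
    (-1) * j 3 0 2 0 1 + (2) * j 1 1 2 0 1 + (-1) * j 1 0 4 0 1 + (-c) * j 1 0 2 1 1 + (c) * j 0
    1 3 0 1 + (2) * j 0 0 3 1 1 = 0
  r1_10101 :
    (-1) * j 4 0 1 0 1 + (2) * j 2 1 1 0 1 + (-1) * j 2 0 3 0 1 + (-c) * j 2 0 1 1 1 + (c) * j 1
    1 2 0 1 + (2) * j 1 0 2 1 1 = 0
  r1_20001 :
    (-1) * j 5 0 0 0 1 + (2) * j 3 1 0 0 1 + (-1) * j 3 0 2 0 1 + (-c) * j 3 0 0 1 1 + (c) * j 2
    1 1 0 1 + (2) * j 2 0 1 1 1 = 0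
  r1_00011 :
    (-1) * j 3 0 0 1 1 + (2) * j 1 1 0 1 1 + (-1) * j 1 0 2 1 1 + (-c) * j 1 0 0 2 1 + (c) * j 0
    1 1 1 1 + (2) * j 0 0 1 2 1 = 0
  r1_01001 :
    (-1) * j 3 1 0 0 1 + (2) * j 1 2 0 0 1 + (-1) * j 1 1 2 0 1 + (-c) * j 1 1 0 1 1 + (c) * j 0
    2 1 0 1 + (2) * j 0 1 1 1 1 = 0
  r1_00002 :
    (-1) * j 3 0 0 0 2 + (2) * j 1 1 0 0 2 + (-1) * j 1 0 2 0 2 + (-c) * j 1 0 0 1 2 + (c) * j 0
    1 1 0 2 + (2) * j 0 0 1 1 2 = 0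
  r2_00300 :
    (-1) * j 4 0 3 0 0 + (3) * j 2 1 3 0 0 + (-1) * j 0 2 3 0 0 + (-1) * j 0 1 5 0 0 + (1) * j 0
    0 3 2 0 = 0
  r2_10200 :
    (-1) * j 5 0 2 0 0 + (3) * j 3 1 2 0 0 + (-1) * j 1 2 2 0 0 + (-1) * j 1 1 4 0 0 + (1) * j 1
    0 2 2 0 = 0
  r2_20100 :
    (-1) * j 6 0 1 0 0 + (3) * j 4 1 1 0 0 + (-1) * j 2 2 1 0 0 + (-1) * j 2 1 3 0 0 + (1) * j 2
    0 1 2 0 = 0
  r2_30000 :
    (-1) * j 7 0 0 0 0 + (3) * j 5 1 0 0 0 + (-1) * j 3 2 0 0 0 + (-1) * j 3 1 2 0 0 + (1) * j 3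
    0 0 2 0 = 0
  r2_10010 :
    (-1) * j 5 0 0 1 0 + (3) * j 3 1 0 1 0 + (-1) * j 1 2 0 1 0 + (-1) * j 1 1 2 1 0 + (1) * j 1
    0 0 3 0 = 0
  r2_01100 :
    (-1) * j 4 1 1 0 0 + (3) * j 2 2 1 0 0 + (-1) * j 0 3 1 0 0 + (-1) * j 0 2 3 0 0 + (1) * j 0
    1 1 2 0 = 0
  r2_11000 :
    (-1) * j 5 1 0 0 0 + (3) * j 3 2 0 0 0 + (-1) * j 1 3 0 0 0 + (-1) * j 1 2 2 0 0 + (1) * j 1
    1 0 2 0 = 0
  r2_00101 :
    (-1) * j 4 0 1 0 1 + (3) * j 2 1 1 0 1 + (-1) * j 0 2 1 0 1 + (-1) * j 0 1 3 0 1 + (1) * j 0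
    0 1 2 1 = 0
  r2_10001 :
    (-1) * j 5 0 0 0 1 + (3) * j 3 1 0 0 1 + (-1) * j 1 2 0 0 1 + (-1) * j 1 1 2 0 1 + (1) * j 1
    0 0 2 1 = 0
  r3_00300 :
    (1) * j 2 0 3 1 0 + (-1) * j 1 1 4 0 0 + (-1) * j 0 1 3 1 0 = 0
  r3_10200 :
    (1) * j 3 0 2 1 0 + (-1) * j 2 1 3 0 0 + (-1) * j 1 1 2 1 0 = 0
  r3_20100 :
    (1) * j 4 0 1 1 0 + (-1) * j 3 1 2 0 0 + (-1) * j 2 1 1 1 0 = 0
  r3_30000 :
    (1) * j 5 0 0 1 0 + (-1) * j 4 1 1 0 0 + (-1) * j 3 1 0 1 0 = 0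
  r3_00110 :
    (1) * j 2 0 1 2 0 + (-1) * j 1 1 2 1 0 + (-1) * j 0 1 1 2 0 = 0
  r3_10010 :
    (1) * j 3 0 0 2 0 + (-1) * j 2 1 1 1 0 + (-1) * j 1 1 0 2 0 = 0
  r3_01100 :
    (1) * j 2 1 1 1 0 + (-1) * j 1 2 2 0 0 + (-1) * j 0 2 1 1 0 = 0
  r3_00101 :
    (1) * j 2 0 1 1 1 + (-1) * j 1 1 2 0 1 + (-1) * j 0 1 1 1 1 = 0
  r3_10001 :
    (1) * j 3 0 0 1 1 + (-1) * j 2 1 1 0 1 + (-1) * j 1 1 0 1 1 = 0
  r4_00200 :
    (1) * j 1 1 2 1 0 + (-1) * j 0 2 3 0 0 = 0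
  r4_20000 :
    (1) * j 3 1 0 1 0 + (-1) * j 2 2 1 0 0 = 0
  r4_00010 :
    (1) * j 1 1 0 2 0 + (-1) * j 0 2 1 1 0 = 0
  r4_01000 :
    (1) * j 1 2 0 1 0 + (-1) * j 0 3 1 0 0 = 0
  r4_00001 :
    (1) * j 1 1 0 1 1 + (-1) * j 0 2 1 0 1 = 0
  r6_00000 :
    (1) * j 5 1 0 0 0 + (-4) * j 3 2 0 0 0 + (3) * j 1 3 0 0 0 = 0
  r7_00300 :
    (1) * j 0 1 3 0 1 = 0
  r7_10200 :
    (1) * j 1 1 2 0 1 = 0
  r7_20100 :
    (1) * j 2 1 1 0 1 = 0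
  r7_30000 :
    (1) * j 3 1 0 0 1 = 0
  r7_00110 :
    (1) * j 0 1 1 1 1 = 0
  r7_10010 :
    (1) * j 1 1 0 1 1 = 0
  r7_00101 :
    (1) * j 0 1 1 0 2 = 0
  r7_10001 :
    (1) * j 1 1 0 0 2 = 0
  r8_00300 :
    (-1) * j 1 0 4 0 1 + (1) * j 0 0 3 1 1 = 0
  r8_10200 :
    (-1) * j 2 0 3 0 1 + (1) * j 1 0 2 1 1 = 0
  r8_20100 :
    (-1) * j 3 0 2 0 1 + (1) * j 2 0 1 1 1 = 0
  r8_00101 :
    (-1) * j 1 0 2 0 2 + (1) * j 0 0 1 1 2 = 0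
  r8_10001 :
    (-1) * j 2 0 1 0 2 + (1) * j 1 0 0 1 2 = 0
  r9_00200 :
    (q) * j 5 0 2 0 0 + (-4*q) * j 3 1 2 0 0 + (3*q) * j 1 2 2 0 0 + (1) * j 1 0 2 0 2 = 0
  r9_10100 :
    (q) * j 6 0 1 0 0 + (-4*q) * j 4 1 1 0 0 + (3*q) * j 2 2 1 0 0 + (1) * j 2 0 1 0 2 = 0
  r9_20000 :
    (q) * j 7 0 0 0 0 + (-4*q) * j 5 1 0 0 0 + (3*q) * j 3 2 0 0 0 + (1) * j 3 0 0 0 2 = 0
  r9_00001 :
    (q) * j 5 0 0 0 1 + (-4*q) * j 3 1 0 0 1 + (3*q) * j 1 2 0 0 1 + (1) * j 1 0 0 0 3 = 0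
  n1 :
    (1) * j 7 0 0 0 0 + (-5) * j 5 1 0 0 0 + (7) * j 3 2 0 0 0 + (-3) * j 1 3 0 0 0 = 1
  n2 :
    (1) * j 7 0 0 0 0 + (-5) * j 5 1 0 0 0 + (7) * j 3 2 0 0 0 + (-2) * j 1 3 0 0 0 = a
  n3 :
    (1) * j 5 0 0 1 0 + (-4) * j 3 1 0 1 0 + (3) * j 1 2 0 1 0 = mu
  n4 :
    (1) * j 5 0 0 1 0 + (-1) * j 4 1 1 0 0 + (-3) * j 3 1 0 1 0 + (3) * j 2 2 1 0 0 + (1) * j 1 2
    0 1 0 + (-1) * j 0 3 1 0 0 = l

set_option linter.unusedSimpArgs false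

namespace T62H
variable {R : Type} [CommRing R] [Algebra ℝ R] {J : R →ₗ[ℝ] ℝ} {A e t r s : R} {a mu l c q : ℝ}

theorem G1 (h : R62 J A e t r s a mu l c q) :
    (-1 : ℝ) • Mq A e t r s 3 0 0 0 0 + (2 : ℝ) • Mq A e t r s 1 1 0 0 0 + (-1 : ℝ) • Mq A e t r
    s 1 0 2 0 0 + (-c : ℝ) • Mq A e t r s 1 0 0 1 0 + (c : ℝ) • Mq A e t r s 0 1 1 0 0 + (2 : ℝ)
    • Mq A e t r s 0 0 1 1 0 = 0 := by
  have k := h.g1
  simp only [Mq, Hn] at k ⊢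
  linear_combination (norm := algebra) k

theorem G2 (h : R62 J A e t r s a mu l c q) :
    (-1 : ℝ) • Mq A e t r s 4 0 0 0 0 + (3 : ℝ) • Mq A e t r s 2 1 0 0 0 + (-1 : ℝ) • Mq A e t r
    s 0 2 0 0 0 + (-1 : ℝ) • Mq A e t r s 0 1 2 0 0 + (1 : ℝ) • Mq A e t r s 0 0 0 2 0 = 0 := by
  have k := h.g2
  simp only [Mq, Hn] at k ⊢
  linear_combination (norm := algebra) k

theorem G3 (h : R62 J A e t r s a mu l c q) :
    (1 : ℝ) • Mq A e t r s 2 0 0 1 0 + (-1 : ℝ) • Mq A e t r s 1 1 1 0 0 + (-1 : ℝ) • Mq A e t r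
    s 0 1 0 1 0 = 0 := by
  have k := h.g3
  simp only [Mq, Hn] at k ⊢
  linear_combination (norm := algebra) k

theorem G4 (h : R62 J A e t r s a mu l c q) :
    (1 : ℝ) • Mq A e t r s 1 1 0 1 0 + (-1 : ℝ) • Mq A e t r s 0 2 1 0 0 = 0 := by
  have k := h.g4
  simp only [Mq, Hn] at k ⊢
  linear_combination (norm := algebra) k

theorem G5 (h : R62 J A e t r s a mu l c q) :
    (1 : ℝ) • Mq A e t r s 6 0 0 0 0 + (-5 : ℝ) • Mq A e t r s 4 1 0 0 0 + (6 : ℝ) • Mq A e t r s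
    2 2 0 0 0 + (-1 : ℝ) • Mq A e t r s 0 3 0 0 0 = 0 := by
  have k := h.g5
  simp only [Mq, Hn] at k ⊢
  linear_combination (norm := algebra) k

theorem G6 (h : R62 J A e t r s a mu l c q) :
    (1 : ℝ) • Mq A e t r s 5 1 0 0 0 + (-4 : ℝ) • Mq A e t r s 3 2 0 0 0 + (3 : ℝ) • Mq A e t r s
    1 3 0 0 0 = 0 := by
  have k := h.g6
  simp only [Mq, Hn] at k ⊢
  linear_combination (norm := algebra) k

theorem G7 (h : R62 J A e t r s a mu l c q) :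
    (1 : ℝ) • Mq A e t r s 0 1 0 0 1 = 0 := by
  have k := h.g7
  simp only [Mq, Hn] at k ⊢
  linear_combination (norm := algebra) k

theorem G8 (h : R62 J A e t r s a mu l c q) :
    (-1 : ℝ) • Mq A e t r s 1 0 1 0 1 + (1 : ℝ) • Mq A e t r s 0 0 0 1 1 = 0 := by
  have k := h.g8
  simp only [Mq, Hn] at k ⊢
  linear_combination (norm := algebra) k

theorem G9 (h : R62 J A e t r s a mu l c q) :
    (q : ℝ) • Mq A e t r s 5 0 0 0 0 + (-4*q : ℝ) • Mq A e t r s 3 1 0 0 0 + (3*q : ℝ) • Mq A e t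
    r s 1 2 0 0 0 + (1 : ℝ) • Mq A e t r s 1 0 0 0 2 = 0 := by
  have k := h.g9
  simp only [Mq, Hn] at k ⊢
  linear_combination (norm := algebra) k

theorem N1 (h : R62 J A e t r s a mu l c q) :
    J ((1 : ℝ) • Mq A e t r s 7 0 0 0 0 + (-5 : ℝ) • Mq A e t r s 5 1 0 0 0 + (7 : ℝ) • Mq A e t
    r s 3 2 0 0 0 + (-3 : ℝ) • Mq A e t r s 1 3 0 0 0) = 1 := by
  refine Eq.trans (congrArg J ?_) h.n1
  simp only [Mq, Hn]
  algebra

theorem N2 (h : R62 J A e t r s a mu l c q) :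
    J ((1 : ℝ) • Mq A e t r s 7 0 0 0 0 + (-5 : ℝ) • Mq A e t r s 5 1 0 0 0 + (7 : ℝ) • Mq A e t
    r s 3 2 0 0 0 + (-2 : ℝ) • Mq A e t r s 1 3 0 0 0) = a := by
  refine Eq.trans (congrArg J ?_) h.n2
  simp only [Mq, Hn]
  algebra

theorem N3 (h : R62 J A e t r s a mu l c q) :
    J ((1 : ℝ) • Mq A e t r s 5 0 0 1 0 + (-4 : ℝ) • Mq A e t r s 3 1 0 1 0 + (3 : ℝ) • Mq A e t
    r s 1 2 0 1 0) = mu := by
  refine Eq.trans (congrArg J ?_) h.n3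
  simp only [Mq, Hn]
  algebra

theorem N4 (h : R62 J A e t r s a mu l c q) :
    J ((1 : ℝ) • Mq A e t r s 5 0 0 1 0 + (-1 : ℝ) • Mq A e t r s 4 1 1 0 0 + (-3 : ℝ) • Mq A e t
    r s 3 1 0 1 0 + (3 : ℝ) • Mq A e t r s 2 2 1 0 0 + (1 : ℝ) • Mq A e t r s 1 2 0 1 0 + (-1 :
    ℝ) • Mq A e t r s 0 3 1 0 0) = l := by
  refine Eq.trans (congrArg J ?_) h.n4
  simp only [Mq, Hn]
  algebra

end T62H

open T62H in
set_option maxHeartbeats 1000000 in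
theorem l62 {R : Type} [CommRing R] [Algebra ℝ R] {J : R →ₗ[ℝ] ℝ} {A e t r s : R} {a mu l c q : ℝ}
    (h : R62 J A e t r s a mu l c q) :
    L62 (fun i j k m n => J (Mq A e t r s i j k m n)) a mu l c q := by
  have K : ∀ {x : R}, x = 0 → ∀ i j k m n, J (x * Mq A e t r s i j k m n) = 0 :=
    fun h _ _ _ _ _ => by rw [h, zero_mul, map_zero]
  constructor
  · simpa only [add_mul, smul_mul_assoc, Mq_mul, Nat.reduceAdd, map_add, map_smul, smul_eq_mul]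
      using K (G1 h) 1 0 3 0 0
  · simpa only [add_mul, smul_mul_assoc, Mq_mul, Nat.reduceAdd, map_add, map_smul, smul_eq_mul]
      using K (G1 h) 2 0 2 0 0
  · simpa only [add_mul, smul_mul_assoc, Mq_mul, Nat.reduceAdd, map_add, map_smul, smul_eq_mul]
      using K (G1 h) 3 0 1 0 0
  · simpa only [add_mul, smul_mul_assoc, Mq_mul, Nat.reduceAdd, map_add, map_smul, smul_eq_mul]
      using K (G1 h) 4 0 0 0 0
  · simpa only [add_mul, smul_mul_assoc, Mq_mul, Nat.reduceAdd, map_add, map_smul, smul_eq_mul]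
      using K (G1 h) 0 0 2 1 0
  · simpa only [add_mul, smul_mul_assoc, Mq_mul, Nat.reduceAdd, map_add, map_smul, smul_eq_mul]
      using K (G1 h) 1 0 1 1 0
  · simpa only [add_mul, smul_mul_assoc, Mq_mul, Nat.reduceAdd, map_add, map_smul, smul_eq_mul]
      using K (G1 h) 2 0 0 1 0
  · simpa only [add_mul, smul_mul_assoc, Mq_mul, Nat.reduceAdd, map_add, map_smul, smul_eq_mul]
      using K (G1 h) 0 1 2 0 0
  · simpa only [add_mul, smul_mul_assoc, Mq_mul, Nat.reduceAdd, map_add, map_smul, smul_eq_mul]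
      using K (G1 h) 1 1 1 0 0
  · simpa only [add_mul, smul_mul_assoc, Mq_mul, Nat.reduceAdd, map_add, map_smul, smul_eq_mul]
      using K (G1 h) 2 1 0 0 0
  · simpa only [add_mul, smul_mul_assoc, Mq_mul, Nat.reduceAdd, map_add, map_smul, smul_eq_mul]
      using K (G1 h) 0 1 0 1 0
  · simpa only [add_mul, smul_mul_assoc, Mq_mul, Nat.reduceAdd, map_add, map_smul, smul_eq_mul]
      using K (G1 h) 0 2 0 0 0
  · simpa only [add_mul, smul_mul_assoc, Mq_mul, Nat.reduceAdd, map_add, map_smul, smul_eq_mul]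
      using K (G1 h) 0 0 2 0 1
  · simpa only [add_mul, smul_mul_assoc, Mq_mul, Nat.reduceAdd, map_add, map_smul, smul_eq_mul]
      using K (G1 h) 1 0 1 0 1
  · simpa only [add_mul, smul_mul_assoc, Mq_mul, Nat.reduceAdd, map_add, map_smul, smul_eq_mul]
      using K (G1 h) 2 0 0 0 1
  · simpa only [add_mul, smul_mul_assoc, Mq_mul, Nat.reduceAdd, map_add, map_smul, smul_eq_mul]
      using K (G1 h) 0 0 0 1 1
  · simpa only [add_mul, smul_mul_assoc, Mq_mul, Nat.reduceAdd, map_add, map_smul, smul_eq_mul]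
      using K (G1 h) 0 1 0 0 1
  · simpa only [add_mul, smul_mul_assoc, Mq_mul, Nat.reduceAdd, map_add, map_smul, smul_eq_mul]
      using K (G1 h) 0 0 0 0 2
  · simpa only [add_mul, smul_mul_assoc, Mq_mul, Nat.reduceAdd, map_add, map_smul, smul_eq_mul]
      using K (G2 h) 0 0 3 0 0
  · simpa only [add_mul, smul_mul_assoc, Mq_mul, Nat.reduceAdd, map_add, map_smul, smul_eq_mul]
      using K (G2 h) 1 0 2 0 0
  · simpa only [add_mul, smul_mul_assoc, Mq_mul, Nat.reduceAdd, map_add, map_smul, smul_eq_mul]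
      using K (G2 h) 2 0 1 0 0
  · simpa only [add_mul, smul_mul_assoc, Mq_mul, Nat.reduceAdd, map_add, map_smul, smul_eq_mul]
      using K (G2 h) 3 0 0 0 0
  · simpa only [add_mul, smul_mul_assoc, Mq_mul, Nat.reduceAdd, map_add, map_smul, smul_eq_mul]
      using K (G2 h) 1 0 0 1 0
  · simpa only [add_mul, smul_mul_assoc, Mq_mul, Nat.reduceAdd, map_add, map_smul, smul_eq_mul]
      using K (G2 h) 0 1 1 0 0
  · simpa only [add_mul, smul_mul_assoc, Mq_mul, Nat.reduceAdd, map_add, map_smul, smul_eq_mul]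
      using K (G2 h) 1 1 0 0 0
  · simpa only [add_mul, smul_mul_assoc, Mq_mul, Nat.reduceAdd, map_add, map_smul, smul_eq_mul]
      using K (G2 h) 0 0 1 0 1
  · simpa only [add_mul, smul_mul_assoc, Mq_mul, Nat.reduceAdd, map_add, map_smul, smul_eq_mul]
      using K (G2 h) 1 0 0 0 1
  · simpa only [add_mul, smul_mul_assoc, Mq_mul, Nat.reduceAdd, map_add, map_smul, smul_eq_mul]
      using K (G3 h) 0 0 3 0 0
  · simpa only [add_mul, smul_mul_assoc, Mq_mul, Nat.reduceAdd, map_add, map_smul, smul_eq_mul]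
      using K (G3 h) 1 0 2 0 0
  · simpa only [add_mul, smul_mul_assoc, Mq_mul, Nat.reduceAdd, map_add, map_smul, smul_eq_mul]
      using K (G3 h) 2 0 1 0 0
  · simpa only [add_mul, smul_mul_assoc, Mq_mul, Nat.reduceAdd, map_add, map_smul, smul_eq_mul]
      using K (G3 h) 3 0 0 0 0
  · simpa only [add_mul, smul_mul_assoc, Mq_mul, Nat.reduceAdd, map_add, map_smul, smul_eq_mul]
      using K (G3 h) 0 0 1 1 0
  · simpa only [add_mul, smul_mul_assoc, Mq_mul, Nat.reduceAdd, map_add, map_smul, smul_eq_mul]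
      using K (G3 h) 1 0 0 1 0
  · simpa only [add_mul, smul_mul_assoc, Mq_mul, Nat.reduceAdd, map_add, map_smul, smul_eq_mul]
      using K (G3 h) 0 1 1 0 0
  · simpa only [add_mul, smul_mul_assoc, Mq_mul, Nat.reduceAdd, map_add, map_smul, smul_eq_mul]
      using K (G3 h) 0 0 1 0 1
  · simpa only [add_mul, smul_mul_assoc, Mq_mul, Nat.reduceAdd, map_add, map_smul, smul_eq_mul]
      using K (G3 h) 1 0 0 0 1
  · simpa only [add_mul, smul_mul_assoc, Mq_mul, Nat.reduceAdd, map_add, map_smul, smul_eq_mul]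
      using K (G4 h) 0 0 2 0 0
  · simpa only [add_mul, smul_mul_assoc, Mq_mul, Nat.reduceAdd, map_add, map_smul, smul_eq_mul]
      using K (G4 h) 2 0 0 0 0
  · simpa only [add_mul, smul_mul_assoc, Mq_mul, Nat.reduceAdd, map_add, map_smul, smul_eq_mul]
      using K (G4 h) 0 0 0 1 0
  · simpa only [add_mul, smul_mul_assoc, Mq_mul, Nat.reduceAdd, map_add, map_smul, smul_eq_mul]
      using K (G4 h) 0 1 0 0 0
  · simpa only [add_mul, smul_mul_assoc, Mq_mul, Nat.reduceAdd, map_add, map_smul, smul_eq_mul]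
      using K (G4 h) 0 0 0 0 1
  · simpa only [add_mul, smul_mul_assoc, Mq_mul, Nat.reduceAdd, map_add, map_smul, smul_eq_mul]
      using K (G6 h) 0 0 0 0 0
  · simpa only [add_mul, smul_mul_assoc, Mq_mul, Nat.reduceAdd, map_add, map_smul, smul_eq_mul]
      using K (G7 h) 0 0 3 0 0
  · simpa only [add_mul, smul_mul_assoc, Mq_mul, Nat.reduceAdd, map_add, map_smul, smul_eq_mul]
      using K (G7 h) 1 0 2 0 0
  · simpa only [add_mul, smul_mul_assoc, Mq_mul, Nat.reduceAdd, map_add, map_smul, smul_eq_mul]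
      using K (G7 h) 2 0 1 0 0
  · simpa only [add_mul, smul_mul_assoc, Mq_mul, Nat.reduceAdd, map_add, map_smul, smul_eq_mul]
      using K (G7 h) 3 0 0 0 0
  · simpa only [add_mul, smul_mul_assoc, Mq_mul, Nat.reduceAdd, map_add, map_smul, smul_eq_mul]
      using K (G7 h) 0 0 1 1 0
  · simpa only [add_mul, smul_mul_assoc, Mq_mul, Nat.reduceAdd, map_add, map_smul, smul_eq_mul]
      using K (G7 h) 1 0 0 1 0
  · simpa only [add_mul, smul_mul_assoc, Mq_mul, Nat.reduceAdd, map_add, map_smul, smul_eq_mul]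
      using K (G7 h) 0 0 1 0 1
  · simpa only [add_mul, smul_mul_assoc, Mq_mul, Nat.reduceAdd, map_add, map_smul, smul_eq_mul]
      using K (G7 h) 1 0 0 0 1
  · simpa only [add_mul, smul_mul_assoc, Mq_mul, Nat.reduceAdd, map_add, map_smul, smul_eq_mul]
      using K (G8 h) 0 0 3 0 0
  · simpa only [add_mul, smul_mul_assoc, Mq_mul, Nat.reduceAdd, map_add, map_smul, smul_eq_mul]
      using K (G8 h) 1 0 2 0 0
  · simpa only [add_mul, smul_mul_assoc, Mq_mul, Nat.reduceAdd, map_add, map_smul, smul_eq_mul]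
      using K (G8 h) 2 0 1 0 0
  · simpa only [add_mul, smul_mul_assoc, Mq_mul, Nat.reduceAdd, map_add, map_smul, smul_eq_mul]
      using K (G8 h) 0 0 1 0 1
  · simpa only [add_mul, smul_mul_assoc, Mq_mul, Nat.reduceAdd, map_add, map_smul, smul_eq_mul]
      using K (G8 h) 1 0 0 0 1
  · simpa only [add_mul, smul_mul_assoc, Mq_mul, Nat.reduceAdd, map_add, map_smul, smul_eq_mul]
      using K (G9 h) 0 0 2 0 0
  · simpa only [add_mul, smul_mul_assoc, Mq_mul, Nat.reduceAdd, map_add, map_smul, smul_eq_mul]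
      using K (G9 h) 1 0 1 0 0
  · simpa only [add_mul, smul_mul_assoc, Mq_mul, Nat.reduceAdd, map_add, map_smul, smul_eq_mul]
      using K (G9 h) 2 0 0 0 0
  · simpa only [add_mul, smul_mul_assoc, Mq_mul, Nat.reduceAdd, map_add, map_smul, smul_eq_mul]
      using K (G9 h) 0 0 0 0 1
  · simpa only [map_add, map_smul, smul_eq_mul] using N1 h
  · simpa only [map_add, map_smul, smul_eq_mul] using N2 h
  · simpa only [map_add, map_smul, smul_eq_mul] using N3 h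
  · simpa only [map_add, map_smul, smul_eq_mul] using N4 h

end Vale.Agent.P280Z.M2
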