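import Vale.Agent.P280Z.Al.Tab2
import Vale.Agent.P280Z.Qs.Gen

/-!
# P280Z, block M2: the ring of the space of curves for dimension five and degree four
-/

noncomputable section

namespace Vale.Agent.P280Z.N52

open Al

variable {R : Type} [CommRing R] [Algebra ℝ R] {J : R →ₗ[ℝ] ℝ} {A e s r : R} {q b ζ m : ℝ}

/-- the relations -/
structure Rl (A e s r : R) (q : ℝ) : Prop where
  a1 : A * r - e * s = 0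
  a2 : e * r = 0
  c1 : 2 * r * s - A * s ^ 2 - q • (A ^ 3 - 2 * A * e) = 0
  c2 : r ^ 2 - e * s ^ 2 - q • (A ^ 4 - 3 * A ^ 2 * e + e ^ 2) = 0
  h1 : A ^ 5 - 4 * A ^ 3 * e + 3 * A * e ^ 2 = 0
  h2 : e * (A ^ 4 - 3 * A ^ 2 * e + e ^ 2) = 0

/-- the table of the numbers -/
structure Tb (j : ℕ → ℕ → ℕ → ℕ → ℝ) (q b ζ m : ℝ) : Prop where
  v6000 : j 6 0 0 0 = 5*b + 9
  v4100 : j 4 1 0 0 = 2*b + 3
  v2200 : j 2 2 0 0 = b + 1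
  v0300 : j 0 3 0 0 = b
  v5010 : j 5 0 1 0 = 4*ζ
  v3110 : j 3 1 1 0 = ζ
  v1210 : j 1 2 1 0 = 0
  v4020 : j 4 0 2 0 = -b*q - 5*q
  v2120 : j 2 1 2 0 = -q
  v0220 : j 0 2 2 0 = 0
  v3030 : j 3 0 3 0 = -4*q*ζ
  v1130 : j 1 1 3 0 = -q*ζ
  v2040 : j 2 0 4 0 = 5*b*q^2 + 9*q^2
  v0140 : j 0 1 4 0 = 2*b*q^2 + 3*q^2
  v1050 : j 1 0 5 0 = m
  v4001 : j 4 0 0 1 = ζ
  v2101 : j 2 1 0 1 = 0
  v3011 : j 3 0 1 1 = -q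
  v2021 : j 2 0 2 1 = -q*ζ
  v1111 : j 1 1 1 1 = 0
  v0201 : j 0 2 0 1 = 0
  v1031 : j 1 0 3 1 = 2*b*q^2 + 3*q^2

theorem tb (h : Rl A e s r q) (n1 : J (Mn A e s r 2 2 0 0) = b + 1)
    (n2 : J (Mn A e s r 0 3 0 0) = b) (n3 : J (Mn A e s r 3 1 1 0) = ζ)
    (n4 : J (Mn A e s r 1 0 5 0) = m) : Tb (fun i j k l => J (Mn A e s r i j k l)) q b ζ m :=
  have k : ∀ (α β γ : ℝ) {x : R},
      x = α • Mn A e s r 2 2 0 0 + β • Mn A e s r 0 3 0 0 + γ • Mn A e s r 3 1 1 0 →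
      J x = α * (b + 1) + β * b + γ * ζ := fun α β γ x hx => by
    rw [hx, map_add, map_add, map_smul, map_smul, map_smul, n1, n2, n3]; rfl
  {
    v6000 := (k (9) (-4) (0) (by
      simp only [Mn]
      linear_combination (norm := algebra) (4 : ℝ) • h.h2 + (1 : ℝ) • (A * h.h1))).trans (by ring)
    v4100 := (k (3) (-1) (0) (by
      simp only [Mn]
      linear_combination (norm := algebra) (1 : ℝ) • h.h2)).trans (by ring)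
    v2200 := n1
    v0300 := n2
    v5010 := (k (0) (0) (4) (by
      simp only [Mn]
      linear_combination (norm := algebra) (1 : ℝ) • (s * h.h1) + (3 : ℝ) • (A*e * h.a1) + (-3 : ℝ)
      • (A^2 * h.a2))).trans (by ring)
    v3110 := n3
    v1210 := (k (0) (0) (0) (by
      simp only [Mn]
      linear_combination (norm := algebra) (-1 : ℝ) • (A*e * h.a1) + (1 : ℝ) • (A^2 * h.a2))).trans
      (by ring)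
    v4020 := (k (-5*q) (4*q) (0) (by
      simp only [Mn]
      linear_combination (norm := algebra) (-1 : ℝ) • (A^3 * h.c1) + (2 : ℝ) • (A^2*s * h.a1) +
      (-4*q : ℝ) • h.h2 + (-q : ℝ) • (A * h.h1) + (-2 : ℝ) • (A*e * h.c1) + (4 : ℝ) • (A*s *
      h.a2))).trans (by ring)
    v2120 := (k (-q) (q) (0) (by
      simp only [Mn]
      linear_combination (norm := algebra) (-1 : ℝ) • (A*e * h.c1) + (2 : ℝ) • (A*s * h.a2) + (-q :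
      ℝ) • h.h2)).trans (by ring)
    v0220 := (k (0) (0) (0) (by
      simp only [Mn]
      linear_combination (norm := algebra) (-1 : ℝ) • (e*s * h.a1) + (1 : ℝ) • (A*s * h.a2))).trans
      (by ring)
    v3030 := (k (0) (0) (-4*q) (by
      simp only [Mn]
      linear_combination (norm := algebra) (-1 : ℝ) • (A^2*s * h.c1) + (2 : ℝ) • (A*s^2 * h.a1) +
      (-q : ℝ) • (s * h.h1) + (-7*q : ℝ) • (A*e * h.a1) + (7*q : ℝ) • (A^2 * h.a2) + (-2 : ℝ) • (e*s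
      * h.c1) + (4 : ℝ) • (s^2 * h.a2))).trans (by ring)
    v1130 := (k (0) (0) (-q) (by
      simp only [Mn]
      linear_combination (norm := algebra) (-1 : ℝ) • (e*s * h.c1) + (2 : ℝ) • (s^2 * h.a2) + (-2*q
      : ℝ) • (A*e * h.a1) + (2*q : ℝ) • (A^2 * h.a2))).trans (by ring)
    v2040 := (k (9*q^2) (-4*q^2) (0) (by
      simp only [Mn]
      linear_combination (norm := algebra) (-4 : ℝ) • (s^2 * h.c2) + (2 : ℝ) • (s*r * h.c1) + (4 :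
      ℝ) • (s^3 * h.a1) + (-8*q : ℝ) • (A^2*s * h.a1) + (4*q : ℝ) • (A*s * h.a2) + (-1 : ℝ) • (A*s^2
      * h.c1) + (5*q : ℝ) • (A^3 * h.c1) + (4*q^2 : ℝ) • h.h2 + (5*q^2 : ℝ) • (A * h.h1) + (-6*q :
      ℝ) • (A*e * h.c1) + (4*q : ℝ) • (e*s * h.a1))).trans (by ring)
    v0140 := (k (3*q^2) (-q^2) (0) (by
      simp only [Mn]
      linear_combination (norm := algebra) (1 : ℝ) • (s^3 * h.a1) + (-2 : ℝ) • (s^2 * h.c2) + (1 :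
      ℝ) • (s*r * h.c1) + (-3*q : ℝ) • (A^2*s * h.a1) + (2*q : ℝ) • (A*s * h.a2) + (2*q : ℝ) • (A^3
      * h.c1) + (2*q^2 : ℝ) • (A * h.h1) + (-3*q : ℝ) • (A*e * h.c1) + (2*q : ℝ) • (e*s * h.a1) +
      (q^2 : ℝ) • h.h2)).trans (by ring)
    v1050 := n4
    v4001 := (k (0) (0) (1) (by
      simp only [Mn]
      linear_combination (norm := algebra) (1 : ℝ) • (A^3 * h.a1))).trans (by ring)
    v2101 := (k (0) (0) (0) (by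
      simp only [Mn]
      linear_combination (norm := algebra) (1 : ℝ) • (A^2 * h.a2))).trans (by ring)
    v3011 := (k (-q) (q) (0) (by
      simp only [Mn]
      linear_combination (norm := algebra) (1 : ℝ) • (A^2*s * h.a1) + (-1 : ℝ) • (A*e * h.c1) + (2 :
      ℝ) • (A*s * h.a2) + (-q : ℝ) • h.h2)).trans (by ring)
    v2021 := (k (0) (0) (-q) (by
      simp only [Mn]
      linear_combination (norm := algebra) (1 : ℝ) • (A*s^2 * h.a1) + (-1 : ℝ) • (e*s * h.c1) + (2 :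
      ℝ) • (s^2 * h.a2) + (-2*q : ℝ) • (A*e * h.a1) + (2*q : ℝ) • (A^2 * h.a2))).trans (by ring)
    v1111 := (k (0) (0) (0) (by
      simp only [Mn]
      linear_combination (norm := algebra) (1 : ℝ) • (A*s * h.a2))).trans (by ring)
    v0201 := (k (0) (0) (0) (by
      simp only [Mn]
      linear_combination (norm := algebra) (1 : ℝ) • (e * h.a2))).trans (by ring)
    v1031 := (k (3*q^2) (-q^2) (0) (by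
      simp only [Mn]
      linear_combination (norm := algebra) (-2 : ℝ) • (s^2 * h.c2) + (1 : ℝ) • (s*r * h.c1) + (2 :
      ℝ) • (s^3 * h.a1) + (-3*q : ℝ) • (A^2*s * h.a1) + (2*q : ℝ) • (A*s * h.a2) + (2*q : ℝ) • (A^3
      * h.c1) + (2*q^2 : ℝ) • (A * h.h1) + (-3*q : ℝ) • (A*e * h.c1) + (2*q : ℝ) • (e*s * h.a1) +
      (q^2 : ℝ) • h.h2)).trans (by ring)
  }

/-- the classes `t k` -/
structure Pk (A e s r U : R) (t : ℕ → R) (x2 x3 x4 x5 y2 y3 : ℝ) : Prop where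
  u : U = (1 / 4 : ℝ) • (A ^ 2 - 4 * e)
  t2 : t 2 = x2 • A + y2 • s
  t3 : t 3 = x3 • (A ^ 2 - e) + y3 • r
  t4 : t 4 = x4 • (A ^ 3 - 2 * A * e)
  t5 : t 5 = x5 • (A ^ 4 - 3 * A ^ 2 * e + e ^ 2)
  t6 : t 6 = 0
  t7 : t 7 = 0

variable {U f : R} {t Q : ℕ → R} {x2 x3 x4 x5 y2 y3 : ℝ}

theorem nf3 (h : Rl A e s r q) (k : Pk A e s r U t x2 x3 x4 x5 y2 y3) (c : Qs.Ch 2 t Q U)
    (hf : f = (1 / 2 : ℝ) • (Q 1 ^ 2 - Q 2)) (n : Q 3 = Q 1 * Q 2 - f * Q 1) :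
    (-2*q*y2*y3 + x2^3 - 4*x2*x3 + 8*x2 + 4*x4 : ℝ) • Mn A e s r 3 0 0 0 + (4*q*y2*y3 + 4*x2*x3 -
    32*x2 - 8*x4 : ℝ) • Mn A e s r 1 1 0 0 + (3*x2^2*y2 - 4*x3*y2 + 8*y2 : ℝ) • Mn A e s r 2 0 1 0 +
    (-4*x2*y3 + 4*x3*y2 - 32*y2 : ℝ) • Mn A e s r 0 1 1 0 + (3*x2*y2^2 - 2*y2*y3 : ℝ) • Mn A e s r 1
    0 2 0 + (y2^3 : ℝ) • Mn A e s r 0 0 3 0 = 0 := by
  rw [hf, c.q3, c.q2, c.q1, k.t4, k.t3, k.t2, k.u] at n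
  simp only [Mn]
  linear_combination (norm := algebra) (16 : ℝ) • n + (4*x2*y3 : ℝ) • h.a1 + (2*y2*y3 : ℝ) • h.c1

theorem nf4 (h : Rl A e s r q) (k : Pk A e s r U t x2 x3 x4 x5 y2 y3) (c : Qs.Ch 2 t Q U)
    (hf : f = (1 / 2 : ℝ) • (Q 1 ^ 2 - Q 2)) (n : Q 4 = Q 1 * Q 3 - f * Q 2) :
    (30*q*x2*y2*y3 - 15*q*x3*y2^2 + 60*q*y2^2 - 60*q*y3^2 + 30*x2^2*x3 - 30*x2^2 - 90*x2*x4 -
    40*x3^2 + 80*x3 + 144*x5 - 256 : ℝ) • Mn A e s r 4 0 0 0 + (-60*q*x2*y2*y3 + 30*q*x3*y2^2 -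
    120*q*y2^2 + 160*q*y3^2 - 30*x2^2*x3 + 120*x2^2 + 180*x2*x4 + 80*x3^2 - 400*x3 - 432*x5 + 2048 :
    ℝ) • Mn A e s r 2 1 0 0 + (15*q*y2^2*y3 + 60*x2*x3*y2 - 60*x2*y2 - 90*x4*y2 : ℝ) • Mn A e s r 3
    0 1 0 + (30*x2*y2*y3 + 15*x3*y2^2 + 30*y2^2 - 20*y3^2 : ℝ) • Mn A e s r 2 0 2 0 + (-30*q*y2^2*y3
    + 30*x2^2*y3 - 60*x2*x3*y2 + 240*x2*y2 - 80*x3*y3 + 180*x4*y2 + 80*y3 : ℝ) • Mn A e s r 1 1 1 0
    + (-40*q*y3^2 - 40*x3^2 + 320*x3 + 144*x5 - 4096 : ℝ) • Mn A e s r 0 2 0 0 + (15*y2^2*y3 : ℝ) •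
    Mn A e s r 1 0 3 0 = 0 := by
  rw [hf, c.q4, c.q3, c.q2, c.q1, k.t5, k.t4, k.t3, k.t2, k.u] at n
  simp only [Mn]
  linear_combination (norm := algebra) (720 : ℝ) • n + (-30*x2^2*y3 + 80*x3*y3 - 80*y3 : ℝ) • (A *
    h.a1) + (-80*x3*y3 + 320*y3 : ℝ) • h.a2 + (-30*x2*y2*y3 + 15*x3*y2^2 - 60*y2^2 + 20*y3^2 : ℝ) • (A
    * h.c1) + (-30*x3*y2^2 + 120*y2^2 - 40*y3^2 : ℝ) • (s * h.a1) + (-15*y2^2*y3 : ℝ) • (s * h.c1) +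
    (40*y3^2 : ℝ) • h.c2

theorem nf5 (h : Rl A e s r q) (k : Pk A e s r U t x2 x3 x4 x5 y2 y3) (c : Qs.Ch 2 t Q U)
    (hf : f = (1 / 2 : ℝ) • (Q 1 ^ 2 - Q 2)) (n : Q 5 = Q 1 * Q 4 - f * Q 3) :
    (-120*q*x2*y2^2 + 40*q*x4*y2^2 - (200/3)*q*y2*y3 - 15*x2^3 + 30*x2^2*x4 - (100/3)*x2*x3 -
    64*x2*x5 - 104*x2 - (40/3)*x3*x4 + (500/3)*x4 : ℝ) • Mn A e s r 5 0 0 0 + (300*q*x2*y2^2 -
    100*q*x4*y2^2 + (500/3)*q*y2*y3 + 60*x2^3 - 60*x2^2*x4 + (100/3)*x2*x3 + 160*x2*x5 + 320*x2 +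
    (40/3)*x3*x4 - (1400/3)*x4 : ℝ) • Mn A e s r 3 1 0 0 + (30*q*y2^3 - 45*x2^2*y2 + 60*x2*x4*y2 +
    100*x3*y2 - 96*x5*y2 + 24*y2 : ℝ) • Mn A e s r 4 0 1 0 + (-60*q*y2^3 + 180*x2^2*y2 -
    120*x2*x4*y2 + 100*x2*y3 - 500*x3*y2 - 40*x4*y3 + 288*x5*y2 - 192*y2 : ℝ) • Mn A e s r 2 1 1 0 +
    (-45*x2*y2^2 + 30*x4*y2^2 : ℝ) • Mn A e s r 3 0 2 0 + (15*y2^3 : ℝ) • Mn A e s r 2 0 3 0 = 0 :=
    by
  rw [hf, c.q5, c.q4, c.q3, c.q2, c.q1, k.t6, k.t5, k.t4, k.t3, k.t2, k.u] at n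
  simp only [Mn]
  linear_combination (norm := algebra) (960 : ℝ) • n + (-120*q*x2*y2^2 + 40*q*x4*y2^2 -
    (200/3)*q*y2*y3 - (400/3)*x2*x3 + 32*x2*x5 - 128*x2 + (80/3)*x3*x4 + (800/3)*x4 : ℝ) • h.h1 +
    (400*x3*y2 - 96*x5*y2 + 384*y2 : ℝ) • (e * h.a1) + (400*x2*y3 - 400*x3*y2 - 80*x4*y3 + 96*x5*y2 -
    384*y2 : ℝ) • (A * h.a2) + (-100*x2*y3 + 40*x4*y3 : ℝ) • (A^2 * h.a1) + (-100*y2*y3 : ℝ) • (A*s *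
    h.a1) + (-360*x2*y2^2 + 120*x4*y2^2 + 200*y2*y3 : ℝ) • (s * h.a2) + (180*x2*y2^2 - 60*x4*y2^2 +
    100*y2*y3 : ℝ) • (e * h.c1) + (-30*y2^3 : ℝ) • (A*s * h.c1) + (60*y2^3 : ℝ) • (s^2 * h.a1)

theorem nf6 (h : Rl A e s r q) (k : Pk A e s r U t x2 x3 x4 x5 y2 y3) (c : Qs.Ch 2 t Q U)
    (hf : f = (1 / 2 : ℝ) • (Q 1 ^ 2 - Q 2)) (n : Q 6 = Q 1 * Q 5 - f * Q 4) :
    (420*q*x2*y2*y3 - 504*q*x5*y2^2 - 1134*q*y2^2 + 420*x2^2*x3 + 252*x2^2*x5 - 378*x2^2 -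
    1050*x2*x4 - 336*x3*x5 + 4704*x3 - 1680*x5 - 26880 : ℝ) • Mn A e s r 2 2 0 0 + (-420*q*x2*y2*y3
    + 210*q*x3*y2^2 + 252*q*x5*y2^2 + 1512*q*y2^2 - 210*x2^2*x3 - 252*x2^2*x5 - 1512*x2^2 +
    2100*x2*x4 - 560*x3^2 + 336*x3*x5 - 8624*x3 + 1680*x5 + 71680 : ℝ) • Mn A e s r 0 3 0 0 +
    (210*q*y2^2*y3 - 210*x2^2*y3 + 420*x2*x3*y2 + 504*x2*x5*y2 + 3024*x2*y2 + 560*x3*y3 - 2100*x4*y2
    - 336*x5*y3 + 784*y3 : ℝ) • Mn A e s r 3 1 1 0 = 0 := by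
  rw [hf, c.q6, c.q5, c.q4, c.q3, c.q2, c.q1, k.t7, k.t6, k.t5, k.t4, k.t3, k.t2, k.u] at n
  simp only [Mn]
  linear_combination (norm := algebra) (10080 : ℝ) • n + (-420*q*x2*y2*y3 + 210*q*x3*y2^2 +
    252*q*x5*y2^2 + 1512*q*y2^2 - 210*x2^2*x3 - 252*x2^2*x5 - 1512*x2^2 + 2100*x2*x4 + 560*x3^2 +
    3920*x3 - 5040*x5 - 10240 : ℝ) • h.h2 + (-210*q*x3*y2^2 + 252*q*x5*y2^2 - 378*q*y2^2 + 210*x2^2*x3
    - 252*x2^2*x5 + 378*x2^2 - 1050*x2*x4 - 280*x3^2 + 336*x3*x5 - 784*x3 + 1680*x5 + 1280 : ℝ) • (A *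
    h.h1) + (210*x2^2*y3 - 560*x3*y3 + 336*x5*y3 - 784*y3 : ℝ) • (A^3 * h.a1) + (420*q*y2^2*y3 -
    840*x2^2*y3 + 420*x2*x3*y2 + 1008*x2*x5*y2 + 9828*x2*y2 + 2800*x3*y3 - 5250*x4*y2 - 1008*x5*y3 +
    6272*y3 : ℝ) • (A^2 * h.a2) + (-2240*x3*y3 + 336*x5*y3 - 12544*y3 : ℝ) • (e * h.a2) +
    (420*x2*x3*y2 - 504*x2*x5*y2 + 756*x2*y2 - 1050*x4*y2 : ℝ) • (s * h.h1) + (-420*q*y2^2*y3 -
    420*x2*x3*y2 - 1008*x2*x5*y2 - 9828*x2*y2 + 5250*x4*y2 : ℝ) • (A*e * h.a1) + (-210*x3*y2^2 +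
    252*x5*y2^2 - 378*y2^2 : ℝ) • (A^3 * h.c1) + (420*x2*y2*y3 + 420*x3*y2^2 - 504*x5*y2^2 + 756*y2^2
    : ℝ) • (A^2*s * h.a1) + (-420*x2*y2*y3 + 630*x3*y2^2 - 252*x5*y2^2 + 2268*y2^2 : ℝ) • (A*e * h.c1)
    + (-840*x2*y2*y3 - 420*x3*y2^2 + 252*x5*y2^2 + 1512*y2^2 - 280*y3^2 : ℝ) • (A*s * h.a2) +
    (-840*x3*y2^2 + 252*x5*y2^2 - 6048*y2^2 : ℝ) • (e*s * h.a1) + (210*y2^2*y3 : ℝ) • (A*s^2 * h.a1) +
    (-420*y2^2*y3 : ℝ) • (s^2 * h.a2) + (-280*y3^2 : ℝ) • (A*r * h.a1) + (1120*y3^2 : ℝ) • (r * h.a2)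
    + (-210*y2^2*y3 : ℝ) • (e*s * h.c1)

end Vale.Agent.P280Z.N52
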