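import Vale.Agent.P280Z.M2.N52a

/-!
# P280Z, block M2: the equations for dimension five and degree four
-/

noncomputable section

namespace Vale.Agent.P280Z.N52

open Al

/-- the equations -/
structure E (q b ζ m x2 x3 x4 x5 y2 y3 : ℝ) : Prop where
  e3a :
    2*b*x2^3 - 4*b*x2*x3 - 16*b*x2 - 3*q*x2*y2^2 - q*y2^3*ζ + 3*x2^3 + 3*x2^2*y2*ζ - 8*x2*x3 - 8*x2
    - 4*x3*y2*ζ + 4*x4 + 8*y2*ζ = 0
  e3b :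
    2*b*q^2*y2^3 + 3*q^2*y2^3 - 3*q*x2^2*y2 - 3*q*x2*y2^2*ζ + 4*q*x3*y2 - 8*q*y2 + x2^3*ζ -
    4*x2*x3*ζ + 8*x2*ζ + 4*x4*ζ = 0
  e3c :
    -3*b*q*x2*y2^2 + 5*b*x2^3 - 12*b*x2*x3 - 24*b*x2 + 4*b*x4 - 15*q*x2*y2^2 - 4*q*y2^3*ζ +
    4*q*y2*y3 + 9*x2^3 + 12*x2^2*y2*ζ - 24*x2*x3 - 4*x2*y3*ζ - 24*x2 - 12*x3*y2*ζ + 12*x4 = 0
  e3d :
    5*b*q^2*y2^3 - 3*b*q*x2^2*y2 + 4*b*q*x3*y2 - 8*b*q*y2 + 9*q^2*y2^3 - 15*q*x2^2*y2 -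
    12*q*x2*y2^2*ζ + 4*q*x2*y3 + 16*q*x3*y2 + 4*q*y2*y3*ζ - 8*q*y2 + 4*x2^3*ζ - 12*x2*x3*ζ + 8*x4*ζ
    = 0
  e3e :
    15*b*q^2*x2*y2^2 - 8*b*q^2*y2*y3 - b*q*x2^3 + 4*b*q*x2*x3 - 8*b*q*x2 - 4*b*q*x4 + 27*q^2*x2*y2^2
    - 12*q^2*y2*y3 - 5*q*x2^3 - 12*q*x2^2*y2*ζ + 16*q*x2*x3 + 4*q*x2*y3*ζ - 8*q*x2 + 12*q*x3*y2*ζ -
    12*q*x4 + y2^3*m = 0
  e4a :
    3*b*x2^2*x3 + 6*b*x2^2 - 4*b*x3^2 + 8*b*x3 - 256*b - 3*q*x3*y2^2 + 3*q*y2^2 + 6*x2^2*x3 + 3*x2^2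
    + 6*x2*x3*y2*ζ - 9*x2*x4 - 6*x2*y2*ζ - 4*x3^2 - 16*x3 - 9*x4*y2*ζ + 128 = 0
  e4b :
    15*b*q^2*y2^2*y3 + 15*q^2*y2^2*y3 - 30*q*x2*x3*y2 + 30*q*x2*y2 - 15*q*x3*y2^2*ζ + 45*q*x4*y2 +
    15*q*y2^2*ζ - 20*q*y3^2*ζ + 15*x2^2*x3*ζ - 15*x2^2*ζ - 45*x2*x4*ζ - 20*x3^2*ζ + 40*x3*ζ +
    72*x5*ζ - 128*ζ = 0
  e4c :
    -15*b*q*x3*y2^2 + 15*b*q*y2^2 + 45*b*x2^2*x3 + 45*b*x2^2 - 45*b*x2*x4 - 40*b*x3^2 - 40*b*x3 -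
    640*b - 30*q*x2*y2*y3 - 60*q*x3*y2^2 - 15*q*y2^2*y3*ζ + 15*q*y2^2 + 90*x2^2*x3 + 15*x2^2*y3*ζ +
    45*x2^2 + 90*x2*x3*y2*ζ - 135*x2*x4 - 80*x3^2 - 40*x3*y3*ζ - 80*x3 - 90*x4*y2*ζ + 72*x5 +
    40*y3*ζ - 128 = 0
  e4d :
    30*b*q^2*y2^2*y3 - 30*b*q*x2*x3*y2 + 30*b*q*x2*y2 + 45*b*q*x4*y2 + 45*q^2*y2^2*y3 - 15*q*x2^2*y3
    - 120*q*x2*x3*y2 - 30*q*x2*y2*y3*ζ + 30*q*x2*y2 - 45*q*x3*y2^2*ζ + 40*q*x3*y3 + 135*q*x4*y2 -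
    40*q*y3 + 45*x2^2*x3*ζ - 90*x2*x4*ζ - 40*x3^2*ζ - 40*x3*ζ + 72*x5*ζ + 512*ζ = 0
  e4e :
    120*b*q^2*x2*y2*y3 + 90*b*q^2*x3*y2^2 + 90*b*q^2*y2^2 - 40*b*q^2*y3^2 - 30*b*q*x2^2*x3 +
    30*b*q*x2^2 + 90*b*q*x2*x4 + 40*b*q*x3^2 - 80*b*q*x3 - 144*b*q*x5 + 256*b*q + 180*q^2*x2*y2*y3 +
    180*q^2*x3*y2^2 - 30*q^2*y2^2*y3*ζ + 90*q^2*y2^2 - 40*q^2*y3^2 - 120*q*x2^2*x3 - 30*q*x2^2*y3*ζ
    + 30*q*x2^2 - 180*q*x2*x3*y2*ζ + 270*q*x2*x4 + 120*q*x3^2 + 80*q*x3*y3*ζ + 180*q*x4*y2*ζ -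
    288*q*x5 - 80*q*y3*ζ - 768*q + 15*y2^2*y3*m = 0
  e5a :
    45*b*q*x2*y2^2 - 30*b*q*x4*y2^2 + 45*b*x2^3 + 30*b*x2^2*x4 - 100*b*x2*x3 + 120*b*x2 - 40*b*x3*x4
    - 100*b*x4 + 45*q*x2*y2^2 - 90*q*x4*y2^2 - 100*q*y2*y3 + 45*x2^3 + 90*x2^2*x4 - 200*x2*x3 +
    120*x2*x4*y2*ζ - 96*x2*x5 + 100*x2*y3*ζ + 24*x2 - 80*x3*x4 - 100*x3*y2*ζ - 40*x4*y3*ζ + 100*x4 -
    96*x5*y2*ζ - 96*y2*ζ = 0
  e5b :
    45*b*q^2*y2^3 + 45*b*q*x2^2*y2 - 60*b*q*x2*x4*y2 - 100*b*q*x3*y2 + 96*b*q*x5*y2 - 24*b*q*y2 +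
    45*q^2*y2^3 + 45*q*x2^2*y2 - 180*q*x2*x4*y2 - 100*q*x2*y3 - 60*q*x4*y2^2*ζ + 40*q*x4*y3 +
    192*q*x5*y2 - 100*q*y2*y3*ζ + 72*q*y2 + 60*x2^2*x4*ζ - 100*x2*x3*ζ - 96*x2*x5*ζ - 96*x2*ζ -
    40*x3*x4*ζ + 200*x4*ζ = 0
  e6 :
    15*b*q*x3*y2^2 - 18*b*q*x5*y2^2 + 27*b*q*y2^2 + 15*b*x2^2*x3 - 135*b*x2^2 + 75*b*x2*x4 -
    40*b*x3^2 - 280*b*x3 + 3200*b + 30*q*x2*y2*y3 - 36*q*x5*y2^2 + 15*q*y2^2*y3*ζ - 81*q*y2^2 +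
    30*x2^2*x3 + 18*x2^2*x5 - 15*x2^2*y3*ζ - 27*x2^2 + 30*x2*x3*y2*ζ - 75*x2*x4 + 36*x2*x5*y2*ζ +
    216*x2*y2*ζ - 24*x3*x5 + 40*x3*y3*ζ + 336*x3 - 150*x4*y2*ζ - 24*x5*y3*ζ - 120*x5 + 56*y3*ζ -
    1920 = 0
  l3 : y2 = 0 →
    (x2^3 - 4*x2*x3 + 8*x2 + 4*x4) * (b + 1) + (4*x2*x3 - 32*x2 - 8*x4) * b = 0
  l4 : y2 = 0 → -40*q*y3^2 - 40*x3^2 + 320*x3 + 144*x5 - 4096 = 0 →
    (-60*q*y3^2 + 30*x2^2*x3 - 30*x2^2 - 90*x2*x4 - 40*x3^2 + 80*x3 + 144*x5 - 256) * (b + 1) +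
    (160*q*y3^2 - 30*x2^2*x3 + 120*x2^2 + 180*x2*x4 + 80*x3^2 - 400*x3 - 432*x5 + 2048) * b = 0

variable {R : Type} [CommRing R] [Algebra ℝ R] {J : R →ₗ[ℝ] ℝ} {A e s r : R} {q b ζ m : ℝ}

theorem p3 (T : Tb (fun i j k l => J (Mn A e s r i j k l)) q b ζ m) {c1 c2 c3 c4 c5 c6 : ℝ}
    (n : c1 • Mn A e s r 3 0 0 0 + c2 • Mn A e s r 1 1 0 0 + c3 • Mn A e s r 2 0 1 0 + c4 • Mn A e s
    r 0 1 1 0 + c5 • Mn A e s r 1 0 2 0 + c6 • Mn A e s r 0 0 3 0 = 0) :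
    c1 * (2*b + 3) + c2 * (b + 1) + c3 * (ζ) + c4 * (0) + c5 * (-q) + c6 * (-q*ζ) = 0 ∧
    c1 * (ζ) + c2 * (0) + c3 * (-q) + c4 * (0) + c5 * (-q*ζ) + c6 * (2*b*q^2 + 3*q^2) = 0 ∧
    c1 * (5*b + 9) + c2 * (2*b + 3) + c3 * (4*ζ) + c4 * (ζ) + c5 * (-b*q - 5*q) + c6 * (-4*q*ζ) = 0 ∧
    c1 * (4*ζ) + c2 * (ζ) + c3 * (-b*q - 5*q) + c4 * (-q) + c5 * (-4*q*ζ) + c6 * (5*b*q^2 + 9*q^2) =
    0 ∧
    c1 * (-b*q - 5*q) + c2 * (-q) + c3 * (-4*q*ζ) + c4 * (-q*ζ) + c5 * (5*b*q^2 + 9*q^2) + c6 * (m)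
    = 0 := by
  have k := fun i j k l => congrArg (fun x => J (x * Mn A e s r i j k l)) n
  simp only [add_mul, smul_mul_assoc, Mn_mul, map_add, map_smul, smul_eq_mul, zero_mul, map_zero] at k
  refine ⟨?_, ?_, ?_, ?_, ?_⟩
  · have := k 1 1 0 0
    simp only [Nat.reduceAdd, T.v4100, T.v2200, T.v3110, T.v1210, T.v2120, T.v1130] at this
    exact this
  · have := k 0 1 1 0
    simp only [Nat.reduceAdd, T.v3110, T.v1210, T.v2120, T.v0220, T.v1130, T.v0140] at this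
    exact this
  · have := k 3 0 0 0
    simp only [Nat.reduceAdd, T.v6000, T.v4100, T.v5010, T.v3110, T.v4020, T.v3030] at this
    exact this
  · have := k 2 0 1 0
    simp only [Nat.reduceAdd, T.v5010, T.v3110, T.v4020, T.v2120, T.v3030, T.v2040] at this
    exact this
  · have := k 1 0 2 0
    simp only [Nat.reduceAdd, T.v4020, T.v2120, T.v3030, T.v1130, T.v2040, T.v1050] at this
    exact this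

theorem p4 (T : Tb (fun i j k l => J (Mn A e s r i j k l)) q b ζ m) {c1 c2 c3 c4 c5 c6 c7 : ℝ}
    (n : c1 • Mn A e s r 4 0 0 0 + c2 • Mn A e s r 2 1 0 0 + c3 • Mn A e s r 3 0 1 0 + c4 • Mn A e s
    r 2 0 2 0 + c5 • Mn A e s r 1 1 1 0 + c6 • Mn A e s r 0 2 0 0 + c7 • Mn A e s r 1 0 3 0 = 0) :
    c1 * (2*b + 3) + c2 * (b + 1) + c3 * (ζ) + c4 * (-q) + c5 * (0) + c6 * (b) + c7 * (-q*ζ) = 0 ∧
    c1 * (ζ) + c2 * (0) + c3 * (-q) + c4 * (-q*ζ) + c5 * (0) + c6 * (0) + c7 * (2*b*q^2 + 3*q^2) = 0 ∧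
    c1 * (5*b + 9) + c2 * (2*b + 3) + c3 * (4*ζ) + c4 * (-b*q - 5*q) + c5 * (ζ) + c6 * (b + 1) + c7
    * (-4*q*ζ) = 0 ∧
    c1 * (4*ζ) + c2 * (ζ) + c3 * (-b*q - 5*q) + c4 * (-4*q*ζ) + c5 * (-q) + c6 * (0) + c7 * (5*b*q^2
    + 9*q^2) = 0 ∧
    c1 * (-b*q - 5*q) + c2 * (-q) + c3 * (-4*q*ζ) + c4 * (5*b*q^2 + 9*q^2) + c5 * (-q*ζ) + c6 * (0)
    + c7 * (m) = 0 := by
  have k := fun i j k l => congrArg (fun x => J (x * Mn A e s r i j k l)) n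
  simp only [add_mul, smul_mul_assoc, Mn_mul, map_add, map_smul, smul_eq_mul, zero_mul, map_zero] at k
  refine ⟨?_, ?_, ?_, ?_, ?_⟩
  · have := k 0 1 0 0
    simp only [Nat.reduceAdd, T.v4100, T.v2200, T.v3110, T.v2120, T.v1210, T.v0300, T.v1130] at this
    exact this
  · have := k 0 0 0 1
    simp only [Nat.reduceAdd, T.v4001, T.v2101, T.v3011, T.v2021, T.v1111, T.v0201, T.v1031] at this
    exact this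
  · have := k 2 0 0 0
    simp only [Nat.reduceAdd, T.v6000, T.v4100, T.v5010, T.v4020, T.v3110, T.v2200, T.v3030] at this
    exact this
  · have := k 1 0 1 0
    simp only [Nat.reduceAdd, T.v5010, T.v3110, T.v4020, T.v3030, T.v2120, T.v1210, T.v2040] at this
    exact this
  · have := k 0 0 2 0
    simp only [Nat.reduceAdd, T.v4020, T.v2120, T.v3030, T.v2040, T.v1130, T.v0220, T.v1050] at this
    exact this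

theorem p5 (T : Tb (fun i j k l => J (Mn A e s r i j k l)) q b ζ m) {c1 c2 c3 c4 c5 c6 : ℝ}
    (n : c1 • Mn A e s r 5 0 0 0 + c2 • Mn A e s r 3 1 0 0 + c3 • Mn A e s r 4 0 1 0 + c4 • Mn A e s
    r 2 1 1 0 + c5 • Mn A e s r 3 0 2 0 + c6 • Mn A e s r 2 0 3 0 = 0) :
    c1 * (5*b + 9) + c2 * (2*b + 3) + c3 * (4*ζ) + c4 * (ζ) + c5 * (-b*q - 5*q) + c6 * (-4*q*ζ) = 0 ∧
    c1 * (4*ζ) + c2 * (ζ) + c3 * (-b*q - 5*q) + c4 * (-q) + c5 * (-4*q*ζ) + c6 * (5*b*q^2 + 9*q^2) =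
    0 := by
  have k := fun i j k l => congrArg (fun x => J (x * Mn A e s r i j k l)) n
  simp only [add_mul, smul_mul_assoc, Mn_mul, map_add, map_smul, smul_eq_mul, zero_mul, map_zero] at k
  refine ⟨?_, ?_⟩
  · have := k 1 0 0 0
    simp only [Nat.reduceAdd, T.v6000, T.v4100, T.v5010, T.v3110, T.v4020, T.v3030] at this
    exact this
  · have := k 0 0 1 0
    simp only [Nat.reduceAdd, T.v5010, T.v3110, T.v4020, T.v2120, T.v3030, T.v2040] at this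
    exact this

theorem p6 (T : Tb (fun i j k l => J (Mn A e s r i j k l)) q b ζ m) {c1 c2 c3 : ℝ}
    (n : c1 • Mn A e s r 2 2 0 0 + c2 • Mn A e s r 0 3 0 0 + c3 • Mn A e s r 3 1 1 0 = 0) :
    c1 * (b + 1) + c2 * (b) + c3 * (ζ) = 0 := by
  have k := fun i j k l => congrArg (fun x => J (x * Mn A e s r i j k l)) n
  simp only [add_mul, smul_mul_assoc, Mn_mul, map_add, map_smul, smul_eq_mul, zero_mul, map_zero] at k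
  · have := k 0 0 0 0
    simp only [Nat.reduceAdd, T.v2200, T.v0300, T.v3110] at this
    exact this

theorem hl (T : Tb (fun i j k l => J (Mn A e s r i j k l)) q b ζ m) {c1 c2 c3 c4 c5 : ℝ}
    (n : c1 • A ^ 2 + c2 • e + c3 • (A * s) + c4 • s ^ 2 + c5 • r = 0) :
    c1 * (b + 1) + c2 * b = 0 := by
  have k : c1 • Mn A e s r 2 2 0 0 + c2 • Mn A e s r 0 3 0 0 + c3 • Mn A e s r 1 2 1 0 +
      c4 • Mn A e s r 0 2 2 0 + c5 • Mn A e s r 0 2 0 1 = 0 := by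
    simp only [Mn]
    linear_combination (norm := algebra) e ^ 2 * n
  have := congrArg J k
  simp only [map_add, map_smul, smul_eq_mul, map_zero, T.v2200, T.v0300, T.v1210, T.v0220,
    T.v0201] at this
  linear_combination this

theorem eqs {U f : R} {t Q : ℕ → R} {x2 x3 x4 x5 y2 y3 : ℝ} (h : Rl A e s r q)
    (T : Tb (fun i j k l => J (Mn A e s r i j k l)) q b ζ m)
    (k : Pk A e s r U t x2 x3 x4 x5 y2 y3) (c : Qs.Ch 2 t Q U)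
    (hf : f = (1 / 2 : ℝ) • (Q 1 ^ 2 - Q 2)) (n : ∀ k, Q (k + 3) = Q 1 * Q (k + 2) - f * Q (k + 1))
    (L : ∀ c1 c2 c3 c4 c5 : ℝ, A ^ 2 * (c1 • A ^ 2 + c2 • e + c3 • (A * s) + c4 • s ^ 2 + c5 • r) = 0 →
      c1 • A ^ 2 + c2 • e + c3 • (A * s) + c4 • s ^ 2 + c5 • r = 0) :
    E q b ζ m x2 x3 x4 x5 y2 y3 := by
  have n3 := nf3 h k c hf (n 0)
  have n4 := nf4 h k c hf (n 1)
  obtain ⟨a1, a2, a3, a4, a5⟩ := p3 T n3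
  obtain ⟨b1, b2, b3, b4, b5⟩ := p4 T n4
  obtain ⟨c1, c2⟩ := p5 T (nf5 h k c hf (n 2))
  have d1 := p6 T (nf6 h k c hf (n 3))
  refine ⟨by linear_combination 1 * a1, by linear_combination 1 * a2, by linear_combination 1 * a3,
    by linear_combination 1 * a4, by linear_combination 1 * a5, by linear_combination (1/10) * b1, by
    linear_combination (1/2) * b2, by linear_combination (1/2) * b3, by linear_combination (1/2) * b4,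
    by linear_combination 1 * b5, by linear_combination 1 * c1, by linear_combination 1 * c2, by
    linear_combination (1/14) * d1, fun y => hl T (L _ _ 0 0 (-4*x2*y3) ?_), fun y z => hl T (L _ _ 0
    (-20*y3^2) (30*x2^2*y3 - 80*x3*y3 + 80*y3) ?_)⟩
  · subst y
    simp only [Mn] at n3
    linear_combination (norm := algebra) A * n3 + (-4*x2*y3 : ℝ) • (A * h.a1)
  · subst y
    rw [z] at n4
    simp only [Mn] at n4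
    linear_combination (norm := algebra) n4 + (30*x2^2*y3 - 80*x3*y3 + 80*y3 : ℝ) • (A * h.a1)

end Vale.Agent.P280Z.N52
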