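import Vale.Agent.P280Z.M2.T62
import Vale.Agent.P280Z.M2.E62
import Vale.Agent.P280Z.Qs.Gen

/-!
# P280Z, block M2: from the table to the equations
-/

noncomputable section

namespace Vale.Agent.P280Z.M2

open Al

/-- the classes `T (ps (T_X) k)` -/
structure P62 {R : Type} [CommRing R] [Algebra ℝ R] (A e t r s U : R) (p : ℕ → R)
    (X2 Y2 X3 Y3 X4 Y4 X5 X6 : ℝ) : Prop where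
  u : U = (1 / 4 : ℝ) • (A ^ 2 - 4 * e)
  p2 : p 2 = (2 : ℝ) • (X2 • A + Y2 • t)
  p3 : p 3 = (3 : ℝ) • (X3 • Hn A e 2 + Y3 • r + s)
  p4 : p 4 = (4 : ℝ) • (X4 • Hn A e 3 + Y4 • (A * r - e * t))
  p5 : p 5 = (5 : ℝ) • (X5 • Hn A e 4)
  p6 : p 6 = (6 : ℝ) • (X6 • Hn A e 5)
  p7 : p 7 = 0
  p8 : p 8 = 0

set_option linter.unusedSimpArgs false

variable {R : Type} [CommRing R] [Algebra ℝ R] {J : R →ₗ[ℝ] ℝ} {A e t r s U f : R}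
  {p Q : ℕ → R} {a mu l c q X2 Y2 X3 Y3 X4 Y4 X5 X6 z5 z6 : ℝ}

namespace Nf62

theorem q1 (h : Qs.Ch 2 p Q U) (k : P62 A e t r s U p X2 Y2 X3 Y3 X4 Y4 X5 X6) :
    Q 1 = (X2 : ℝ) • Mq A e t r s 1 0 0 0 0 + (Y2 : ℝ) • Mq A e t r s 0 0 1 0 0 := by
  rw [h.q1, k.p2]
  simp only [Mq, Hn]
  algebra

theorem q2 (h : Qs.Ch 2 p Q U) (k : P62 A e t r s U p X2 Y2 X3 Y3 X4 Y4 X5 X6) :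
    Q 2 = (X3 - (5/6) : ℝ) • Mq A e t r s 2 0 0 0 0 + (-X3 + (10/3) : ℝ) • Mq A e t r s 0 1 0 0 0
    + (Y3 : ℝ) • Mq A e t r s 0 0 0 1 0 + (1 : ℝ) • Mq A e t r s 0 0 0 0 1 := by
  rw [h.q2, k.p3, k.u]
  simp only [Mq, Hn]
  algebra

theorem q3 (h : Qs.Ch 2 p Q U) (k : P62 A e t r s U p X2 Y2 X3 Y3 X4 Y4 X5 X6) :
    Q 3 = (-(1/4)*X2 + X4 : ℝ) • Mq A e t r s 3 0 0 0 0 + (-(1/4)*Y2 : ℝ) • Mq A e t r s 2 0 1 0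
    0 + (X2 - 2*X4 : ℝ) • Mq A e t r s 1 1 0 0 0 + (Y4 : ℝ) • Mq A e t r s 1 0 0 1 0 + (Y2 - Y4 :
    ℝ) • Mq A e t r s 0 1 1 0 0 := by
  rw [h.q3, k.p4, q1 h k, k.u]
  simp only [Mq, Hn]
  algebra

theorem q4 (h : Qs.Ch 2 p Q U) (k : P62 A e t r s U p X2 Y2 X3 Y3 X4 Y4 X5 X6) :
    Q 4 = (-(1/2)*X3 + X5 - (1/120) : ℝ) • Mq A e t r s 4 0 0 0 0 + ((5/2)*X3 - 3*X5 + (1/15) :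
    ℝ) • Mq A e t r s 2 1 0 0 0 + (-(1/2)*Y3 : ℝ) • Mq A e t r s 2 0 0 1 0 + (-(1/2) : ℝ) • Mq A
    e t r s 2 0 0 0 1 + (-2*X3 + X5 - (2/15) : ℝ) • Mq A e t r s 0 2 0 0 0 + (2*Y3 : ℝ) • Mq A e
    t r s 0 1 0 1 0 + (2 : ℝ) • Mq A e t r s 0 1 0 0 1 := by
  rw [h.q4, k.p5, q2 h k, k.u]
  simp only [Mq, Hn]
  algebra

theorem q5 (h : Qs.Ch 2 p Q U) (k : P62 A e t r s U p X2 Y2 X3 Y3 X4 Y4 X5 X6) :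
    Q 5 = ((7/48)*X2 - (5/6)*X4 + X6 : ℝ) • Mq A e t r s 5 0 0 0 0 + ((7/48)*Y2 : ℝ) • Mq A e t r
    s 4 0 1 0 0 + (-(7/6)*X2 + 5*X4 - 4*X6 : ℝ) • Mq A e t r s 3 1 0 0 0 + (-(5/6)*Y4 : ℝ) • Mq A
    e t r s 3 0 0 1 0 + (-(7/6)*Y2 + (5/6)*Y4 : ℝ) • Mq A e t r s 2 1 1 0 0 + ((7/3)*X2 -
    (20/3)*X4 + 3*X6 : ℝ) • Mq A e t r s 1 2 0 0 0 + ((10/3)*Y4 : ℝ) • Mq A e t r s 1 1 0 1 0 +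
    ((7/3)*Y2 - (10/3)*Y4 : ℝ) • Mq A e t r s 0 2 1 0 0 := by
  rw [h.q5, k.p6, q3 h k, q1 h k, k.u]
  simp only [Mq, Hn]
  algebra

theorem q6 (h : Qs.Ch 2 p Q U) (k : P62 A e t r s U p X2 Y2 X3 Y3 X4 Y4 X5 X6) :
    Q 6 = ((7/16)*X3 - (5/4)*X5 - (83/672) : ℝ) • Mq A e t r s 6 0 0 0 0 + (-(63/16)*X3 +
    (35/4)*X5 + (83/56) : ℝ) • Mq A e t r s 4 1 0 0 0 + ((7/16)*Y3 : ℝ) • Mq A e t r s 4 0 0 1 0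
    + ((7/16) : ℝ) • Mq A e t r s 4 0 0 0 1 + ((21/2)*X3 - (65/4)*X5 - (83/14) : ℝ) • Mq A e t r
    s 2 2 0 0 0 + (-(7/2)*Y3 : ℝ) • Mq A e t r s 2 1 0 1 0 + (-(7/2) : ℝ) • Mq A e t r s 2 1 0 0
    1 + (-7*X3 + 5*X5 + (166/21) : ℝ) • Mq A e t r s 0 3 0 0 0 + (7*Y3 : ℝ) • Mq A e t r s 0 2 0
    1 0 + (7 : ℝ) • Mq A e t r s 0 2 0 0 1 := by
  rw [h.q6, k.p7, q4 h k, q2 h k, k.u]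
  simp only [Mq, Hn]
  algebra

theorem q7 (h : Qs.Ch 2 p Q U) (k : P62 A e t r s U p X2 Y2 X3 Y3 X4 Y4 X5 X6) :
    Q 7 = (-(31/192)*X2 + (49/48)*X4 - (7/4)*X6 : ℝ) • Mq A e t r s 7 0 0 0 0 + (-(31/192)*Y2 :
    ℝ) • Mq A e t r s 6 0 1 0 0 + ((31/16)*X2 - (245/24)*X4 + 14*X6 : ℝ) • Mq A e t r s 5 1 0 0 0
    + ((49/48)*Y4 : ℝ) • Mq A e t r s 5 0 0 1 0 + ((31/16)*Y2 - (49/48)*Y4 : ℝ) • Mq A e t r s 4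
    1 1 0 0 + (-(31/4)*X2 + (98/3)*X4 - (133/4)*X6 : ℝ) • Mq A e t r s 3 2 0 0 0 + (-(49/6)*Y4 :
    ℝ) • Mq A e t r s 3 1 0 1 0 + (-(31/4)*Y2 + (49/6)*Y4 : ℝ) • Mq A e t r s 2 2 1 0 0 +
    ((31/3)*X2 - (98/3)*X4 + 21*X6 : ℝ) • Mq A e t r s 1 3 0 0 0 + ((49/3)*Y4 : ℝ) • Mq A e t r s
    1 2 0 1 0 + ((31/3)*Y2 - (49/3)*Y4 : ℝ) • Mq A e t r s 0 3 1 0 0 := by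
  rw [h.q7, k.p8, q5 h k, q3 h k, q1 h k, k.u]
  simp only [Mq, Hn]
  algebra

set_option maxHeartbeats 1000000 in
theorem e3 (h : Qs.Ch 2 p Q U) (k : P62 A e t r s U p X2 Y2 X3 Y3 X4 Y4 X5 X6)
    (hf : f = (1 / 2 : ℝ) • (Q 1 ^ 2 - Q 2))
    (nw : ∀ k, Q (k + 3) = Q 1 * Q (k + 2) - f * Q (k + 1)) :
    ((1/2)*X2^3 - (3/2)*X2*X3 + X2 + X4 : ℝ) • Mq A e t r s 3 0 0 0 0 + ((3/2)*X2^2*Y2 -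
    (3/2)*Y2*X3 + Y2 : ℝ) • Mq A e t r s 2 0 1 0 0 + ((3/2)*X2*X3 - 4*X2 - 2*X4 : ℝ) • Mq A e t r
    s 1 1 0 0 0 + ((3/2)*X2*Y2^2 : ℝ) • Mq A e t r s 1 0 2 0 0 + (-(3/2)*X2*Y3 + Y4 : ℝ) • Mq A e
    t r s 1 0 0 1 0 + (-(3/2)*X2 : ℝ) • Mq A e t r s 1 0 0 0 1 + ((3/2)*Y2*X3 - 4*Y2 - Y4 : ℝ) •
    Mq A e t r s 0 1 1 0 0 + ((1/2)*Y2^3 : ℝ) • Mq A e t r s 0 0 3 0 0 + (-(3/2)*Y2*Y3 : ℝ) • Mq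
    A e t r s 0 0 1 1 0 + (-(3/2)*Y2 : ℝ) • Mq A e t r s 0 0 1 0 1 = 0 := by
  have h1 : Q 3 = Q 1 * Q 2 - f * Q 1 := nw 0
  rw [hf, q3 h k, q2 h k, q1 h k] at h1
  simp only [Mq] at h1 ⊢
  linear_combination (norm := algebra) h1

set_option maxHeartbeats 1000000 in
theorem e4 (h : Qs.Ch 2 p Q U) (k : P62 A e t r s U p X2 Y2 X3 Y3 X4 Y4 X5 X6)
    (hf : f = (1 / 2 : ℝ) • (Q 1 ^ 2 - Q 2))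
    (nw : ∀ k, Q (k + 3) = Q 1 * Q (k + 2) - f * Q (k + 1)) :
    ((1/2)*X2^2*X3 - (1/6)*X2^2 - X2*X4 - (1/2)*X3^2 + (1/3)*X3 + X5 - (16/45) : ℝ) • Mq A e t r
    s 4 0 0 0 0 + (X2*Y2*X3 - (1/3)*X2*Y2 - Y2*X4 : ℝ) • Mq A e t r s 3 0 1 0 0 + (-(1/2)*X2^2*X3
    + (2/3)*X2^2 + 2*X2*X4 + X3^2 - (5/3)*X3 - 3*X5 + (128/45) : ℝ) • Mq A e t r s 2 1 0 0 0 +
    ((1/2)*Y2^2*X3 - (1/6)*Y2^2 : ℝ) • Mq A e t r s 2 0 2 0 0 + ((1/2)*X2^2*Y3 - X2*Y4 - X3*Y3 +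
    (1/3)*Y3 : ℝ) • Mq A e t r s 2 0 0 1 0 + ((1/2)*X2^2 - X3 + (1/3) : ℝ) • Mq A e t r s 2 0 0 0
    1 + (-X2*Y2*X3 + (4/3)*X2*Y2 + X2*Y4 + 2*Y2*X4 : ℝ) • Mq A e t r s 1 1 1 0 0 + (X2*Y2*Y3 -
    Y2*Y4 : ℝ) • Mq A e t r s 1 0 1 1 0 + (X2*Y2 : ℝ) • Mq A e t r s 1 0 1 0 1 + (-(1/2)*X3^2 +
    (4/3)*X3 + X5 - (256/45) : ℝ) • Mq A e t r s 0 2 0 0 0 + (-(1/2)*Y2^2*X3 + (2/3)*Y2^2 + Y2*Y4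
    : ℝ) • Mq A e t r s 0 1 2 0 0 + (X3*Y3 - (4/3)*Y3 : ℝ) • Mq A e t r s 0 1 0 1 0 + (X3 - (4/3)
    : ℝ) • Mq A e t r s 0 1 0 0 1 + ((1/2)*Y2^2*Y3 : ℝ) • Mq A e t r s 0 0 2 1 0 + ((1/2)*Y2^2 :
    ℝ) • Mq A e t r s 0 0 2 0 1 + (-(1/2)*Y3^2 : ℝ) • Mq A e t r s 0 0 0 2 0 + (-Y3 : ℝ) • Mq A e
    t r s 0 0 0 1 1 + (-(1/2) : ℝ) • Mq A e t r s 0 0 0 0 2 = 0 := by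
  have h1 : Q 4 = Q 1 * Q 3 - f * Q 2 := nw 1
  rw [hf, q4 h k, q3 h k, q2 h k, q1 h k] at h1
  simp only [Mq] at h1 ⊢
  linear_combination (norm := algebra) h1

set_option maxHeartbeats 1000000 in
theorem e5 (h : Qs.Ch 2 p Q U) (k : P62 A e t r s U p X2 Y2 X3 Y3 X4 Y4 X5 X6)
    (hf : f = (1 / 2 : ℝ) • (Q 1 ^ 2 - Q 2))
    (nw : ∀ k, Q (k + 3) = Q 1 * Q (k + 2) - f * Q (k + 1)) :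
    (-(1/8)*X2^3 + (1/2)*X2^2*X4 + (5/8)*X2*X3 - X2*X5 + (1/20)*X2 - (1/2)*X3*X4 - (5/12)*X4 + X6
    : ℝ) • Mq A e t r s 5 0 0 0 0 + (-(3/8)*X2^2*Y2 + X2*Y2*X4 + (5/8)*Y2*X3 - Y2*X5 + (1/20)*Y2
    : ℝ) • Mq A e t r s 4 0 1 0 0 + ((1/2)*X2^3 - X2^2*X4 - (25/8)*X2*X3 + 3*X2*X5 - (2/5)*X2 +
    (3/2)*X3*X4 + (5/2)*X4 - 4*X6 : ℝ) • Mq A e t r s 3 1 0 0 0 + (-(3/8)*X2*Y2^2 + (1/2)*Y2^2*X4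
    : ℝ) • Mq A e t r s 3 0 2 0 0 + ((1/2)*X2^2*Y4 + (5/8)*X2*Y3 - (1/2)*X3*Y4 - (1/2)*Y3*X4 -
    (5/12)*Y4 : ℝ) • Mq A e t r s 3 0 0 1 0 + ((5/8)*X2 - (1/2)*X4 : ℝ) • Mq A e t r s 3 0 0 0 1
    + ((3/2)*X2^2*Y2 - (1/2)*X2^2*Y4 - 2*X2*Y2*X4 - (25/8)*Y2*X3 + 3*Y2*X5 - (2/5)*Y2 +
    (1/2)*X3*Y4 + (5/12)*Y4 : ℝ) • Mq A e t r s 2 1 1 0 0 + (-(1/8)*Y2^3 : ℝ) • Mq A e t r s 2 0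
    3 0 0 + (X2*Y2*Y4 + (5/8)*Y2*Y3 : ℝ) • Mq A e t r s 2 0 1 1 0 + ((5/8)*Y2 : ℝ) • Mq A e t r s
    2 0 1 0 1 + ((5/2)*X2*X3 - X2*X5 + (4/5)*X2 - X3*X4 - (10/3)*X4 + 3*X6 : ℝ) • Mq A e t r s 1
    2 0 0 0 + ((3/2)*X2*Y2^2 - X2*Y2*Y4 - Y2^2*X4 : ℝ) • Mq A e t r s 1 1 2 0 0 + (-(5/2)*X2*Y3 +
    (1/2)*X3*Y4 + Y3*X4 + (5/3)*Y4 : ℝ) • Mq A e t r s 1 1 0 1 0 + (-(5/2)*X2 + X4 : ℝ) • Mq A e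
    t r s 1 1 0 0 1 + ((1/2)*Y2^2*Y4 : ℝ) • Mq A e t r s 1 0 2 1 0 + (-(1/2)*Y3*Y4 : ℝ) • Mq A e
    t r s 1 0 0 2 0 + (-(1/2)*Y4 : ℝ) • Mq A e t r s 1 0 0 1 1 + ((5/2)*Y2*X3 - Y2*X5 + (4/5)*Y2
    - (1/2)*X3*Y4 - (5/3)*Y4 : ℝ) • Mq A e t r s 0 2 1 0 0 + ((1/2)*Y2^3 - (1/2)*Y2^2*Y4 : ℝ) •
    Mq A e t r s 0 1 3 0 0 + (-(5/2)*Y2*Y3 + (1/2)*Y3*Y4 : ℝ) • Mq A e t r s 0 1 1 1 0 +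
    (-(5/2)*Y2 + (1/2)*Y4 : ℝ) • Mq A e t r s 0 1 1 0 1 = 0 := by
  have h1 : Q 5 = Q 1 * Q 4 - f * Q 3 := nw 2
  rw [hf, q5 h k, q4 h k, q3 h k, q2 h k, q1 h k] at h1
  simp only [Mq] at h1 ⊢
  linear_combination (norm := algebra) h1

set_option maxHeartbeats 1000000 in
theorem e6 (h : Qs.Ch 2 p Q U) (k : P62 A e t r s U p X2 Y2 X3 Y3 X4 Y4 X5 X6)
    (hf : f = (1 / 2 : ℝ) • (Q 1 ^ 2 - Q 2))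
    (nw : ∀ k, Q (k + 3) = Q 1 * Q (k + 2) - f * Q (k + 1)) :
    (-(1/4)*X2^2*X3 + (1/2)*X2^2*X5 - (3/20)*X2^2 + (5/6)*X2*X4 - X2*X6 + (1/4)*X3^2 -
    (1/2)*X3*X5 + (7/30)*X3 - (5/6)*X5 - (8/63) : ℝ) • Mq A e t r s 6 0 0 0 0 + (-(1/2)*X2*Y2*X3
    + X2*Y2*X5 - (3/10)*X2*Y2 + (5/6)*Y2*X4 - Y2*X6 : ℝ) • Mq A e t r s 5 0 1 0 0 +
    ((5/4)*X2^2*X3 - (3/2)*X2^2*X5 + (6/5)*X2^2 - 5*X2*X4 + 4*X2*X6 - (3/2)*X3^2 + 2*X3*X5 -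
    (21/10)*X3 + (35/6)*X5 + (32/21) : ℝ) • Mq A e t r s 4 1 0 0 0 + (-(1/4)*Y2^2*X3 +
    (1/2)*Y2^2*X5 - (3/20)*Y2^2 : ℝ) • Mq A e t r s 4 0 2 0 0 + (-(1/4)*X2^2*Y3 + (5/6)*X2*Y4 +
    (1/2)*X3*Y3 - (1/2)*Y3*X5 + (7/30)*Y3 : ℝ) • Mq A e t r s 4 0 0 1 0 + (-(1/4)*X2^2 + (1/2)*X3
    - (1/2)*X5 + (7/30) : ℝ) • Mq A e t r s 4 0 0 0 1 + ((5/2)*X2*Y2*X3 - 3*X2*Y2*X5 +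
    (12/5)*X2*Y2 - (5/6)*X2*Y4 - 5*Y2*X4 + 4*Y2*X6 : ℝ) • Mq A e t r s 3 1 1 0 0 +
    (-(1/2)*X2*Y2*Y3 + (5/6)*Y2*Y4 : ℝ) • Mq A e t r s 3 0 1 1 0 + (-(1/2)*X2*Y2 : ℝ) • Mq A e t
    r s 3 0 1 0 1 + (-X2^2*X3 + (1/2)*X2^2*X5 - (12/5)*X2^2 + (20/3)*X2*X4 - 3*X2*X6 + (9/4)*X3^2
    - 2*X3*X5 + (28/5)*X3 - (65/6)*X5 - (128/21) : ℝ) • Mq A e t r s 2 2 0 0 0 + ((5/4)*Y2^2*X3 -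
    (3/2)*Y2^2*X5 + (6/5)*Y2^2 - (5/6)*Y2*Y4 : ℝ) • Mq A e t r s 2 1 2 0 0 + (X2^2*Y3 -
    (10/3)*X2*Y4 - (5/2)*X3*Y3 + (3/2)*Y3*X5 - (28/15)*Y3 : ℝ) • Mq A e t r s 2 1 0 1 0 + (X2^2 -
    (5/2)*X3 + (3/2)*X5 - (28/15) : ℝ) • Mq A e t r s 2 1 0 0 1 + (-(1/4)*Y2^2*Y3 : ℝ) • Mq A e t
    r s 2 0 2 1 0 + (-(1/4)*Y2^2 : ℝ) • Mq A e t r s 2 0 2 0 1 + ((1/4)*Y3^2 : ℝ) • Mq A e t r s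
    2 0 0 2 0 + ((1/2)*Y3 : ℝ) • Mq A e t r s 2 0 0 1 1 + ((1/4) : ℝ) • Mq A e t r s 2 0 0 0 2 +
    (-2*X2*Y2*X3 + X2*Y2*X5 - (24/5)*X2*Y2 + (10/3)*X2*Y4 + (20/3)*Y2*X4 - 3*Y2*X6 : ℝ) • Mq A e
    t r s 1 2 1 0 0 + (2*X2*Y2*Y3 - (10/3)*Y2*Y4 : ℝ) • Mq A e t r s 1 1 1 1 0 + (2*X2*Y2 : ℝ) •
    Mq A e t r s 1 1 1 0 1 + (-X3^2 + (1/2)*X3*X5 - (56/15)*X3 + (10/3)*X5 + (512/63) : ℝ) • Mq A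
    e t r s 0 3 0 0 0 + (-Y2^2*X3 + (1/2)*Y2^2*X5 - (12/5)*Y2^2 + (10/3)*Y2*Y4 : ℝ) • Mq A e t r
    s 0 2 2 0 0 + (2*X3*Y3 - (1/2)*Y3*X5 + (56/15)*Y3 : ℝ) • Mq A e t r s 0 2 0 1 0 + (2*X3 -
    (1/2)*X5 + (56/15) : ℝ) • Mq A e t r s 0 2 0 0 1 + (Y2^2*Y3 : ℝ) • Mq A e t r s 0 1 2 1 0 +
    (Y2^2 : ℝ) • Mq A e t r s 0 1 2 0 1 + (-Y3^2 : ℝ) • Mq A e t r s 0 1 0 2 0 + (-2*Y3 : ℝ) • Mq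
    A e t r s 0 1 0 1 1 + (-1 : ℝ) • Mq A e t r s 0 1 0 0 2 = 0 := by
  have h1 : Q 6 = Q 1 * Q 5 - f * Q 4 := nw 3
  rw [hf, q6 h k, q5 h k, q4 h k, q2 h k, q1 h k] at h1
  simp only [Mq] at h1 ⊢
  linear_combination (norm := algebra) h1

set_option maxHeartbeats 1000000 in
theorem e7 (h : Qs.Ch 2 p Q U) (k : P62 A e t r s U p X2 Y2 X3 Y3 X4 Y4 X5 X6)
    (hf : f = (1 / 2 : ℝ) • (Q 1 ^ 2 - Q 2))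
    (nw : ∀ k, Q (k + 3) = Q 1 * Q (k + 2) - f * Q (k + 1)) :
    ((7/96)*X2^3 - (5/12)*X2^2*X4 + (1/2)*X2^2*X6 - (49/96)*X2*X3 + (5/4)*X2*X5 + (23/1008)*X2 +
    (5/12)*X3*X4 - (1/2)*X3*X6 + (97/144)*X4 - (4/3)*X6 : ℝ) • Mq A e t r s 7 0 0 0 0 +
    ((7/32)*X2^2*Y2 - (5/6)*X2*Y2*X4 + X2*Y2*X6 - (49/96)*Y2*X3 + (5/4)*Y2*X5 + (23/1008)*Y2 : ℝ)
    • Mq A e t r s 6 0 1 0 0 + (-(7/12)*X2^3 + (5/2)*X2^2*X4 - 2*X2^2*X6 + (147/32)*X2*X3 -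
    (35/4)*X2*X5 - (23/84)*X2 - (35/12)*X3*X4 + (5/2)*X3*X6 - (485/72)*X4 + (32/3)*X6 : ℝ) • Mq A
    e t r s 5 1 0 0 0 + ((7/32)*X2*Y2^2 - (5/12)*Y2^2*X4 + (1/2)*Y2^2*X6 : ℝ) • Mq A e t r s 5 0
    2 0 0 + (-(5/12)*X2^2*Y4 - (49/96)*X2*Y3 + (5/12)*X3*Y4 + (5/12)*Y3*X4 - (1/2)*Y3*X6 +
    (97/144)*Y4 : ℝ) • Mq A e t r s 5 0 0 1 0 + (-(49/96)*X2 + (5/12)*X4 - (1/2)*X6 : ℝ) • Mq A e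
    t r s 5 0 0 0 1 + (-(7/4)*X2^2*Y2 + (5/12)*X2^2*Y4 + 5*X2*Y2*X4 - 4*X2*Y2*X6 + (147/32)*Y2*X3
    - (35/4)*Y2*X5 - (23/84)*Y2 - (5/12)*X3*Y4 - (97/144)*Y4 : ℝ) • Mq A e t r s 4 1 1 0 0 +
    ((7/96)*Y2^3 : ℝ) • Mq A e t r s 4 0 3 0 0 + (-(5/6)*X2*Y2*Y4 - (49/96)*Y2*Y3 : ℝ) • Mq A e t
    r s 4 0 1 1 0 + (-(49/96)*Y2 : ℝ) • Mq A e t r s 4 0 1 0 1 + ((7/6)*X2^3 - (10/3)*X2^2*X4 +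
    (3/2)*X2^2*X6 - (49/4)*X2*X3 + (65/4)*X2*X5 + (23/21)*X2 + (35/6)*X3*X4 - (7/2)*X3*X6 +
    (194/9)*X4 - (76/3)*X6 : ℝ) • Mq A e t r s 3 2 0 0 0 + (-(7/4)*X2*Y2^2 + (5/6)*X2*Y2*Y4 +
    (5/2)*Y2^2*X4 - 2*Y2^2*X6 : ℝ) • Mq A e t r s 3 1 2 0 0 + ((5/3)*X2^2*Y4 + (49/12)*X2*Y3 -
    (25/12)*X3*Y4 - (5/2)*Y3*X4 + 2*Y3*X6 - (97/18)*Y4 : ℝ) • Mq A e t r s 3 1 0 1 0 +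
    ((49/12)*X2 - (5/2)*X4 + 2*X6 : ℝ) • Mq A e t r s 3 1 0 0 1 + (-(5/12)*Y2^2*Y4 : ℝ) • Mq A e
    t r s 3 0 2 1 0 + ((5/12)*Y3*Y4 : ℝ) • Mq A e t r s 3 0 0 2 0 + ((5/12)*Y4 : ℝ) • Mq A e t r
    s 3 0 0 1 1 + ((7/2)*X2^2*Y2 - (5/3)*X2^2*Y4 - (20/3)*X2*Y2*X4 + 3*X2*Y2*X6 - (49/4)*Y2*X3 +
    (65/4)*Y2*X5 + (23/21)*Y2 + (25/12)*X3*Y4 + (97/18)*Y4 : ℝ) • Mq A e t r s 2 2 1 0 0 +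
    (-(7/12)*Y2^3 + (5/12)*Y2^2*Y4 : ℝ) • Mq A e t r s 2 1 3 0 0 + ((10/3)*X2*Y2*Y4 +
    (49/12)*Y2*Y3 - (5/12)*Y3*Y4 : ℝ) • Mq A e t r s 2 1 1 1 0 + ((49/12)*Y2 - (5/12)*Y4 : ℝ) •
    Mq A e t r s 2 1 1 0 1 + ((49/6)*X2*X3 - 5*X2*X5 - (92/63)*X2 - (10/3)*X3*X4 + (3/2)*X3*X6 -
    (194/9)*X4 + 16*X6 : ℝ) • Mq A e t r s 1 3 0 0 0 + ((7/2)*X2*Y2^2 - (10/3)*X2*Y2*Y4 -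
    (10/3)*Y2^2*X4 + (3/2)*Y2^2*X6 : ℝ) • Mq A e t r s 1 2 2 0 0 + (-(49/6)*X2*Y3 + (5/3)*X3*Y4 +
    (10/3)*Y3*X4 - (3/2)*Y3*X6 + (97/9)*Y4 : ℝ) • Mq A e t r s 1 2 0 1 0 + (-(49/6)*X2 +
    (10/3)*X4 - (3/2)*X6 : ℝ) • Mq A e t r s 1 2 0 0 1 + ((5/3)*Y2^2*Y4 : ℝ) • Mq A e t r s 1 1 2
    1 0 + (-(5/3)*Y3*Y4 : ℝ) • Mq A e t r s 1 1 0 2 0 + (-(5/3)*Y4 : ℝ) • Mq A e t r s 1 1 0 1 1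
    + ((49/6)*Y2*X3 - 5*Y2*X5 - (92/63)*Y2 - (5/3)*X3*Y4 - (97/9)*Y4 : ℝ) • Mq A e t r s 0 3 1 0
    0 + ((7/6)*Y2^3 - (5/3)*Y2^2*Y4 : ℝ) • Mq A e t r s 0 2 3 0 0 + (-(49/6)*Y2*Y3 + (5/3)*Y3*Y4
    : ℝ) • Mq A e t r s 0 2 1 1 0 + (-(49/6)*Y2 + (5/3)*Y4 : ℝ) • Mq A e t r s 0 2 1 0 1 = 0 :=
    by
  have h1 : Q 7 = Q 1 * Q 6 - f * Q 5 := nw 4
  rw [hf, q7 h k, q6 h k, q5 h k, q2 h k, q1 h k] at h1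
  simp only [Mq] at h1 ⊢
  linear_combination (norm := algebra) h1

end Nf62

end Vale.Agent.P280Z.M2
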