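import Vale.Agent.P280Z.M2.Nf62

/-!
# P280Z, block M2: the equations hold
-/

noncomputable section

namespace Vale.Agent.P280Z.M2

set_option linter.unusedSimpArgs false

open Nf62 in
set_option maxHeartbeats 4000000 in
theorem e62 {R : Type} [CommRing R] [Algebra ℝ R] {J : R →ₗ[ℝ] ℝ} {A e t r s U f : R}
    {p Q : ℕ → R} {a mu l c q X2 Y2 X3 Y3 X4 Y4 X5 X6 z5 z6 : ℝ}
    (v : T62 (fun i j k m n => J (Mq A e t r s i j k m n)) a mu l c q z5 z6)
    (h : Qs.Ch 2 p Q U) (k : P62 A e t r s U p X2 Y2 X3 Y3 X4 Y4 X5 X6)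
    (hf : f = (1 / 2 : ℝ) • (Q 1 ^ 2 - Q 2))
    (nw : ∀ k, Q (k + 3) = Q 1 * Q (k + 2) - f * Q (k + 1)) :
    E62 a mu l c q X2 Y2 X3 Y3 X4 Y4 X5 X6 z5 z6 := by
  have K : ∀ {x : R}, x = 0 → ∀ i j k m n, J (x * Mq A e t r s i j k m n) = 0 :=
    fun h _ _ _ _ _ => by rw [h, zero_mul, map_zero]
  refine ⟨v.r0, ?_, ?_, ?_, ?_, ?_, ?_, ?_, ?_, ?_, ?_, ?_, ?_, ?_, ?_, ?_, ?_, ?_, ?_, ?_, ?_, ?_, ?_, ?_, ?_, ?_, ?_, ?_⟩
  · have w := K (e3 h k hf nw) 0 2 0 0 0
    simp only [add_mul, smul_mul_assoc, Mq_mul, Nat.reduceAdd, map_add, map_smul, smul_eq_mul,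
      v.v02101, v.v02110, v.v02300, v.v03100, v.v12001, v.v12010, v.v12200, v.v13000, v.v22100,
      v.v32000] at w
    linear_combination (2) * w
  · have w := K (e3 h k hf nw) 2 1 0 0 0
    simp only [add_mul, smul_mul_assoc, Mq_mul, Nat.reduceAdd, map_add, map_smul, smul_eq_mul,
      v.v21101, v.v21110, v.v21300, v.v22100, v.v31001, v.v31010, v.v31200, v.v32000, v.v41100,
      v.v51000] at w
    linear_combination (2) * w
  · have w := K (e3 h k hf nw) 4 0 0 0 0
    simp only [add_mul, smul_mul_assoc, Mq_mul, Nat.reduceAdd, map_add, map_smul, smul_eq_mul,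
      v.v40101, v.v40110, v.v40300, v.v41100, v.v50001, v.v50010, v.v50200, v.v51000, v.v60100,
      v.v70000] at w
    linear_combination (2) * w
  · have w := K (e3 h k hf nw) 1 1 1 0 0
    simp only [add_mul, smul_mul_assoc, Mq_mul, Nat.reduceAdd, map_add, map_smul, smul_eq_mul,
      v.v11201, v.v11210, v.v11400, v.v12200, v.v21101, v.v21110, v.v21300, v.v22100, v.v31200,
      v.v41100] at w
    linear_combination (2) * w
  · have w := K (e3 h k hf nw) 2 0 0 1 0
    simp only [add_mul, smul_mul_assoc, Mq_mul, Nat.reduceAdd, map_add, map_smul, smul_eq_mul,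
      v.v20111, v.v20120, v.v20310, v.v21110, v.v30011, v.v30020, v.v30210, v.v31010, v.v40110,
      v.v50010] at w
    linear_combination (2) * w
  · have w := K (e3 h k hf nw) 3 0 1 0 0
    simp only [add_mul, smul_mul_assoc, Mq_mul, Nat.reduceAdd, map_add, map_smul, smul_eq_mul,
      v.v30201, v.v30210, v.v30400, v.v31200, v.v40101, v.v40110, v.v40300, v.v41100, v.v50200,
      v.v60100] at w
    linear_combination (2) * w
  · have w := K (e3 h k hf nw) 0 1 2 0 0
    simp only [add_mul, smul_mul_assoc, Mq_mul, Nat.reduceAdd, map_add, map_smul, smul_eq_mul,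
      v.v01301, v.v01310, v.v01500, v.v02300, v.v11201, v.v11210, v.v11400, v.v12200, v.v21300,
      v.v31200] at w
    linear_combination (8) * w
  · have w := K (e3 h k hf nw) 2 0 2 0 0
    simp only [add_mul, smul_mul_assoc, Mq_mul, Nat.reduceAdd, map_add, map_smul, smul_eq_mul,
      v.v20301, v.v20310, v.v20500, v.v21300, v.v30201, v.v30210, v.v30400, v.v31200, v.v40300,
      v.v50200] at w
    linear_combination (2) * w
  · have w := K (e3 h k hf nw) 1 0 3 0 0
    simp only [add_mul, smul_mul_assoc, Mq_mul, Nat.reduceAdd, map_add, map_smul, smul_eq_mul,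
      v.v10401, v.v10410, v.v10600, v.v11400, v.v20301, v.v20310, v.v20500, v.v21300, v.v30400,
      v.v40300] at w
    linear_combination (4) * w
  · have w := K (e3 h k hf nw) 1 0 1 0 1
    simp only [add_mul, smul_mul_assoc, Mq_mul, Nat.reduceAdd, map_add, map_smul, smul_eq_mul,
      v.v10202, v.v10211, v.v10401, v.v11201, v.v20102, v.v20111, v.v20301, v.v21101, v.v30201,
      v.v40101] at w
    linear_combination (2/3) * w
  · have w := K (e3 h k hf nw) 2 0 0 0 1
    simp only [add_mul, smul_mul_assoc, Mq_mul, Nat.reduceAdd, map_add, map_smul, smul_eq_mul,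
      v.v20102, v.v20111, v.v20301, v.v21101, v.v30002, v.v30011, v.v30201, v.v31001, v.v40101,
      v.v50001] at w
    linear_combination (2/3) * w
  · have w := K (e4 h k hf nw) 1 1 0 0 0
    simp only [add_mul, smul_mul_assoc, Mq_mul, Nat.reduceAdd, map_add, map_smul, smul_eq_mul,
      v.v11002, v.v11011, v.v11020, v.v11201, v.v11210, v.v12001, v.v12010, v.v12200, v.v13000,
      v.v21101, v.v21110, v.v22100, v.v31001, v.v31010, v.v31200, v.v32000, v.v41100,
      v.v51000] at w
    linear_combination (90) * w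
  · have w := K (e4 h k hf nw) 3 0 0 0 0
    simp only [add_mul, smul_mul_assoc, Mq_mul, Nat.reduceAdd, map_add, map_smul, smul_eq_mul,
      v.v30002, v.v30011, v.v30020, v.v30201, v.v30210, v.v31001, v.v31010, v.v31200, v.v32000,
      v.v40101, v.v40110, v.v41100, v.v50001, v.v50010, v.v50200, v.v51000, v.v60100,
      v.v70000] at w
    linear_combination (90) * w
  · have w := K (e4 h k hf nw) 0 1 1 0 0
    simp only [add_mul, smul_mul_assoc, Mq_mul, Nat.reduceAdd, map_add, map_smul, smul_eq_mul,
      v.v01102, v.v01111, v.v01120, v.v01301, v.v01310, v.v02101, v.v02110, v.v02300, v.v03100,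
      v.v11201, v.v11210, v.v12200, v.v21101, v.v21110, v.v21300, v.v22100, v.v31200,
      v.v41100] at w
    linear_combination (90) * w
  · have w := K (e4 h k hf nw) 1 0 0 1 0
    simp only [add_mul, smul_mul_assoc, Mq_mul, Nat.reduceAdd, map_add, map_smul, smul_eq_mul,
      v.v10012, v.v10021, v.v10030, v.v10211, v.v10220, v.v11011, v.v11020, v.v11210, v.v12010,
      v.v20111, v.v20120, v.v21110, v.v30011, v.v30020, v.v30210, v.v31010, v.v40110,
      v.v50010] at w
    linear_combination (90) * w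
  · have w := K (e4 h k hf nw) 2 0 1 0 0
    simp only [add_mul, smul_mul_assoc, Mq_mul, Nat.reduceAdd, map_add, map_smul, smul_eq_mul,
      v.v20102, v.v20111, v.v20120, v.v20301, v.v20310, v.v21101, v.v21110, v.v21300, v.v22100,
      v.v30201, v.v30210, v.v31200, v.v40101, v.v40110, v.v40300, v.v41100, v.v50200,
      v.v60100] at w
    linear_combination (90) * w
  · have w := K (e4 h k hf nw) 1 0 2 0 0
    simp only [add_mul, smul_mul_assoc, Mq_mul, Nat.reduceAdd, map_add, map_smul, smul_eq_mul,
      v.v10202, v.v10211, v.v10220, v.v10401, v.v10410, v.v11201, v.v11210, v.v11400, v.v12200,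
      v.v20301, v.v20310, v.v21300, v.v30201, v.v30210, v.v30400, v.v31200, v.v40300,
      v.v50200] at w
    linear_combination (180) * w
  · have w := K (e4 h k hf nw) 1 0 0 0 1
    simp only [add_mul, smul_mul_assoc, Mq_mul, Nat.reduceAdd, map_add, map_smul, smul_eq_mul,
      v.v10003, v.v10012, v.v10021, v.v10202, v.v10211, v.v11002, v.v11011, v.v11201, v.v12001,
      v.v20102, v.v20111, v.v21101, v.v30002, v.v30011, v.v30201, v.v31001, v.v40101,
      v.v50001] at w
    linear_combination (6) * w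
  · have w := K (e5 h k hf nw) 0 1 0 0 0
    simp only [add_mul, smul_mul_assoc, Mq_mul, Nat.reduceAdd, map_add, map_smul, smul_eq_mul,
      v.v02101, v.v02110, v.v02300, v.v03100, v.v11011, v.v11020, v.v11210, v.v12001, v.v12010,
      v.v12200, v.v13000, v.v21101, v.v21110, v.v21300, v.v22100, v.v31001, v.v31010, v.v31200,
      v.v32000, v.v41100, v.v51000] at w
    linear_combination (120) * w
  · have w := K (e5 h k hf nw) 2 0 0 0 0
    simp only [add_mul, smul_mul_assoc, Mq_mul, Nat.reduceAdd, map_add, map_smul, smul_eq_mul,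
      v.v21101, v.v21110, v.v21300, v.v22100, v.v30011, v.v30020, v.v30210, v.v31001, v.v31010,
      v.v31200, v.v32000, v.v40101, v.v40110, v.v40300, v.v41100, v.v50001, v.v50010, v.v50200,
      v.v51000, v.v60100, v.v70000] at w
    linear_combination (120) * w
  · have w := K (e5 h k hf nw) 0 0 0 1 0
    simp only [add_mul, smul_mul_assoc, Mq_mul, Nat.reduceAdd, map_add, map_smul, smul_eq_mul,
      v.v01111, v.v01120, v.v01310, v.v02110, v.v10021, v.v10030, v.v10220, v.v11011, v.v11020,
      v.v11210, v.v12010, v.v20111, v.v20120, v.v20310, v.v21110, v.v30011, v.v30020, v.v30210,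
      v.v31010, v.v40110, v.v50010] at w
    linear_combination (120) * w
  · have w := K (e5 h k hf nw) 1 0 1 0 0
    simp only [add_mul, smul_mul_assoc, Mq_mul, Nat.reduceAdd, map_add, map_smul, smul_eq_mul,
      v.v11201, v.v11210, v.v11400, v.v12200, v.v20111, v.v20120, v.v20310, v.v21101, v.v21110,
      v.v21300, v.v22100, v.v30201, v.v30210, v.v30400, v.v31200, v.v40101, v.v40110, v.v40300,
      v.v41100, v.v50200, v.v60100] at w
    linear_combination (120) * w
  · have w := K (e5 h k hf nw) 0 0 2 0 0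
    simp only [add_mul, smul_mul_assoc, Mq_mul, Nat.reduceAdd, map_add, map_smul, smul_eq_mul,
      v.v01301, v.v01310, v.v01500, v.v02300, v.v10211, v.v10220, v.v10410, v.v11201, v.v11210,
      v.v11400, v.v12200, v.v20301, v.v20310, v.v20500, v.v21300, v.v30201, v.v30210, v.v30400,
      v.v31200, v.v40300, v.v50200] at w
    linear_combination (120) * w
  · have w := K (e5 h k hf nw) 0 0 0 0 1
    simp only [add_mul, smul_mul_assoc, Mq_mul, Nat.reduceAdd, map_add, map_smul, smul_eq_mul,
      v.v01102, v.v01111, v.v01301, v.v02101, v.v10012, v.v10021, v.v10211, v.v11002, v.v11011,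
      v.v11201, v.v12001, v.v20102, v.v20111, v.v20301, v.v21101, v.v30002, v.v30011, v.v30201,
      v.v31001, v.v40101, v.v50001] at w
    linear_combination (8) * w
  · have w := K (e6 h k hf nw) 1 0 0 0 0
    simp only [add_mul, smul_mul_assoc, Mq_mul, Nat.reduceAdd, map_add, map_smul, smul_eq_mul,
      v.v11002, v.v11011, v.v11020, v.v11201, v.v11210, v.v12001, v.v12010, v.v12200, v.v13000,
      v.v21101, v.v21110, v.v22100, v.v30002, v.v30011, v.v30020, v.v30201, v.v30210, v.v31001,
      v.v31010, v.v31200, v.v32000, v.v40101, v.v40110, v.v41100, v.v50001, v.v50010, v.v50200,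
      v.v51000, v.v60100, v.v70000] at w
    linear_combination (180) * w
  · have w := K (e6 h k hf nw) 0 0 1 0 0
    simp only [add_mul, smul_mul_assoc, Mq_mul, Nat.reduceAdd, map_add, map_smul, smul_eq_mul,
      v.v01102, v.v01111, v.v01120, v.v01301, v.v01310, v.v02101, v.v02110, v.v02300, v.v03100,
      v.v11201, v.v11210, v.v12200, v.v20102, v.v20111, v.v20120, v.v20301, v.v20310, v.v21101,
      v.v21110, v.v21300, v.v22100, v.v30201, v.v30210, v.v31200, v.v40101, v.v40110, v.v40300,
      v.v41100, v.v50200, v.v60100] at w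
    linear_combination (180) * w
  · have w := K (e7 h k hf nw) 0 0 0 0 0
    simp only [add_mul, smul_mul_assoc, Mq_mul, Nat.reduceAdd, map_add, map_smul, smul_eq_mul,
      v.v02101, v.v02110, v.v02300, v.v03100, v.v11011, v.v11020, v.v11210, v.v12001, v.v12010,
      v.v12200, v.v13000, v.v21101, v.v21110, v.v21300, v.v22100, v.v30011, v.v30020, v.v30210,
      v.v31001, v.v31010, v.v31200, v.v32000, v.v40101, v.v40110, v.v40300, v.v41100, v.v50001,
      v.v50010, v.v50200, v.v51000, v.v60100, v.v70000] at w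
    linear_combination (288) * w

end Vale.Agent.P280Z.M2
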