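import Mathlib.LinearAlgebra.Matrix.Rank
import Mathlib.LinearAlgebra.FiniteDimensional.Lemmas
import Mathlib.Data.Real.Basic
import Mathlib.Tactic.LinearCombination
import Mathlib.Tactic.FinCases

/-!
# P280Z, block M2: two vectors in the kernel of a matrix of corank one are proportional
-/

open Matrix

namespace Vale.Agent.P280Z.M2

theorem rk1 {n : ℕ} (M : Matrix (Fin n) (Fin (n + 1)) ℝ) (hM : ∀ k, k ᵥ* M = 0 → k = 0)
    {u v : Fin (n + 1) → ℝ} (hu : M *ᵥ u = 0) (hv : M *ᵥ v = 0) (i j : Fin (n + 1)) :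
    u i * v j = u j * v i := by
  have h1 : M.rank = n := by
    rw [← rank_transpose, rank, LinearMap.finrank_range_of_inj, Module.finrank_fin_fun]
    exact LinearMap.ker_eq_bot.1 (LinearMap.ker_eq_bot'.2 fun k hk =>
      hM k (by simpa [mulVec_transpose] using hk))
  have h2 := LinearMap.finrank_range_add_finrank_ker M.mulVecLin
  rw [Module.finrank_fin_fun, ← rank, h1] at h2
  obtain ⟨w, hw⟩ := finrank_le_one_iff.1 (show Module.finrank ℝ (LinearMap.ker M.mulVecLin) ≤ 1 by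
    omega)
  obtain ⟨a, ha⟩ := hw ⟨u, hu⟩
  obtain ⟨b, hb⟩ := hw ⟨v, hv⟩
  have e1 : ∀ i, u i = a * w.1 i := fun i => (congrFun (congrArg Subtype.val ha) i).symm
  have e2 : ∀ i, v i = b * w.1 i := fun i => (congrFun (congrArg Subtype.val hb) i).symm
  rw [e1, e1, e2, e2]
  ring

/-- four independent functionals on a space of dimension five -/
theorem rk45 (M : Fin 4 → Fin 5 → ℝ)
    (hM : ∀ k0 k1 k2 k3 : ℝ, (∀ j, k0 * M 0 j + k1 * M 1 j + k2 * M 2 j + k3 * M 3 j = 0) →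
      k0 = 0 ∧ k1 = 0 ∧ k2 = 0 ∧ k3 = 0) (u v : Fin 5 → ℝ)
    (hu : ∀ i, M i 0 * u 0 + M i 1 * u 1 + M i 2 * u 2 + M i 3 * u 3 + M i 4 * u 4 = 0)
    (hv : ∀ i, M i 0 * v 0 + M i 1 * v 1 + M i 2 * v 2 + M i 3 * v 3 + M i 4 * v 4 = 0)
    (i j : Fin 5) : u i * v j = u j * v i := by
  refine rk1 (n := 4) (Matrix.of M) (fun k hk => ?_) (funext fun i => ?_) (funext fun i => ?_) i j
  · obtain ⟨a, b, c, d⟩ := hM (k 0) (k 1) (k 2) (k 3) fun j => by
      simpa [vecMul, dotProduct, Fin.sum_univ_four] using congrFun hk j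
    funext i
    fin_cases i <;> assumption
  · simpa [mulVec, dotProduct, Fin.sum_univ_five] using hu i
  · simpa [mulVec, dotProduct, Fin.sum_univ_five] using hv i

end Vale.Agent.P280Z.M2
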