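import Vale.Agent.P280Z.M2.L62

/-!
# P280Z, block M2: the table of the numbers in dimension six, fibres of dimension two
-/

noncomputable section

namespace Vale.Agent.P280Z.M2

/-- the table -/
structure T62 (j : ℕ → ℕ → ℕ → ℕ → ℕ → ℝ) (a mu l c q z5 z6 : ℝ) : Prop where
  r0 : q * (2 * a + 2 + c * (l + mu)) = 0
  v01102 :
    j 0 1 1 0 2 = 0
  v01111 :
    j 0 1 1 1 1 = 0
  v01120 :
    j 0 1 1 2 0 = -mu + l
  v01301 :
    j 0 1 3 0 1 = 0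
  v01310 :
    j 0 1 3 1 0 = 4*a - mu*c + 3*l*c + 1
  v01500 :
    j 0 1 5 0 0 = 2*a*c - (3/4)*mu*c^2 + (3/4)*mu + (7/4)*l*c^2 + (3/4)*l - (1/2)*c + (1/4)*z5
  v02101 :
    j 0 2 1 0 1 = 0
  v02110 :
    j 0 2 1 1 0 = 0
  v02300 :
    j 0 2 3 0 0 = -2*mu + l
  v03100 :
    j 0 3 1 0 0 = 0
  v10003 :
    j 1 0 0 0 3 = 0
  v10012 :
    j 1 0 0 1 2 = -mu*q
  v10021 :
    j 1 0 0 2 1 = 0
  v10030 :
    j 1 0 0 3 0 = -mu + 2*l
  v10202 :
    j 1 0 2 0 2 = 2*a*q + l*c*q + q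
  v10211 :
    j 1 0 2 1 1 = 0
  v10220 :
    j 1 0 2 2 0 = 6*a - 2*mu*c + 5*l*c + 1
  v10401 :
    j 1 0 4 0 1 = 0
  v10410 :
    j 1 0 4 1 0 = 2*a*c - (1/2)*mu*c^2 - (7/2)*mu + (3/2)*l*c^2 - (1/2)*l + c + (1/2)*z5
  v10600 :
    j 1 0 6 0 0 = z6
  v11002 :
    j 1 1 0 0 2 = 0
  v11011 :
    j 1 1 0 1 1 = 0
  v11020 :
    j 1 1 0 2 0 = 0
  v11201 :
    j 1 1 2 0 1 = 0
  v11210 :
    j 1 1 2 1 0 = -2*mu + l
  v11400 :
    j 1 1 4 0 0 = 9*a - 2*mu*c + 6*l*c + 3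
  v12001 :
    j 1 2 0 0 1 = 0
  v12010 :
    j 1 2 0 1 0 = 0
  v12200 :
    j 1 2 2 0 0 = -1
  v13000 :
    j 1 3 0 0 0 = a - 1
  v20102 :
    j 2 0 1 0 2 = -mu*q
  v20111 :
    j 2 0 1 1 1 = 0
  v20120 :
    j 2 0 1 2 0 = -3*mu + 2*l
  v20301 :
    j 2 0 3 0 1 = 0
  v20310 :
    j 2 0 3 1 0 = 13*a - 3*mu*c + 9*l*c + 4
  v20500 :
    j 2 0 5 0 0 = z5
  v21101 :
    j 2 1 1 0 1 = 0
  v21110 :
    j 2 1 1 1 0 = -1
  v21300 :
    j 2 1 3 0 0 = -5*mu + l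
  v22100 :
    j 2 2 1 0 0 = l
  v30002 :
    j 3 0 0 0 2 = 2*a*q + mu*c*q + l*c*q + q
  v30011 :
    j 3 0 0 1 1 = 0
  v30020 :
    j 3 0 0 2 0 = -1
  v30201 :
    j 3 0 2 0 1 = 0
  v30210 :
    j 3 0 2 1 0 = -7*mu + 2*l
  v30400 :
    j 3 0 4 0 0 = 30*a - 4*mu*c + 18*l*c + 12
  v31001 :
    j 3 1 0 0 1 = 0
  v31010 :
    j 3 1 0 1 0 = l
  v31200 :
    j 3 1 2 0 0 = -a - 3
  v32000 :
    j 3 2 0 0 0 = 2*a - 1
  v40101 :
    j 4 0 1 0 1 = 0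
  v40110 :
    j 4 0 1 1 0 = -a - 4
  v40300 :
    j 4 0 3 0 0 = -17*mu + l + c
  v41100 :
    j 4 1 1 0 0 = mu + 3*l
  v50001 :
    j 5 0 0 0 1 = 0
  v50010 :
    j 5 0 0 1 0 = mu + 4*l
  v50200 :
    j 5 0 2 0 0 = -6*a - l*c - 10
  v51000 :
    j 5 1 0 0 0 = 5*a - 1
  v60100 :
    j 6 0 1 0 0 = 5*mu + 9*l
  v70000 :
    j 7 0 0 0 0 = 14*a

namespace T62H
variable {a mu l c q : ℝ} {j : ℕ → ℕ → ℕ → ℕ → ℕ → ℝ}

theorem r0 (h : L62 j a mu l c q) : q * (2 * a + 2 + c * (l + mu)) = 0 := by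
  linear_combination
    (1) * h.r9_20000 + (-2) * h.r8_00101 + (1) * h.r1_00002 + (-2) * h.r7_10001 + (-c) *
    h.r7_00101 + (2*q) * h.r3_20100 + (-q) * h.r1_40000 + (4*q) * h.r1_21000 + (-c^2*q - 3*q) *
    h.r1_02000 + (c^2*q + 4*q) * h.r2_11000 + (-c^2*q - 2*q) * h.r4_00010 + (c^2*q) * h.r6_00000
    + (-c^3*q - c*q) * h.r4_01000 + (-1) * h.r9_00200 + (c) * h.r8_10001 + (-2*q) * h.n2 +
    (-c^2*q + 2*q) * h.r3_10010 + (-2*q) * h.r2_30000 + (-4*q) * h.r3_01100 + (-2*q) * h.n1 +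
    (-c*q) * h.n4 + (c*q) * h.r3_00110 + (-c*q) * h.r1_20010 + (c*q) * h.r1_01010 + (-c*q) *
    h.r3_10200 + (-c*q) * h.n3 + (-c*q) * h.r2_01100 + (c*q) * h.r4_00200 + (c) * h.r9_10100 +
    (c*q) * h.r2_20100

theorem v01102 (h : L62 j a mu l c q) :
    j 0 1 1 0 2 = 0 := by
  linear_combination
    (1) * h.r7_00101

theorem v01111 (h : L62 j a mu l c q) :
    j 0 1 1 1 1 = 0 := by
  linear_combination
    (1) * h.r7_00110

theorem v01120 (h : L62 j a mu l c q) :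
    j 0 1 1 2 0 = -mu + l := by
  linear_combination
    (1) * h.r1_01010 + (1) * h.n4 + (1) * h.r4_00200 + (-1) * h.r2_01100 + (c) * h.r4_00010 +
    (-1) * h.n3

theorem v01301 (h : L62 j a mu l c q) :
    j 0 1 3 0 1 = 0 := by
  linear_combination
    (1) * h.r7_00300

theorem v01310 (h : L62 j a mu l c q) :
    j 0 1 3 1 0 = 4*a - mu*c + 3*l*c + 1 := by
  linear_combination
    (1) * h.r1_01200 + (1) * h.r3_00300 + (-2) * h.r2_10200 + (1) * h.r1_10110 + (2) * h.r1_40000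
    + (-7) * h.r1_21000 + (-c) * h.r2_01100 + (c) * h.r1_01010 + (5) * h.r1_02000 + (3) *
    h.r2_30000 + (-7) * h.r2_11000 + (4) * h.n2 + (c^2 + 4) * h.r4_00010 + (-2) * h.r6_00000 +
    (-3) * h.r3_10010 + (6) * h.r3_01100 + (-c) * h.r4_20000 + (1) * h.n1 + (3*c) * h.n4 + (3*c)
    * h.r4_01000 + (c) * h.r3_00110 + (-3) * h.r3_20100 + (-c) * h.n3 + (2*c) * h.r4_00200

theorem v01500 (h : L62 j a mu l c q) :
    j 0 1 5 0 0 = 2*a*c - (3/4)*mu*c^2 + (3/4)*mu + (7/4)*l*c^2 + (3/4)*l - (1/2)*c + (1/4)*(j 2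
    0 5 0 0) := by
  linear_combination
    (-1) * h.r2_00300 + ((1/2)) * h.r1_00210 + ((1/4)) * h.r1_10300 + ((3/4)) * h.r1_30100 + (c)
    * h.r1_40000 + (-(3/2)) * h.r1_11100 + ((3/4)*c) * h.r1_10110 + ((1/4)*c) * h.r1_01200 +
    (-(5/2)*c) * h.r1_21000 + ((3/4)) * h.r1_20010 + (-(1/4)) * h.r3_10200 + (-(3/4)) *
    h.r2_20100 + (-(3/4)*c^2 + (3/4)) * h.r2_01100 + ((3/4)*c^2 - (3/4)) * h.r1_01010 + ((9/4)*c)
    * h.r1_02000 + ((1/2)*c) * h.r2_30000 + (-(13/4)*c) * h.r2_11000 + (c^2 + (1/4)) * h.r4_00200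
    + ((3/4)*c^2 - (3/4)) * h.r3_00110 + (-(3/4)) * h.r3_30000 + (-(1/2)*c) * h.r3_20100 +
    ((7/4)*c^2 + (3/4)) * h.n4 + ((5/4)*c^2 - (3/2)) * h.r4_01000 + (-(3/4)*c^2 + (3/4)) * h.n3 +
    ((3/4)*c^3 + (11/4)*c) * h.r4_00010 + (-(7/4)*c) * h.r6_00000 + (c) * h.r3_00300 + (-c) *
    h.r2_10200 + (2*c) * h.n2 + ((1/4)*c) * h.r3_10010 + (c) * h.r3_01100 + ((1/2)*c^2 + (9/4)) *
    h.r4_20000 + (-(1/2)*c) * h.n1

theorem v02101 (h : L62 j a mu l c q) :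
    j 0 2 1 0 1 = 0 := by
  linear_combination
    (1) * h.r7_10010 + (-1) * h.r4_00001

theorem v02110 (h : L62 j a mu l c q) :
    j 0 2 1 1 0 = 0 := by
  linear_combination
    (1) * h.r1_02000 + (1) * h.r4_00010 + (-1) * h.r6_00000 + (-1) * h.r2_11000 + (c) *
    h.r4_01000

theorem v02300 (h : L62 j a mu l c q) :
    j 0 2 3 0 0 = -2*mu + l := by
  linear_combination
    (1) * h.n4 + (1) * h.r4_01000 + (2) * h.r3_00110 + (-1) * h.r1_20010 + (1) * h.r1_11100 + (2)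
    * h.r1_01010 + (-1) * h.r3_10200 + (-2) * h.n3 + (-2) * h.r2_01100 + (1) * h.r4_00200 + (c) *
    h.r4_00010 + (-1) * h.r4_20000 + (-c) * h.r3_10010 + (c) * h.r3_01100

theorem v03100 (h : L62 j a mu l c q) :
    j 0 3 1 0 0 = 0 := by
  linear_combination
    (-(1/2)) * h.r3_30000 + ((1/2)) * h.r1_01010 + ((1/2)) * h.r1_11100 + (-1) * h.r4_01000 + (1)
    * h.r3_00110 + (-(1/2)) * h.r1_20010 + (-(1/2)) * h.r3_10200 + (1) * h.r4_20000 + (-(1/2)*c)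
    * h.r3_10010 + ((1/2)*c) * h.r3_01100

theorem v10003 (h : L62 j a mu l c q) :
    j 1 0 0 0 3 = 0 := by
  linear_combination
    (1) * h.r9_00001 + (-q) * h.r3_00101 + (q) * h.r1_20001 + (-(3/2)*q) * h.r1_01001 + ((1/2)*q)
    * h.r7_30000 + (2*q) * h.r7_00110 + (-(5/2)*q) * h.r7_10200 + (-(3/2)*c*q) * h.r4_00001 +
    (-q) * h.r8_20100 + (c*q) * h.r3_10001 + (c*q) * h.r7_10010

theorem v10012 (h : L62 j a mu l c q) :
    j 1 0 0 1 2 = -mu*q := by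
  linear_combination
    (1) * h.r8_10001 + (1) * h.r9_10100 + (q) * h.r2_20100 + (-q) * h.r1_20010 + (q) * h.r1_01010
    + (-c*q) * h.r1_02000 + (q) * h.r3_00110 + (c*q) * h.r2_11000 + (-q) * h.r3_10200 + (q) *
    h.r4_00200 + (-c*q) * h.r4_00010 + (c*q) * h.r6_00000 + (-c^2*q + q) * h.r4_01000 + (-q) *
    h.r4_20000 + (-c*q) * h.r3_10010 + (-q) * h.n3 + (-q) * h.r2_01100

theorem v10021 (h : L62 j a mu l c q) :
    j 1 0 0 2 1 = 0 := by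
  linear_combination
    (1) * h.r2_10001 + ((5/2)) * h.r7_10200 + (1) * h.r3_00101 + (-1) * h.r1_20001 + ((1/2)) *
    h.r1_01001 + (-(1/2)) * h.r7_30000 + ((1/2)*c) * h.r4_00001 + (1) * h.r8_20100 + (-c) *
    h.r3_10001 + (-c) * h.r7_10010

theorem v10030 (h : L62 j a mu l c q) :
    j 1 0 0 3 0 = -mu + 2*l := by
  linear_combination
    (1) * h.r2_10010 + (-2) * h.r2_01100 + (1) * h.r1_01010 + (2) * h.n4 + (2) * h.r4_00200 + (c)
    * h.r4_00010 + (-1) * h.n3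

theorem v10202 (h : L62 j a mu l c q) :
    j 1 0 2 0 2 = 2*a*q + l*c*q + q := by
  linear_combination
    (1) * h.r9_00200 + (4*q) * h.r3_01100 + (-4*q) * h.r1_21000 + (2*q) * h.r4_00010 + (-q) *
    h.r6_00000 + (2*c*q) * h.r4_01000 + (3*q) * h.r1_02000 + (2*q) * h.r2_30000 + (q) *
    h.r1_40000 + (-2*q) * h.r3_20100 + (-2*q) * h.r3_10010 + (c*q) * h.n4 + (2*q) * h.n2 + (-4*q)
    * h.r2_11000 + (-c*q) * h.r4_20000 + (q) * h.n1

theorem v10211 (h : L62 j a mu l c q) :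
    j 1 0 2 1 1 = 0 := by
  linear_combination
    (2) * h.r1_10101 + (-2) * h.r8_10200 + (-2) * h.r2_00101 + (1) * h.r1_00011 + (-c) *
    h.r1_20001 + ((1/2)*c) * h.r1_01001 + (3) * h.r7_20100 + ((5/2)*c) * h.r7_10200 + (-2) *
    h.r7_00300 + (-c^2 - 3) * h.r7_10010 + ((1/2)*c^2 + 2) * h.r4_00001 + (-c^2 + 1) * h.r3_10001
    + (c) * h.r2_10001 + (3*c) * h.r3_00101 + (-(1/2)*c) * h.r7_30000 + (c) * h.r7_00110 + (c) *
    h.r8_20100

theorem v10220 (h : L62 j a mu l c q) :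
    j 1 0 2 2 0 = 6*a - 2*mu*c + 5*l*c + 1 := by
  linear_combination
    (-10) * h.r1_21000 + (-3) * h.r2_10200 + (8) * h.r3_01100 + (2*c^2 + 6) * h.r4_00010 + (-3) *
    h.r6_00000 + (4*c) * h.r4_01000 + (7) * h.r1_02000 + (4) * h.r2_30000 + (3) * h.r1_40000 +
    (-4) * h.r3_20100 + (-4) * h.r3_10010 + (5*c) * h.n4 + (6) * h.n2 + (-10) * h.r2_11000 + (-c)
    * h.r4_20000 + (1) * h.n1 + (2*c) * h.r3_00110 + (2*c) * h.r1_01010 + (2) * h.r3_00300 + (1)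
    * h.r1_01200 + (2) * h.r1_10110 + (-2*c) * h.r2_01100 + (-2*c) * h.n3 + (3*c) * h.r4_00200

theorem v10401 (h : L62 j a mu l c q) :
    j 1 0 4 0 1 = 0 := by
  linear_combination
    (-2) * h.r8_00300 + (1) * h.r1_00201 + ((5/2)*c^2 - 1) * h.r7_10200 + (2*c) * h.r1_10101 +
    (-3*c) * h.r7_00300 + (-2*c) * h.r2_00101 + (c) * h.r1_00011 + (-c^2) * h.r1_20001 +
    ((1/2)*c^2) * h.r1_01001 + (3*c) * h.r7_20100 + (-c^3 - 3*c) * h.r7_10010 + ((1/2)*c^3 + 2*c)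
    * h.r4_00001 + (-c^3 + c) * h.r3_10001 + (c^2) * h.r2_10001 + (3*c^2 + 1) * h.r3_00101 +
    (-(1/2)*c^2) * h.r7_30000 + (c^2 + 1) * h.r7_00110 + (c^2 - 1) * h.r8_20100 + (-2*c) *
    h.r8_10200

theorem v10410 (h : L62 j a mu l c q) :
    j 1 0 4 1 0 = 2*a*c - (1/2)*mu*c^2 - (7/2)*mu + (3/2)*l*c^2 - (1/2)*l + c + (1/2)*(j 2 0 5 0
    0) := by
  linear_combination
    (-(1/2)) * h.r1_30100 + (c) * h.r1_40000 + ((5/2)) * h.r1_11100 + ((1/2)*c) * h.r1_10110 +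
    ((1/2)*c) * h.r1_01200 + (-4*c) * h.r1_21000 + (-3) * h.r1_20010 + (-2) * h.r3_10200 +
    ((1/2)) * h.r2_20100 + (-(1/2)*c^2 - (5/2)) * h.r2_01100 + ((1/2)*c^2 + 4) * h.r1_01010 +
    ((3/2)*c) * h.r1_02000 + (2*c) * h.r2_30000 + (-(5/2)*c) * h.r2_11000 + (c^2 + (5/2)) *
    h.r4_00200 + ((1/2)*c^2 + (11/2)) * h.r3_00110 + (1) * h.r3_30000 + (-2*c) * h.r3_20100 + (c)
    * h.r3_00300 + (-c) * h.r2_10200 + ((1/2)) * h.r1_10300 + ((3/2)*c^2 - (1/2)) * h.n4 +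
    ((1/2)*c^2 + 3) * h.r4_01000 + (-(1/2)*c^2 - (7/2)) * h.n3 + ((1/2)*c^3 + (3/2)*c) *
    h.r4_00010 + ((1/2)*c) * h.r6_00000 + (2*c) * h.n2 + (-5*c) * h.r3_10010 + ((11/2)*c) *
    h.r3_01100 + (-c^2 - (9/2)) * h.r4_20000 + (c) * h.n1

theorem v10600 (_ : L62 j a mu l c q) : j 1 0 6 0 0 = (j 1 0 6 0 0) := rfl

theorem v11002 (h : L62 j a mu l c q) :
    j 1 1 0 0 2 = 0 := by
  linear_combination
    (1) * h.r7_10001

theorem v11011 (h : L62 j a mu l c q) :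
    j 1 1 0 1 1 = 0 := by
  linear_combination
    (1) * h.r7_10010

theorem v11020 (h : L62 j a mu l c q) :
    j 1 1 0 2 0 = 0 := by
  linear_combination
    (2) * h.r4_00010 + (-1) * h.r6_00000 + (1) * h.r1_02000 + (-1) * h.r2_11000 + (c) *
    h.r4_01000

theorem v11201 (h : L62 j a mu l c q) :
    j 1 1 2 0 1 = 0 := by
  linear_combination
    (1) * h.r7_10200

theorem v11210 (h : L62 j a mu l c q) :
    j 1 1 2 1 0 = -2*mu + l := by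
  linear_combination
    (1) * h.r1_11100 + (2) * h.r4_00200 + (-2) * h.r2_01100 + (2) * h.r1_01010 + (2) * h.r3_00110
    + (-1) * h.r1_20010 + (-1) * h.r3_10200 + (c) * h.r4_00010 + (-c) * h.r3_10010 + (c) *
    h.r3_01100 + (-1) * h.r4_20000 + (1) * h.n4 + (1) * h.r4_01000 + (-2) * h.n3

theorem v11400 (h : L62 j a mu l c q) :
    j 1 1 4 0 0 = 9*a - 2*mu*c + 6*l*c + 3 := by
  linear_combination
    (2) * h.r3_00300 + (1) * h.r1_01200 + (-4) * h.r2_10200 + (2) * h.r1_10110 + (4) * h.r1_40000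
    + (-15) * h.r1_21000 + (-2*c) * h.r2_01100 + (2*c) * h.r1_01010 + (10) * h.r1_02000 + (8) *
    h.r2_30000 + (-16) * h.r2_11000 + (12) * h.r3_01100 + (2*c^2 + 8) * h.r4_00010 + (-3) *
    h.r6_00000 + (6*c) * h.r4_01000 + (-6) * h.r3_20100 + (-8) * h.r3_10010 + (6*c) * h.n4 + (9)
    * h.n2 + (-3*c) * h.r4_20000 + (3) * h.n1 + (3*c) * h.r4_00200 + (2*c) * h.r3_00110 + (-2*c)
    * h.n3

theorem v12001 (h : L62 j a mu l c q) :
    j 1 2 0 0 1 = 0 := by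
  linear_combination
    (-1) * h.r7_00110 + ((1/2)) * h.r1_01001 + ((1/2)) * h.r7_10200 + ((1/2)) * h.r7_30000 +
    ((1/2)*c) * h.r4_00001

theorem v12010 (h : L62 j a mu l c q) :
    j 1 2 0 1 0 = 0 := by
  linear_combination
    (-(1/2)) * h.r3_30000 + ((1/2)) * h.r1_01010 + ((1/2)) * h.r1_11100 + (1) * h.r3_00110 +
    (-(1/2)) * h.r1_20010 + (-(1/2)) * h.r3_10200 + (1) * h.r4_20000 + (-(1/2)*c) * h.r3_10010 +
    ((1/2)*c) * h.r3_01100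

theorem v12200 (h : L62 j a mu l c q) :
    j 1 2 2 0 0 = -1 := by
  linear_combination
    (-1) * h.n1 + (1) * h.r1_21000 + (1) * h.r4_00010 + (-1) * h.r6_00000 + (1) * h.r3_10010 +
    (-1) * h.r2_30000 + (-1) * h.r3_01100 + (c) * h.r4_20000

theorem v13000 (h : L62 j a mu l c q) :
    j 1 3 0 0 0 = a - 1 := by
  linear_combination
    (1) * h.n2 + (-1) * h.n1

theorem v20102 (h : L62 j a mu l c q) :
    j 2 0 1 0 2 = -mu*q := by
  linear_combination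
    (1) * h.r9_10100 + (q) * h.r2_20100 + (-q) * h.r1_20010 + (q) * h.r1_01010 + (-c*q) *
    h.r1_02000 + (q) * h.r3_00110 + (c*q) * h.r2_11000 + (-q) * h.r3_10200 + (q) * h.r4_00200 +
    (-c*q) * h.r4_00010 + (c*q) * h.r6_00000 + (-c^2*q + q) * h.r4_01000 + (-q) * h.r4_20000 +
    (-c*q) * h.r3_10010 + (-q) * h.n3 + (-q) * h.r2_01100

theorem v20111 (h : L62 j a mu l c q) :
    j 2 0 1 1 1 = 0 := by
  linear_combination
    (1) * h.r3_00101 + (1) * h.r7_10200 + (1) * h.r7_00110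

theorem v20120 (h : L62 j a mu l c q) :
    j 2 0 1 2 0 = -3*mu + 2*l := by
  linear_combination
    (-1) * h.r1_20010 + (-3) * h.r2_01100 + (3) * h.r1_01010 + (1) * h.r1_11100 + (-1) *
    h.r4_20000 + (1) * h.r4_01000 + (2) * h.n4 + (-1) * h.r3_10200 + (2*c) * h.r4_00010 + (-c) *
    h.r3_10010 + (c) * h.r3_01100 + (3) * h.r3_00110 + (-3) * h.n3 + (3) * h.r4_00200

theorem v20301 (h : L62 j a mu l c q) :
    j 2 0 3 0 1 = 0 := by
  linear_combination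
    (-3) * h.r8_10200 + (2) * h.r1_10101 + (-2) * h.r2_00101 + (1) * h.r1_00011 + (-c) *
    h.r1_20001 + ((1/2)*c) * h.r1_01001 + (3) * h.r7_20100 + ((5/2)*c) * h.r7_10200 + (-2) *
    h.r7_00300 + (-c^2 - 3) * h.r7_10010 + ((1/2)*c^2 + 2) * h.r4_00001 + (-c^2 + 1) * h.r3_10001
    + (c) * h.r2_10001 + (3*c) * h.r3_00101 + (-(1/2)*c) * h.r7_30000 + (c) * h.r7_00110 + (c) *
    h.r8_20100

theorem v20310 (h : L62 j a mu l c q) :
    j 2 0 3 1 0 = 13*a - 3*mu*c + 9*l*c + 4 := by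
  linear_combination
    (-6) * h.r2_10200 + (3) * h.r1_10110 + (6) * h.r1_40000 + (-22) * h.r1_21000 + (18) *
    h.r3_01100 + (3*c^2 + 12) * h.r4_00010 + (-5) * h.r6_00000 + (9*c) * h.r4_01000 + (15) *
    h.r1_02000 + (11) * h.r2_30000 + (-9) * h.r3_20100 + (-11) * h.r3_10010 + (9*c) * h.n4 + (13)
    * h.n2 + (-23) * h.r2_11000 + (-4*c) * h.r4_20000 + (4) * h.n1 + (5*c) * h.r4_00200 + (-3*c)
    * h.r2_01100 + (3*c) * h.r1_01010 + (3*c) * h.r3_00110 + (4) * h.r3_00300 + (2) * h.r1_01200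
    + (-3*c) * h.n3

theorem v20500 (_ : L62 j a mu l c q) : j 2 0 5 0 0 = (j 2 0 5 0 0) := rfl

theorem v21101 (h : L62 j a mu l c q) :
    j 2 1 1 0 1 = 0 := by
  linear_combination
    (1) * h.r7_20100

theorem v21110 (h : L62 j a mu l c q) :
    j 2 1 1 1 0 = -1 := by
  linear_combination
    (1) * h.r1_21000 + (-1) * h.r2_11000 + (2) * h.r4_00010 + (-2) * h.r6_00000 + (1) *
    h.r3_10010 + (-1) * h.r2_30000 + (c) * h.r4_20000 + (-1) * h.n1 + (1) * h.r1_02000 + (c) *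
    h.r4_01000

theorem v21300 (h : L62 j a mu l c q) :
    j 2 1 3 0 0 = -5*mu + l := by
  linear_combination
    (4) * h.r4_00200 + ((5/2)) * h.r1_11100 + (-4) * h.r2_01100 + ((11/2)) * h.r1_01010 + (-c) *
    h.r1_02000 + (7) * h.r3_00110 + (-(7/2)) * h.r1_20010 + ((1/2)) * h.r3_30000 + (c) *
    h.r2_11000 + (-(7/2)) * h.r3_10200 + (1) * h.n4 + (-c^2 + 3) * h.r4_01000 + (-5) * h.n3 + (c)
    * h.r4_00010 + (c) * h.r6_00000 + (-(7/2)*c) * h.r3_10010 + ((5/2)*c) * h.r3_01100 + (-4) *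
    h.r4_20000

theorem v22100 (h : L62 j a mu l c q) :
    j 2 2 1 0 0 = l := by
  linear_combination
    (-1) * h.r3_30000 + (2) * h.r4_20000 + (-1) * h.r4_01000 + (1) * h.n4

theorem v30002 (h : L62 j a mu l c q) :
    j 3 0 0 0 2 = 2*a*q + mu*c*q + l*c*q + q := by
  linear_combination
    (2) * h.r8_00101 + (-1) * h.r1_00002 + (2) * h.r7_10001 + (c) * h.r7_00101 + (1) * h.r9_00200
    + (-c) * h.r8_10001 + (4*q) * h.r3_01100 + (-4*q) * h.r1_21000 + (c^2*q + 2*q) * h.r4_00010 +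
    (-c^2*q - q) * h.r6_00000 + (c^3*q + c*q) * h.r4_01000 + (c^2*q + 3*q) * h.r1_02000 + (2*q) *
    h.r2_30000 + (q) * h.r1_40000 + (-2*q) * h.r3_20100 + (c^2*q - 2*q) * h.r3_10010 + (c*q) *
    h.n4 + (2*q) * h.n2 + (-c^2*q - 4*q) * h.r2_11000 + (q) * h.n1 + (-c) * h.r9_10100 + (-c*q) *
    h.r2_20100 + (c*q) * h.r1_20010 + (-c*q) * h.r1_01010 + (-c*q) * h.r3_00110 + (c*q) *
    h.r3_10200 + (-c*q) * h.r4_00200 + (c*q) * h.n3 + (c*q) * h.r2_01100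

theorem v30011 (h : L62 j a mu l c q) :
    j 3 0 0 1 1 = 0 := by
  linear_combination
    (1) * h.r3_10001 + (1) * h.r7_20100 + (1) * h.r7_10010

theorem v30020 (h : L62 j a mu l c q) :
    j 3 0 0 2 0 = -1 := by
  linear_combination
    (-1) * h.r2_30000 + (-2) * h.r2_11000 + (4) * h.r4_00010 + (-3) * h.r6_00000 + (2) *
    h.r3_10010 + (1) * h.r1_21000 + (c) * h.r4_20000 + (-1) * h.n1 + (2) * h.r1_02000 + (2*c) *
    h.r4_01000

theorem v30201 (h : L62 j a mu l c q) :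
    j 3 0 2 0 1 = 0 := by
  linear_combination
    (-1) * h.r8_20100 + (1) * h.r3_00101 + (1) * h.r7_10200 + (1) * h.r7_00110

theorem v30210 (h : L62 j a mu l c q) :
    j 3 0 2 1 0 = -7*mu + 2*l := by
  linear_combination
    (-(7/2)) * h.r3_10200 + ((7/2)) * h.r1_11100 + (-(9/2)) * h.r1_20010 + (-6) * h.r2_01100 +
    ((15/2)) * h.r1_01010 + (-c) * h.r1_02000 + (c) * h.r2_11000 + (2*c) * h.r4_00010 + (c) *
    h.r6_00000 + (-(9/2)*c) * h.r3_10010 + ((7/2)*c) * h.r3_01100 + (-5) * h.r4_20000 + (6) *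
    h.r4_00200 + (9) * h.r3_00110 + ((1/2)) * h.r3_30000 + (-c^2 + 4) * h.r4_01000 + (2) * h.n4 +
    (-7) * h.n3

theorem v30400 (h : L62 j a mu l c q) :
    j 3 0 4 0 0 = 30*a - 4*mu*c + 18*l*c + 12 := by
  linear_combination
    (-12) * h.r2_10200 + (6) * h.r1_10110 + (-1) * h.r1_20200 + (13) * h.r1_40000 + (-51) *
    h.r1_21000 + (c) * h.r1_20010 + (-c) * h.r1_11100 + (8) * h.r3_00300 + (4) * h.r1_01200 +
    (-4*c) * h.r2_01100 + (4*c) * h.r1_01010 + (33) * h.r1_02000 + (29) * h.r2_30000 + (-54) *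
    h.r2_11000 + (-c^2 + 41) * h.r3_01100 + (5*c^2 + 25) * h.r4_00010 + (-8) * h.r6_00000 +
    (19*c) * h.r4_01000 + (-20) * h.r3_20100 + (c^2 - 29) * h.r3_10010 + (18*c) * h.n4 + (30) *
    h.n2 + (-11*c) * h.r4_20000 + (12) * h.n1 + (8*c) * h.r4_00200 + (4*c) * h.r3_00110 + (-4*c)
    * h.n3

theorem v31001 (h : L62 j a mu l c q) :
    j 3 1 0 0 1 = 0 := by
  linear_combination
    (1) * h.r7_30000

theorem v31010 (h : L62 j a mu l c q) :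
    j 3 1 0 1 0 = l := by
  linear_combination
    (3) * h.r4_20000 + (-1) * h.r3_30000 + (-1) * h.r4_01000 + (1) * h.n4

theorem v31200 (h : L62 j a mu l c q) :
    j 3 1 2 0 0 = -a - 3 := by
  linear_combination
    (-1) * h.n2 + (2) * h.r2_11000 + (2) * h.r4_00010 + (-3) * h.r6_00000 + (4) * h.r3_10010 +
    (-4) * h.r2_30000 + (-2) * h.r3_01100 + (3) * h.r1_21000 + (3*c) * h.r4_20000 + (-3) * h.n1

theorem v32000 (h : L62 j a mu l c q) :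
    j 3 2 0 0 0 = 2*a - 1 := by
  linear_combination
    (-1) * h.r6_00000 + (1) * h.r4_00010 + (-2) * h.r2_11000 + (1) * h.r1_02000 + (c) *
    h.r4_01000 + (-1) * h.r3_10010 + (1) * h.r2_30000 + (-1) * h.r1_21000 + (-1) * h.n1 + (1) *
    h.r3_01100 + (-c) * h.r4_20000 + (2) * h.n2

theorem v40101 (h : L62 j a mu l c q) :
    j 4 0 1 0 1 = 0 := by
  linear_combination
    (-2) * h.r2_00101 + (1) * h.r1_00011 + (1) * h.r1_10101 + (-c) * h.r1_20001 + ((1/2)*c) *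
    h.r1_01001 + (-2) * h.r7_00300 + (5) * h.r7_20100 + (-c^2 - 3) * h.r7_10010 + ((1/2)*c^2 + 2)
    * h.r4_00001 + (-c^2 + 1) * h.r3_10001 + (c) * h.r2_10001 + (-1) * h.r8_10200 + ((5/2)*c) *
    h.r7_10200 + (2*c) * h.r3_00101 + (-(1/2)*c) * h.r7_30000 + (c) * h.r8_20100

theorem v40110 (h : L62 j a mu l c q) :
    j 4 0 1 1 0 = -a - 4 := by
  linear_combination
    (-2) * h.r3_01100 + (4) * h.r1_21000 + (4) * h.r4_00010 + (-5) * h.r6_00000 + (1) *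
    h.r1_02000 + (-5) * h.r2_30000 + (1) * h.r3_20100 + (5) * h.r3_10010 + (1) * h.r2_11000 +
    (-4) * h.n1 + (4*c) * h.r4_20000 + (-1) * h.n2 + (c) * h.r4_01000

theorem v40300 (h : L62 j a mu l c q) :
    j 4 0 3 0 0 = -17*mu + l + c := by
  linear_combination
    (-11) * h.r3_10200 + (-1) * h.r1_30100 + (10) * h.r1_11100 + (1) * h.r2_20100 + (-13) *
    h.r1_20010 + (-c) * h.r1_21000 + (-13) * h.r2_01100 + (19) * h.r1_01010 + (-4*c) * h.r1_02000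
    + (c) * h.r2_30000 + (4*c) * h.r2_11000 + (13) * h.r4_00200 + (25) * h.r3_00110 + (3) *
    h.r3_30000 + (-c) * h.r3_20100 + (c) * h.r4_00010 + (5*c) * h.r6_00000 + (-14*c) * h.r3_10010
    + (10*c) * h.r3_01100 + (-c^2 - 17) * h.r4_20000 + (c) * h.n1 + (-4*c^2 + 12) * h.r4_01000 +
    (1) * h.n4 + (-17) * h.n3

theorem v41100 (h : L62 j a mu l c q) :
    j 4 1 1 0 0 = mu + 3*l := by
  linear_combination
    (-(3/2)) * h.r1_01010 + (-(3/2)) * h.r1_11100 + (3) * h.n4 + (-(5/2)) * h.r3_30000 + (-3) *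
    h.r4_01000 + (-3) * h.r3_00110 + ((3/2)) * h.r1_20010 + ((3/2)) * h.r3_10200 + (1) * h.n3 +
    (6) * h.r4_20000 + ((3/2)*c) * h.r3_10010 + (-(3/2)*c) * h.r3_01100

theorem v50001 (h : L62 j a mu l c q) :
    j 5 0 0 0 1 = 0 := by
  linear_combination
    (1) * h.r3_00101 + (-1) * h.r1_20001 + (1) * h.r7_10200 + (1) * h.r8_20100 + (1) * h.r7_00110
    + (2) * h.r7_30000 + (-c) * h.r3_10001 + (-c) * h.r7_10010

theorem v50010 (h : L62 j a mu l c q) :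
    j 5 0 0 1 0 = mu + 4*l := by
  linear_combination
    (-(5/2)) * h.r3_30000 + (-(3/2)) * h.r1_01010 + (-(3/2)) * h.r1_11100 + (9) * h.r4_20000 +
    (-4) * h.r4_01000 + (4) * h.n4 + (-3) * h.r3_00110 + ((3/2)) * h.r1_20010 + ((3/2)) *
    h.r3_10200 + (1) * h.n3 + ((3/2)*c) * h.r3_10010 + (-(3/2)*c) * h.r3_01100

theorem v50200 (h : L62 j a mu l c q) :
    j 5 0 2 0 0 = -6*a - l*c - 10 := by
  linear_combination
    (-9) * h.r3_01100 + (13) * h.r1_21000 + (3) * h.r4_00010 + (-8) * h.r6_00000 + (-2*c) *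
    h.r4_01000 + (-3) * h.r1_02000 + (-15) * h.r2_30000 + (-1) * h.r1_40000 + (2) * h.r3_20100 +
    (15) * h.r3_10010 + (-c) * h.n4 + (-10) * h.n1 + (10*c) * h.r4_20000 + (-6) * h.n2 + (12) *
    h.r2_11000

theorem v51000 (h : L62 j a mu l c q) :
    j 5 1 0 0 0 = 5*a - 1 := by
  linear_combination
    (4) * h.r4_00010 + (-8) * h.r2_11000 + (4) * h.r1_02000 + (-4) * h.r1_21000 + (-3) *
    h.r6_00000 + (-4) * h.r3_10010 + (4) * h.r2_30000 + (5) * h.n2 + (4) * h.r3_01100 + (-4*c) *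
    h.r4_20000 + (-1) * h.n1 + (4*c) * h.r4_01000

theorem v60100 (h : L62 j a mu l c q) :
    j 6 0 1 0 0 = 5*mu + 9*l := by
  linear_combination
    (-1) * h.r2_20100 + (7) * h.r1_20010 + (-1) * h.r4_00200 + (-6) * h.r1_11100 + (1) *
    h.r2_01100 + (-7) * h.r1_01010 + (c) * h.r1_02000 + (-13) * h.r3_00110 + (-7) * h.r3_30000 +
    (-c) * h.r2_11000 + (7) * h.r3_10200 + (19) * h.r4_20000 + (c^2 - 10) * h.r4_01000 + (9) *
    h.n4 + (c) * h.r4_00010 + (-c) * h.r6_00000 + (7*c) * h.r3_10010 + (-6*c) * h.r3_01100 + (5)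
    * h.n3

theorem v70000 (h : L62 j a mu l c q) :
    j 7 0 0 0 0 = 14*a := by
  linear_combination
    (-13) * h.r1_21000 + (13) * h.r1_02000 + (-26) * h.r2_11000 + (14) * h.n2 + (13) * h.r4_00010
    + (-8) * h.r6_00000 + (-13) * h.r3_10010 + (13) * h.r2_30000 + (13) * h.r3_01100 + (-13*c) *
    h.r4_20000 + (13*c) * h.r4_01000

end T62H

open T62H in
/-- the table -/
theorem t62 {a mu l c q : ℝ} {j : ℕ → ℕ → ℕ → ℕ → ℕ → ℝ} (h : L62 j a mu l c q) :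
    T62 j a mu l c q (j 2 0 5 0 0) (j 1 0 6 0 0) :=
  ⟨r0 h, v01102 h, v01111 h, v01120 h, v01301 h, v01310 h, v01500 h, v02101 h, v02110 h,
  v02300 h, v03100 h, v10003 h, v10012 h, v10021 h, v10030 h, v10202 h, v10211 h, v10220 h,
  v10401 h, v10410 h, v10600 h, v11002 h, v11011 h, v11020 h, v11201 h, v11210 h, v11400 h,
  v12001 h, v12010 h, v12200 h, v13000 h, v20102 h, v20111 h, v20120 h, v20301 h, v20310 h,
  v20500 h, v21101 h, v21110 h, v21300 h, v22100 h, v30002 h, v30011 h, v30020 h, v30201 h,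
  v30210 h, v30400 h, v31001 h, v31010 h, v31200 h, v32000 h, v40101 h, v40110 h, v40300 h,
  v41100 h, v50001 h, v50010 h, v50200 h, v51000 h, v60100 h, v70000 h⟩

end Vale.Agent.P280Z.M2
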